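import Crest.Agent.R46.Defs

/-! Rigidity of real tilings: blocks at bounded distance are aligned. -/

set_option autoImplicit false
set_option linter.unusedSectionVars false

namespace Crest.Agent.R46

open Finset Crest.CombinatoricsR.Tiling Crest.Agent.R34

/-- an almost sure property holds somewhere in every nonempty open box -/
theorem align_box {P : (Fin 3 → ℝ) → Prop} (h : ∀ᵐ x : Fin 3 → ℝ, P x) (lo hi : Fin 3 → ℝ)
    (hlt : ∀ i, lo i < hi i) : ∃ x, (∀ i, lo i < x i ∧ x i < hi i) ∧ P x := by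
  have ho : IsOpen (Set.pi Set.univ fun i => Set.Ioo (lo i) (hi i)) :=
    isOpen_set_pi Set.finite_univ fun i _ => isOpen_Ioo
  have hne : (Set.pi Set.univ fun i => Set.Ioo (lo i) (hi i)).Nonempty :=
    Set.univ_pi_nonempty_iff.2 fun i => Set.nonempty_Ioo.2 (hlt i)
  have hpos := ho.measure_ne_zero MeasureTheory.volume hne
  obtain ⟨x, hx, hP⟩ := MeasureTheory.Measure.exists_mem_of_measure_ne_zero_of_ae hpos
    (MeasureTheory.ae_restrict_of_ae h)
  exact ⟨x, fun i => hx i (Set.mem_univ i), hP⟩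

/-- two translates whose cubes overlap in an open set coincide -/
theorem eq_of_overlap {T : Finset (Fin 3 → ℤ)} {B : Set (Fin 3 → ℝ)}
    (h : IsAETilingBy (cubeThickening T) B) {b b' : Fin 3 → ℝ} (hb : b ∈ B) (hb' : b' ∈ B)
    {z z' : Fin 3 → ℤ} (hz : z ∈ T) (hz' : z' ∈ T)
    (hd : ∀ i, |(b i + z i) - (b' i + z' i)| < 1) : b = b' := by
  obtain ⟨x, hx, a, -, ha⟩ := align_box h (fun i => max (b i + z i) (b' i + z' i))
    (fun i => min (b i + z i) (b' i + z' i) + 1) fun i => by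
      have := abs_lt.1 (hd i)
      rcases le_total (b i + z i) (b' i + z' i) with h1 | h1
      · rw [max_eq_right h1, min_eq_left h1]; linarith
      · rw [max_eq_left h1, min_eq_right h1]; linarith
  have e1 := ha b ⟨hb, z, hz, fun i => by
    have h1 := hx i
    have h2 := le_max_left (b i + z i) (b' i + z' i)
    have h3 := min_le_left (b i + z i) (b' i + z' i)
    rw [Pi.sub_apply]
    constructor <;> linarith [h1.1, h1.2]⟩
  have e2 := ha b' ⟨hb', z', hz', fun i => by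
    have h1 := hx i
    have h2 := le_max_right (b i + z i) (b' i + z' i)
    have h3 := min_le_right (b i + z i) (b' i + z' i)
    rw [Pi.sub_apply]
    constructor <;> linarith [h1.1, h1.2]⟩
  exact e1.trans e2.symm

/-- every open unit cube meets a translate in an interior point of one of its cubes -/
theorem exists_cover {T : Finset (Fin 3 → ℤ)} {B : Set (Fin 3 → ℝ)}
    (h : IsAETilingBy (cubeThickening T) B) (y : Fin 3 → ℝ) :
    ∃ b ∈ B, ∃ z ∈ T, ∀ i, |(b i + z i) - y i| < 1 := by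
  obtain ⟨x, hx, a, ⟨ha, z, hz, hxz⟩, -⟩ := align_box h y (fun i => y i + 1) fun i => by linarith
  refine ⟨a, ha, z, hz, fun i => ?_⟩
  have h1 := hx i
  have h2 := hxz i
  rw [Pi.sub_apply] at h2
  rw [abs_lt]
  constructor <;> linarith [h1.1, h1.2, h2.1, h2.2]

theorem align_floor {L : ℕ} {t : ℝ} (ht : |t| ≤ 2 * L) :
    |((⌊t⌋ : ℤ) : ℝ) - t| < 1 ∧ |⌊t⌋| ≤ 2 * (L : ℤ) := by
  have h1 := Int.floor_le t
  have h2 := Int.lt_floor_add_one t
  obtain ⟨h3, h4⟩ := abs_le.1 ht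
  refine ⟨abs_lt.2 ⟨by linarith, by linarith⟩, abs_le.2 ⟨?_, ?_⟩⟩
  · refine Int.le_floor.2 ?_
    push_cast; linarith
  · have : ((⌊t⌋ : ℤ) : ℝ) ≤ ((2 * (L : ℤ) : ℤ) : ℝ) := by push_cast; linarith
    exact_mod_cast this

theorem align_round {L : ℕ} (hL : 2 ≤ L) {t : ℝ} (ht : |t| ≤ 2 * L)
    (hn : ¬ ∃ k : ℤ, t = L * k) :
    ∃ n : ℤ, |(n : ℝ) - t| < 1 ∧ |n| ≤ 2 * (L : ℤ) ∧ ¬ (L : ℤ) ∣ n := by
  obtain ⟨h1, h2⟩ := align_floor ht
  by_cases hd : (L : ℤ) ∣ ⌊t⌋
  · have h3 := Int.floor_le t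
    have h4 := Int.lt_floor_add_one t
    have h5 : ((⌊t⌋ : ℤ) : ℝ) < t := by
      refine lt_of_le_of_ne h3 fun e => hn ?_
      obtain ⟨k, hk⟩ := hd
      refine ⟨k, ?_⟩
      rw [← e, hk]; push_cast; rfl
    have h6 : ⌊t⌋ < 2 * (L : ℤ) := by
      have : ((⌊t⌋ : ℤ) : ℝ) < ((2 * (L : ℤ) : ℤ) : ℝ) := by
        push_cast; linarith [(abs_le.1 ht).2]
      exact_mod_cast this
    refine ⟨⌊t⌋ + 1, ?_, ?_, fun h7 => ?_⟩
    · push_cast
      exact abs_lt.2 ⟨by linarith, by linarith⟩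
    · have := (abs_le.1 h2).1
      exact abs_le.2 ⟨by omega, by omega⟩
    · have h8 : (L : ℤ) ∣ 1 := (Int.dvd_add_right hd).1 h7
      have := Int.le_of_dvd one_pos h8
      omega
  · exact ⟨⌊t⌋, h1, h2, hd⟩

/-- two blocks whose offsets are within `2 L` are aligned modulo `L` -/
theorem aligned {M L : ℕ} {E : Fin M → Finset (Fin 3 → ℤ)} (hE : RigidFam M L E)
    (F : Fin M → Finset (Fin 3 → ℤ)) {B : Set (Fin 3 → ℝ)}
    (h : IsAETilingBy (cubeThickening (bigT L F E)) B) {b b' : Fin 3 → ℝ} (hb : b ∈ B)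
    (hb' : b' ∈ B) {m m' : Fin M} {f f' : Fin 3 → ℤ} (hf : f ∈ F m) (hf' : f' ∈ F m')
    (hd : ∀ i, |(b i + L * f i) - (b' i + L * f' i)| ≤ 2 * L) :
    ∃ k : Fin 3 → ℤ, ∀ i, b i - b' i = L * k i := by
  set t : Fin 3 → ℝ := fun i => (b' i + L * f' i) - (b i + L * f i) with ht
  have htd : ∀ i, |t i| ≤ 2 * L := fun i => by rw [abs_sub_comm]; exact hd i
  by_cases hall : ∀ i, ∃ k : ℤ, t i = L * k
  · choose k hk using hall
    refine ⟨fun i => f' i - f i - k i, fun i => ?_⟩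
    have := hk i
    simp only [ht] at this
    push_cast
    linarith
  · push Not at hall
    obtain ⟨i₀, hi₀⟩ := hall
    obtain ⟨n, hn1, hn2, hn3⟩ := align_round hE.two_le (htd i₀) (by push Not; exact hi₀)
    have hex : ∀ i, ∃ k : ℤ, |(k : ℝ) - t i| < 1 ∧ |k| ≤ 2 * (L : ℤ) ∧ (i = i₀ → ¬ (L : ℤ) ∣ k) := by
      intro i
      by_cases hi : i = i₀
      · subst hi
        exact ⟨n, hn1, hn2, fun _ => hn3⟩
      · exact ⟨⌊t i⌋, (align_floor (htd i)).1, (align_floor (htd i)).2, fun e => absurd e hi⟩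
    choose k hk1 hk2 hk3 using hex
    obtain ⟨e, he, e', he', hee⟩ := hE.diff m m' k hk2 ⟨i₀, hk3 i₀ rfl⟩
    have hz : (L : ℤ) • f + e ∈ bigT L F E :=
      mem_biUnion.2 ⟨m, mem_univ _, mem_image.2 ⟨(f, e), mem_product.2 ⟨hf, he⟩, rfl⟩⟩
    have hz' : (L : ℤ) • f' + e' ∈ bigT L F E :=
      mem_biUnion.2 ⟨m', mem_univ _, mem_image.2 ⟨(f', e'), mem_product.2 ⟨hf', he'⟩, rfl⟩⟩
    have hbb : b = b' := eq_of_overlap h hb hb' hz hz' fun i => by
      have h1 := hk1 i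
      have h2 : (k i : ℝ) = e i - e' i := by
        rw [← hee]; simp
      rw [h2] at h1
      simp only [ht] at h1
      simp only [Pi.add_apply, Pi.smul_apply, smul_eq_mul]
      push_cast
      convert h1 using 2
      ring
    exact ⟨0, fun i => by simp [hbb]⟩

end Crest.Agent.R46
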