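import Crest.Agent.R46.Pr

/-! The linearity test for periodic functions on `ℤ`. -/

set_option autoImplicit false
set_option linter.unusedSectionVars false

namespace Crest.Agent.R46

open Finset Crest.CombinatoricsR.Tiling Crest.Agent.R34

namespace BLRAux

theorem exists_le_of_ex_le {Ω : Type} [Fintype Ω] [Nonempty Ω] {f : Ω → ℝ} {c : ℝ}
    (h : ex f ≤ c) : ∃ ω, f ω ≤ c := by
  obtain ⟨ω, -, hω⟩ := exists_min_image (univ : Finset Ω) f univ_nonempty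
  refine ⟨ω, le_trans ?_ h⟩
  rw [← ex_const (Ω := Ω) (f ω)]
  exact ex_mono fun ω' => hω ω' (mem_univ _)

theorem dens2_fst {N : ℕ} (hN : 0 < N) (P : ℤ → Prop) :
    dens2 N (fun x => P x.1) = dens1 N P := by
  have : Nonempty (Fin N) := ⟨⟨0, hN⟩⟩
  rw [dens2_eq_ex']
  exact ex_const (Ω := Fin N) (dens1 N P)

theorem dens2_snd {N : ℕ} (hN : 0 < N) (P : ℤ → Prop) :
    dens2 N (fun x => P x.2) = dens1 N P := by
  have : Nonempty (Fin N) := ⟨⟨0, hN⟩⟩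
  rw [dens2_eq_ex]
  exact ex_const (Ω := Fin N) (dens1 N P)

theorem exists_fst {N : ℕ} (hN : 0 < N) {P : ℤ × ℤ → Prop} {c : ℝ} (h : dens2 N P ≤ c) :
    ∃ s : ℤ, dens1 N (fun t => P (s, t)) ≤ c := by
  have : Nonempty (Fin N) := ⟨⟨0, hN⟩⟩
  rw [dens2_eq_ex] at h
  obtain ⟨s, hs⟩ := exists_le_of_ex_le h
  exact ⟨_, hs⟩

theorem exists_snd {N : ℕ} (hN : 0 < N) {P : ℤ × ℤ → Prop} {c : ℝ} (h : dens2 N P ≤ c) :
    ∃ t : ℤ, dens1 N (fun s => P (s, t)) ≤ c := by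
  have : Nonempty (Fin N) := ⟨⟨0, hN⟩⟩
  rw [dens2_eq_ex'] at h
  obtain ⟨t, ht⟩ := exists_le_of_ex_le h
  exact ⟨_, ht⟩

/-- a function whose increments are mostly linear is mostly affine -/
theorem affine_of_incr {G : Type} [AddCommGroup G] {N : ℕ} (hN : 0 < N) (f : ℤ → G)
    (hf : ∀ m, f (m + N) = f m) (B : G) (hB : (N : ℤ) • B = 0) {ε : ℝ}
    (h : ∀ k : ℤ, dens1 N (fun s => f (s + k) - f s ≠ k • B) ≤ ε) :
    ∃ c : G, dens1 N (fun m => f m ≠ m • B + c) ≤ ε := by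
  have : Nonempty (Fin N) := ⟨⟨0, hN⟩⟩
  have h2 : dens2 N (fun x => f (x.1 + x.2) - f x.1 ≠ x.2 • B) ≤ ε := by
    rw [dens2_eq_ex', ← ex_const (Ω := Fin N) ε]
    exact ex_mono fun t => h ((t : ℕ) : ℤ)
  obtain ⟨s, hs⟩ := exists_fst hN h2
  replace hs : dens1 N (fun m => f (s + m) - f s ≠ m • B) ≤ ε := hs
  refine ⟨f s - s • B, ?_⟩
  have hP : Per1 N (fun m => f m ≠ m • B + (f s - s • B)) := fun m => by
    simp only [hf, add_zsmul, hB, add_zero]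
  rw [← dens1_shift hP s]
  refine le_trans (dens1_mono (Q := fun m => f (s + m) - f s ≠ m • B) fun m hm hc => hm ?_) hs
  rw [add_zsmul, ← hc]
  abel

end BLRAux

open BLRAux

theorem blr {G : Type} [AddCommGroup G] {N : ℕ} (hN : 0 < N) (f₁ f₂ f₃ : ℤ → G)
    (h₁ : ∀ m, f₁ (m + N) = f₁ m) (h₂ : ∀ m, f₂ (m + N) = f₂ m) (h₃ : ∀ m, f₃ (m + N) = f₃ m)
    {δ : ℝ} (hδ : 6 * δ < 1)
    (h : dens2 N (fun x => f₁ x.1 + f₂ x.2 ≠ f₃ (x.1 + x.2)) ≤ δ) :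
    ∃ B c₁ c₂ : G, (∀ M : ℤ, (∀ m, f₁ (m + M) = f₁ m) → M • B = 0) ∧
      dens1 N (fun m => f₁ m ≠ m • B + c₁) ≤ 2 * δ ∧
      dens1 N (fun m => f₂ m ≠ m • B + c₂) ≤ 2 * δ := by
  have hper : Per2 N (fun x => f₁ x.1 + f₂ x.2 ≠ f₃ (x.1 + x.2)) := fun x => by
    constructor
    · simp only [Prod.fst_add, Prod.snd_add, add_zero, h₁]
      rw [add_right_comm, h₃]
    · simp only [Prod.fst_add, Prod.snd_add, add_zero, h₂]
      rw [← add_assoc, h₃]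
  -- the increments agree off density `2 δ`
  have hE : ∀ k : ℤ, dens2 N (fun x => f₁ (x.1 + k) - f₁ x.1 ≠ f₂ (x.2 + k) - f₂ x.2) ≤ 2 * δ := by
    intro k
    have e1 := dens2_shift hper (k, 0)
    have e2 := dens2_shift hper (0, k)
    refine le_trans (dens2_mono (Q := fun x =>
      (f₁ ((k, 0) + x).1 + f₂ ((k, 0) + x).2 ≠ f₃ (((k, 0) + x).1 + ((k, 0) + x).2)) ∨
      (f₁ ((0, k) + x).1 + f₂ ((0, k) + x).2 ≠ f₃ (((0, k) + x).1 + ((0, k) + x).2)))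
      fun x hx => ?_) (le_trans (dens2_or_le _ _ _) (by rw [e1, e2]; linarith))
    by_contra hc
    rw [not_or, not_not, not_not] at hc
    obtain ⟨c1, c2⟩ := hc
    simp only [Prod.fst_add, Prod.snd_add, zero_add] at c1 c2
    apply hx
    have e : k + x.1 + x.2 = x.1 + (k + x.2) := by ring
    rw [e, ← c2] at c1
    rw [add_comm x.1 k, add_comm x.2 k, sub_eq_sub_iff_add_eq_add, c1, add_comm]
  have hφ : ∀ k : ℤ, ∃ a : G, dens1 N (fun s => f₁ (s + k) - f₁ s ≠ a) ≤ 2 * δ := fun k => by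
    obtain ⟨t, ht⟩ := exists_snd hN (hE k)
    exact ⟨f₂ (t + k) - f₂ t, ht⟩
  choose φ hφ using hφ
  have hψ : ∀ k : ℤ, dens1 N (fun t => f₂ (t + k) - f₂ t ≠ φ k) ≤ 2 * δ := fun k => by
    obtain ⟨s, hs⟩ := exists_fst hN (hE k)
    replace hs : dens1 N (fun t => f₁ (s + k) - f₁ s ≠ f₂ (t + k) - f₂ t) ≤ 2 * δ := hs
    have hlt : dens2 N (fun x => (f₁ (x.1 + k) - f₁ x.1 ≠ φ k ∨
        f₁ (s + k) - f₁ s ≠ f₂ (x.2 + k) - f₂ x.2) ∨
        f₁ (x.1 + k) - f₁ x.1 ≠ f₂ (x.2 + k) - f₂ x.2) < 1 := by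
      refine lt_of_le_of_lt (dens2_or_le _ _ _) ?_
      have h1 := dens2_or_le N (fun x => f₁ (x.1 + k) - f₁ x.1 ≠ φ k)
        (fun x => f₁ (s + k) - f₁ s ≠ f₂ (x.2 + k) - f₂ x.2)
      rw [dens2_fst hN (fun s => f₁ (s + k) - f₁ s ≠ φ k),
        dens2_snd hN (fun t => f₁ (s + k) - f₁ s ≠ f₂ (t + k) - f₂ t)] at h1
      have h2 := hφ k
      have h3 := hE k
      linarith
    obtain ⟨x, hx⟩ := exists_of_dens2_lt hN hlt
    rw [not_or, not_or, not_not, not_not, not_not] at hx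
    obtain ⟨⟨c1, c2⟩, c3⟩ := hx
    have e : φ k = f₁ (s + k) - f₁ s := by rw [← c1, c3, c2]
    rw [e]
    exact le_trans (dens1_mono (Q := fun t => f₁ (s + k) - f₁ s ≠ f₂ (t + k) - f₂ t)
      fun t ht => ht.symm) hs
  have hadd : ∀ k k' : ℤ, φ (k + k') = φ k + φ k' := fun k k' => by
    have hP : Per1 N (fun s => f₁ (s + k') - f₁ s ≠ φ k') := fun m => by
      simp only [h₁]
      rw [add_right_comm, h₁]
    have hlt : dens1 N (fun s => (f₁ (s + (k + k')) - f₁ s ≠ φ (k + k') ∨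
        f₁ (s + k) - f₁ s ≠ φ k) ∨ f₁ (k + s + k') - f₁ (k + s) ≠ φ k') < 1 := by
      refine lt_of_le_of_lt (dens1_or_le _ _ _) ?_
      have h1 := dens1_or_le N (fun s => f₁ (s + (k + k')) - f₁ s ≠ φ (k + k'))
        (fun s => f₁ (s + k) - f₁ s ≠ φ k)
      have h2 := dens1_shift hP k
      have h3 := hφ k
      have h4 := hφ k'
      have h5 := hφ (k + k')
      linarith
    obtain ⟨s, hs⟩ := exists_of_dens1_lt hN hlt
    rw [not_or, not_or, not_not, not_not, not_not] at hs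
    obtain ⟨⟨c1, c2⟩, c3⟩ := hs
    rw [← c1, ← c2, ← c3, add_comm k s, add_assoc]
    abel
  have hlin : ∀ k : ℤ, φ k = k • φ 1 := fun k => by
    have := map_zsmul (AddMonoidHom.mk' φ hadd) k 1
    simpa using this
  have hM : ∀ M : ℤ, (∀ m, f₁ (m + M) = f₁ m) → M • φ 1 = 0 := fun M hM => by
    obtain ⟨s, hs⟩ := exists_of_dens1_lt hN (lt_of_le_of_lt (hφ M) (by linarith))
    rw [not_not, hM, sub_self] at hs
    rw [← hlin, ← hs]
  obtain ⟨c₁, hc₁⟩ := affine_of_incr hN f₁ h₁ (φ 1) (hM N h₁) fun k => by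
    rw [← hlin]; exact hφ k
  obtain ⟨c₂, hc₂⟩ := affine_of_incr hN f₂ h₂ (φ 1) (hM N h₁) fun k => by
    rw [← hlin]; exact hψ k
  exact ⟨φ 1, c₁, c₂, hM, hc₁, hc₂⟩

end Crest.Agent.R46
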