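import Crest.Agent.R46.Frame0

/-! Elementary facts on the concrete system. -/

set_option autoImplicit false
set_option linter.unusedSectionVars false

namespace Crest.Agent.R46

open Finset Crest.CombinatoricsR.Tiling Crest.Agent.R34

theorem lam_add (v x y : ℤ × ℤ) : lam v (x + y) = lam v x + lam v y := by
  simp only [lam, Prod.fst_add, Prod.snd_add]; ring

theorem lam_sub (v x y : ℤ × ℤ) : lam v (x - y) = lam v x - lam v y := by
  simp only [lam, Prod.fst_sub, Prod.snd_sub]; ring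

theorem lam_smul (v : ℤ × ℤ) (k : ℤ) (x : ℤ × ℤ) : lam v (k • x) = k * lam v x := by
  simp only [lam, Prod.smul_fst, Prod.smul_snd, smul_eq_mul]; ring

theorem lam_self (v : ℤ × ℤ) : lam v v = 0 := by
  simp only [lam]; ring

theorem lam_zero (v : ℤ × ℤ) : lam v 0 = 0 := by
  simp [lam]

theorem mu_add (u x y : ℤ × ℤ) : mu u (x + y) = mu u x + mu u y := by
  simp only [mu, Prod.fst_add, Prod.snd_add]; ring

theorem mu_sub (u x y : ℤ × ℤ) : mu u (x - y) = mu u x - mu u y := by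
  simp only [mu, Prod.fst_sub, Prod.snd_sub]; ring

theorem mu_smul (u : ℤ × ℤ) (k : ℤ) (x : ℤ × ℤ) : mu u (k • x) = k * mu u x := by
  simp only [mu, Prod.smul_fst, Prod.smul_snd, smul_eq_mul]; ring

theorem mu_self (u : ℤ × ℤ) : mu u u = 0 := by
  simp only [mu]; ring

theorem mu_zero (u : ℤ × ℤ) : mu u 0 = 0 := by
  simp [mu]

theorem mu_eq_lam (v u : ℤ × ℤ) : mu u v = lam v u := by
  simp only [mu, lam]

theorem decomp {v u : ℤ × ℤ} (h : lam v u = 1) (x : ℤ × ℤ) : x = mu u x • v + lam v x • u := by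
  simp only [lam] at h
  ext
  · simp only [mu, lam, Prod.fst_add, Prod.smul_fst, smul_eq_mul]
    linear_combination (-x.1) * h
  · simp only [mu, lam, Prod.snd_add, Prod.smul_snd, smul_eq_mul]
    linear_combination (-x.2) * h

theorem dvd_lam {M : ℤ} (v : ℤ × ℤ) {x : ℤ × ℤ} (h1 : M ∣ x.1) (h2 : M ∣ x.2) : M ∣ lam v x :=
  dvd_sub (h2.mul_left _) (h1.mul_left _)

theorem dvd_mu {M : ℤ} (u : ℤ × ℤ) {x : ℤ × ℤ} (h1 : M ∣ x.1) (h2 : M ∣ x.2) : M ∣ mu u x :=
  dvd_sub (h1.mul_right _) (h2.mul_right _)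

theorem inL_zero (q l : ℕ) : InL q l 0 := by
  unfold InL; split_ifs <;> simp

theorem inL_neg {q l : ℕ} {d : ZMod q × ZMod q} : InL q l (-d) ↔ InL q l d := by
  unfold InL; split_ifs
  · simp only [Prod.snd_neg, Prod.fst_neg, mul_neg, neg_inj]
  · simp only [Prod.fst_neg, neg_eq_zero]

theorem InL.add {q l : ℕ} {d d' : ZMod q × ZMod q} (h : InL q l d) (h' : InL q l d') :
    InL q l (d + d') := by
  unfold InL at *; split_ifs at *
  · simp only [Prod.snd_add, Prod.fst_add, h, h', mul_add]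
  · simp only [Prod.fst_add, h, h', add_zero]

theorem InL.sub {q l : ℕ} {d d' : ZMod q × ZMod q} (h : InL q l d) (h' : InL q l d') :
    InL q l (d - d') := by
  rw [sub_eq_add_neg]; exact h.add (inL_neg.2 h')

namespace Setup

variable {F A : Type} (S : Setup F A)

theorem mu_v (n : F) : mu (S.u n) (S.v n) = 1 := by rw [mu_eq_lam, S.det]

theorem dv_add (x y : ℤ × ℤ) : S.dv (x + y) = S.dv x + S.dv y := by
  simp [dv]

theorem dv_sub (x y : ℤ × ℤ) : S.dv (x - y) = S.dv x - S.dv y := by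
  simp [dv]

theorem dv_zero : S.dv 0 = 0 := rfl

theorem dv_smul (k : ℤ) (x : ℤ × ℤ) : S.dv (k • x) = k • S.dv x := by
  simp [dv]

theorem dv_smul_mem_of_dvd (H : AddSubgroup S.G) {M k : ℤ} {v : ℤ × ℤ} (h : S.dv (M • v) ∈ H)
    (hk : M ∣ k) : S.dv (k • v) ∈ H := by
  obtain ⟨j, rfl⟩ := hk
  rw [mul_comm, mul_smul, dv_smul]
  exact H.zsmul_mem h j

theorem dv_mem_of_dvd (H : AddSubgroup S.G) {M M' : ℤ} (h1 : S.dv (M, 0) ∈ H)
    (h2 : S.dv (0, M') ∈ H) {x : ℤ × ℤ} (hx1 : M ∣ x.1) (hx2 : M' ∣ x.2) : S.dv x ∈ H := by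
  obtain ⟨j, hj⟩ := hx1
  obtain ⟨k, hk⟩ := hx2
  have : x = j • ((M, 0) : ℤ × ℤ) + k • ((0, M') : ℤ × ℤ) := by
    ext
    · simp [hj, mul_comm]
    · simp [hk, mul_comm]
  rw [this, dv_add, dv_smul, dv_smul]
  exact H.add_mem (H.zsmul_mem h1 j) (H.zsmul_mem h2 k)

theorem md_two : S.md .two = 4 := rfl

theorem md_qq (n : F) : S.md (.qq n) = S.q n ^ 3 := rfl

theorem md_eq_p (c : S.C) (h2 : c ≠ .two) (hq : ∀ n, c ≠ .qq n) : S.md c = S.p c := by
  cases c with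
  | two => exact absurd rfl h2
  | qq n => exact absurd rfl (hq n)
  | pi n l => rfl
  | be n e l => rfl
  | de n e => rfl

theorem K_eq_top (c : S.C) (hq : ∀ n, c ≠ .qq n) : S.K c = ⊤ := by
  cases c with
  | two => rfl
  | qq n => exact absurd rfl (hq n)
  | pi n l => rfl
  | be n e l => rfl
  | de n e => rfl

theorem E_sub_one (c : S.C) : ((S.md c : ℕ) : ℤ) ∣ S.E c - 1 := by
  rw [← ZMod.intCast_zmod_eq_zero_iff_dvd]
  push_cast
  rw [S.E_one c, sub_self]

theorem four_dvd_E_two : (4 : ℤ) ∣ S.E .two - 1 := S.E_sub_one .two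

theorem q3_dvd_E_qq (n : F) : (S.q n : ℤ) ^ 3 ∣ S.E (.qq n) - 1 := by
  have := S.E_sub_one (.qq n)
  rwa [md_qq, Nat.cast_pow] at this

theorem four_dvd_E (c : S.C) (hc : c ≠ .two) : (4 : ℤ) ∣ S.E c := S.E_dvd c .two hc

theorem q3_dvd_E (n : F) (c : S.C) (hc : c ≠ .qq n) : (S.q n : ℤ) ^ 3 ∣ S.E c := by
  have := S.E_dvd c (.qq n) hc
  rwa [show mdOf S.q S.p (.qq n) = S.q n ^ 3 from rfl, Nat.cast_pow] at this

theorem cop_int {c c' : S.C} (h : c ≠ c') : IsCoprime ((S.md c : ℕ) : ℤ) ((S.md c' : ℕ) : ℤ) :=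
  Nat.isCoprime_iff_coprime.2 (S.cop h)

theorem cop_four_q (n : F) : IsCoprime (4 : ℤ) (S.q n : ℤ) := by
  have := S.cop_int (c := .two) (c' := .qq n) (by simp)
  rw [md_qq, Nat.cast_pow] at this
  exact (IsCoprime.pow_right_iff (by norm_num)).1 this

theorem cop_fourq2_md (n : F) (c : S.C) (h2 : c ≠ .two) (hq : c ≠ .qq n) :
    IsCoprime (4 * (S.q n : ℤ) ^ 2) ((S.md c : ℕ) : ℤ) := by
  have h1 := S.cop_int (c := .two) (c' := c) (Ne.symm h2)
  have h3 := S.cop_int (c := .qq n) (c' := c) (Ne.symm hq)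
  rw [md_qq, Nat.cast_pow] at h3
  exact IsCoprime.mul_left h1 ((IsCoprime.pow_left_iff (by norm_num)).1 h3).pow_left

theorem fourq2_dvd_E (n : F) (c : S.C) (h2 : c ≠ .two) (hq : c ≠ .qq n) :
    4 * (S.q n : ℤ) ^ 2 ∣ S.E c :=
  (S.cop_four_q n).pow_right.mul_dvd (S.four_dvd_E c h2)
    ((pow_dvd_pow _ (by norm_num)).trans (S.q3_dvd_E n c hq))

theorem fourq2md_dvd_E (n : F) (c c' : S.C) (h2 : c ≠ .two) (hq : c ≠ .qq n) (h : c ≠ c')
    (h2' : c' ≠ .two) (hq' : c' ≠ .qq n) : 4 * (S.q n : ℤ) ^ 2 * (S.md c' : ℕ) ∣ S.E c :=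
  (S.cop_fourq2_md n c' h2' hq').mul_dvd (S.fourq2_dvd_E n c h2 hq) (S.E_dvd c c' h)

/-- a multiple of `4` is congruent to its product with `E (qq n)` modulo `4 q²` -/
theorem fourq2_dvd_mul_E_qq (n : F) {k : ℤ} (hk : 4 ∣ k) :
    4 * (S.q n : ℤ) ^ 2 ∣ k * S.E (.qq n) - k := by
  rw [show k * S.E (.qq n) - k = k * (S.E (.qq n) - 1) by ring]
  exact mul_dvd_mul hk ((pow_dvd_pow _ (by norm_num)).trans (S.q3_dvd_E_qq n))

variable [Fintype F] [Fintype A] [DecidableEq F] [DecidableEq A]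

theorem fib_add (c : S.C) (y y' : S.Hc c) : S.fib c (y + y') = S.fib c y + S.fib c y' := by
  simp [fib, Pi.single_add]

theorem fib_zsmul (c : S.C) (k : ℤ) (y : S.Hc c) : S.fib c (k • y) = k • S.fib c y := by
  simp only [fib, Prod.smul_mk, smul_zero, Pi.single_smul]

theorem single_mem_K (c : S.C) {y : S.Hc c} (hy : y ∈ S.K c) (c' : S.C) :
    Pi.single (M := S.Hc) c y c' ∈ S.K c' := by
  by_cases h : c' = c
  · subst h; simpa using hy
  · rw [Pi.single_eq_of_ne h]; exact zero_mem _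

theorem fib_stab (R : S.R) {c c' : S.C} (h : c ≠ c') {y : S.Hc c'} (hy : y ∈ S.K c') :
    S.fib c' y ∈ R.stab c :=
  R.vert_mem_stab c _ (S.single_mem_K c' hy) (Pi.single_eq_of_ne h _)

theorem rho_fib (R : S.R) (c : S.C) {y : S.Hc c} (hy : y ∈ S.K c) (g : S.G) :
    R.ρ (g + S.fib c y) c = R.ρ g c + y := by
  unfold fib
  rw [R.equiv g _ (S.single_mem_K c hy), Pi.add_apply, Pi.single_eq_same]

theorem fib_qq_eq (n : F) (y : S.Hc (.qq n)) :
    S.fib (.qq n) y = ((ZMod.val (n := S.q n ^ 3) y : ℕ) : ℤ) • S.dom n := by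
  rw [dom, ← fib_zsmul]
  congr 1
  simp

theorem fib_qq_mem (H : AddSubgroup S.G) {n : F} (h : S.dom n ∈ H) (y : S.Hc (.qq n)) :
    S.fib (.qq n) y ∈ H := by
  rw [fib_qq_eq]; exact H.zsmul_mem h _

/-- vertical vectors that a component does not see -/
theorem vert_mem_stab (R : S.R) (c : S.C) (y : ∀ c', S.Hc c') (hc : y c = 0)
    (hq : ∀ m, S.dom m ∈ R.stab c ∨ y (.qq m) ∈ S.K (.qq m)) :
    ((0, y) : S.G) ∈ R.stab c := by
  have : ((0, y) : S.G) = ∑ c', S.fib c' (y c') := by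
    ext1
    · simp [fib, Prod.fst_sum]
    · simp only [fib, Prod.snd_sum]
      exact (univ_sum_single y).symm
  rw [this]
  refine sum_mem fun c' _ => ?_
  by_cases h : c = c'
  · subst h
    rw [hc, show S.fib c 0 = 0 by simp [fib]]
    exact zero_mem _
  · by_cases hm : ∃ m, c' = .qq m
    · obtain ⟨m, rfl⟩ := hm
      rcases hq m with h1 | h1
      · exact S.fib_qq_mem _ h1 _
      · exact S.fib_stab R h h1
    · push Not at hm
      exact S.fib_stab R h (by rw [S.K_eq_top c' hm]; trivial)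

/-- coordinates of a component with full range that sees no `q`-coordinate -/
theorem rho_eq_zero_add (R : S.R) (c : S.C) (hc : ∀ n, c ≠ .qq n)
    (h : ∀ m, S.dom m ∈ R.stab c) (g : S.G) : R.ρ g c = R.ρ (g.1, 0) c + g.2 c := by
  have hK : g.2 c ∈ S.K c := by rw [S.K_eq_top c hc]; trivial
  have h1 := S.vert_mem_stab R c (g.2 - Pi.single c (g.2 c)) (by simp) fun m => Or.inl (h m)
  have h2 : g = ((g.1, 0) : S.G) + S.fib c (g.2 c) + (0, g.2 - Pi.single c (g.2 c)) := by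
    ext1 <;> simp [fib]
  conv_lhs => rw [h2]
  rw [h1, S.rho_fib R c hK]

/-- coordinates of a `q`-component -/
theorem rho_qq (R : S.R) (n : F) (h : ∀ m, m ≠ n → S.dom m ∈ R.stab (.qq n)) (g : S.G) :
    R.ρ g (.qq n) = S.Rq R n g.1 (g.2 (.qq n)) := by
  have h1 := S.vert_mem_stab R (.qq n) (g.2 - Pi.single (.qq n) (g.2 (.qq n))) (by simp)
    fun m => by
      by_cases hm : m = n
      · subst hm; right; simp
      · exact Or.inl (h m hm)
  have h2 : g = ((g.1, Pi.single (.qq n) (g.2 (.qq n))) : S.G) +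
      (0, g.2 - Pi.single (.qq n) (g.2 (.qq n))) := by
    ext1 <;> simp
  conv_lhs => rw [h2]
  rw [h1]; rfl

/-- coordinates of a component with full range that sees one `q`-coordinate, modulo `q` only -/
theorem rho_one (R : S.R) (c : S.C) (hc : ∀ n, c ≠ .qq n) (n : F)
    (h : ∀ m, m ≠ n → S.dom m ∈ R.stab c) (g : S.G) (y : S.Hc (.qq n))
    (hy : g.2 (.qq n) - y ∈ S.K (.qq n)) :
    R.ρ g c = R.ρ (g.1, Pi.single (M := S.Hc) (.qq n) y) c + g.2 c := by
  have hK : g.2 c ∈ S.K c := by rw [S.K_eq_top c hc]; trivial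
  have h1 := S.vert_mem_stab R c
    (g.2 - Pi.single (M := S.Hc) (.qq n) y - Pi.single c (g.2 c))
    (by simp [Pi.single_eq_of_ne (hc n)])
    fun m => by
      by_cases hm : m = n
      · subst hm; right
        simpa [Pi.single_eq_of_ne (hc m).symm] using hy
      · exact Or.inl (h m hm)
  have h2 : g = ((g.1, Pi.single (M := S.Hc) (.qq n) y) : S.G) + S.fib c (g.2 c) +
      (0, g.2 - Pi.single (M := S.Hc) (.qq n) y - Pi.single c (g.2 c)) := by
    ext1
    · simp [fib]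
    · simp only [fib, Prod.snd_add]; abel
  conv_lhs => rw [h2]
  rw [h1, S.rho_fib R c hK]

/-- horizontal vectors with first coordinate divisible by four fix the marker -/
theorem Con1.dv_two {S : Setup F A} {R : S.R} (h : S.Con1 R) {x : ℤ × ℤ} (hx : 4 ∣ x.1) :
    S.dv x ∈ R.stab .two :=
  S.dv_mem_of_dvd _ h.two_4 h.two_u hx (one_dvd _)

/-- horizontal vectors divisible by `4 q²` fix the `q`-component -/
theorem Con1.dv_qq {S : Setup F A} {R : S.R} (h : S.Con1 R) (n : F) {x : ℤ × ℤ}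
    (h1 : 4 * (S.q n : ℤ) ^ 2 ∣ x.1) (h2 : 4 * (S.q n : ℤ) ^ 2 ∣ x.2) :
    S.dv x ∈ R.stab (.qq n) :=
  S.dv_mem_of_dvd _ (h.q_e1 n) (h.q_e2 n) h1 h2

end Setup

end Crest.Agent.R46
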