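import Crest.Agent.R46.Defs

/-! Integer tilings, their real thickenings, and periods. -/

set_option autoImplicit false
set_option linter.unusedSectionVars false

namespace Crest.Agent.R46

open Finset Crest.CombinatoricsR.Tiling Crest.Agent.R34

/-- the tile built from a system tiles with the dilated common complement -/
theorem bigT_tiles {M L : ℕ} {E : Fin M → Finset (Fin 3 → ℤ)} (hE : RigidFam M L E)
    (F : Fin M → Finset (Fin 3 → ℤ)) (A : Set (Fin 3 → ℤ)) (hA : ∀ m, IsTilingBy (F m) A) :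
    IsTilingBy (bigT L F E) ((fun a => (L : ℤ) • a) '' A) := by
  have hL : (L : ℤ) ≠ 0 := by have := hE.two_le; omega
  intro x
  obtain ⟨⟨m, e⟩, ⟨he, hd⟩, huniq⟩ := hE.res x
  choose x' hx' using hd
  obtain ⟨⟨a, f⟩, ⟨ha, hf, haf⟩, huniq'⟩ := hA m x'
  simp only at he hx' ha hf haf
  refine ⟨((L : ℤ) • a, (L : ℤ) • f + e), ⟨⟨a, ha, rfl⟩, ?_, ?_⟩, ?_⟩
  · simp only [bigT, mem_biUnion, mem_image, mem_product]
    exact ⟨m, mem_univ _, (f, e), ⟨hf, he⟩, rfl⟩
  · ext i
    have h1 := hx' i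
    have h2 := congrFun haf i
    simp only [Pi.add_apply, Pi.smul_apply, smul_eq_mul] at h2 ⊢
    rw [← h2] at h1
    linarith
  · rintro ⟨_, t⟩ ⟨⟨a', ha', rfl⟩, ht, hx⟩
    simp only [bigT, mem_biUnion, mem_image, mem_product] at ht
    obtain ⟨m', -, ⟨f', e'⟩, ⟨hf', he'⟩, rfl⟩ := ht
    simp only at hf' he' hx
    have h1 := huniq (m', e') ⟨he', fun i => ⟨a' i + f' i, by
      have := congrFun hx i
      simp only [Pi.add_apply, Pi.smul_apply, smul_eq_mul] at this ⊢
      linarith⟩⟩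
    obtain ⟨rfl, rfl⟩ := Prod.mk.inj h1
    have h2 := huniq' (a', f') ⟨ha', hf', by
      ext i
      have h3 := congrFun hx i
      have h4 := hx' i
      simp only [Pi.add_apply, Pi.smul_apply, smul_eq_mul] at h3 ⊢
      apply mul_left_cancel₀ hL
      linarith⟩
    obtain ⟨rfl, rfl⟩ := Prod.mk.inj h2
    rfl

/-- a lattice periodic dilated translate of a nonempty set of integer points -/
theorem per3_of_lattice {L : ℕ} (hL : 0 < L) (c : Fin 3 → ℝ) (A : Set (Fin 3 → ℤ))
    (hA : A.Nonempty)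
    (h : IsLatticePeriodic ((fun a i => c i + (L : ℝ) * ((a i : ℤ) : ℝ)) '' A)) : Per3 A := by
  obtain ⟨b, hb⟩ := h
  obtain ⟨a0, ha0⟩ := hA
  have hL' : (L : ℝ) ≠ 0 := by exact_mod_cast hL.ne'
  have h1 : ∀ i, ∃ w : Fin 3 → ℤ, ∀ j, b i j = (L : ℝ) * (w j : ℝ) := by
    intro i
    obtain ⟨a1, -, h2⟩ := hb (b i) (Submodule.subset_span ⟨i, rfl⟩) _ ⟨a0, ha0, rfl⟩
    refine ⟨a1 - a0, fun j => ?_⟩
    have := congrFun h2 j
    simp only [Pi.add_apply, Pi.sub_apply] at this ⊢
    push_cast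
    linarith
  choose w hw using h1
  set W : Matrix (Fin 3) (Fin 3) ℤ := Matrix.of w with hW
  have h2 : ∀ (n : Fin 3 → ℤ) (j : Fin 3),
      (∑ i, n i • b i) j = (L : ℝ) * ((Matrix.vecMul n W j : ℤ) : ℝ) := by
    intro n j
    simp only [Finset.sum_apply, Pi.smul_apply, hw, Matrix.vecMul, dotProduct, hW, Matrix.of_apply]
    simp only [zsmul_eq_mul]
    push_cast
    rw [Finset.mul_sum]
    exact Finset.sum_congr rfl fun i _ => by ring
  have h3 : ∀ (n : Fin 3 → ℤ), ∀ a ∈ A, a + Matrix.vecMul n W ∈ A := by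
    intro n a ha
    obtain ⟨a1, ha1, h4⟩ := hb (∑ i, n i • b i) (Submodule.sum_mem _ fun i _ =>
      Submodule.smul_mem _ _ (Submodule.subset_span ⟨i, rfl⟩)) _ ⟨a, ha, rfl⟩
    have : a + Matrix.vecMul n W = a1 := by
      ext j
      have h5 := congrFun h4 j
      simp only [Pi.add_apply] at h5 ⊢
      rw [h2] at h5
      have h6 : ((a j + Matrix.vecMul n W j : ℤ) : ℝ) = (a1 j : ℝ) := by
        apply mul_left_cancel₀ hL'
        push_cast
        linarith
      exact_mod_cast h6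
    rwa [this]
  have hdet : W.det ≠ 0 := by
    intro h0
    obtain ⟨n, hn, hn0⟩ := Matrix.exists_vecMul_eq_zero_iff.2 h0
    have h4 : ∑ i, (n i : ℝ) • b i = 0 := by
      ext j
      have := h2 n j
      rw [hn0] at this
      simpa [Finset.sum_apply] using this
    apply hn
    ext i
    exact_mod_cast Fintype.linearIndependent_iff.1 b.linearIndependent _ h4 i
  refine ⟨W.det.natAbs, Int.natAbs_pos.2 hdet, fun a ha x => ?_⟩
  have h4 := h3 (Matrix.vecMul (W.det.sign • x) W.adjugate) a ha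
  rwa [Matrix.vecMul_vecMul, Matrix.adjugate_mul, Matrix.vecMul_smul, Matrix.vecMul_one, smul_smul,
    mul_comm, Int.sign_mul_self_eq_natAbs] at h4

end Crest.Agent.R46
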