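import Crest.Agent.R46.BigT

/-! Integer tilings and their real thickenings. -/

set_option autoImplicit false
set_option linter.unusedSectionVars false

namespace Crest.Agent.R46

open Finset Crest.CombinatoricsR.Tiling Crest.Agent.R34

theorem cast_ae_nonint : ∀ᵐ x : Fin 3 → ℝ, ∀ (i : Fin 3) (n : ℤ), x i ≠ n := by
  rw [MeasureTheory.ae_all_iff]
  intro i
  rw [MeasureTheory.ae_all_iff]
  intro n
  exact MeasureTheory.Measure.ae_eval_ne (fun _ : Fin 3 => (MeasureTheory.volume : MeasureTheory.Measure ℝ)) i n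

theorem cast_floor_iff {x : ℝ} (hx : ∀ n : ℤ, x ≠ n) (a z : ℤ) :
    ((z : ℝ) ≤ x - a ∧ x - a ≤ z + 1) ↔ a + z = ⌊x⌋ := by
  rw [eq_comm, Int.floor_eq_iff]
  push_cast
  constructor
  · rintro ⟨h1, h2⟩
    refine ⟨by linarith, lt_of_le_of_ne (by linarith) ?_⟩
    have := hx (a + z + 1)
    push_cast at this
    exact this
  · rintro ⟨h1, h2⟩
    exact ⟨by linarith, by linarith⟩

/-- an integer tiling gives an almost-everywhere tiling of the thickening -/
theorem cast_tiling (T : Finset (Fin 3 → ℤ)) (A : Set (Fin 3 → ℤ)) (h : IsTilingBy T A) :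
    IsAETilingBy (cubeThickening T) ((fun a i => ((a i : ℤ) : ℝ)) '' A) := by
  filter_upwards [cast_ae_nonint] with x hx
  obtain ⟨⟨a, z⟩, ⟨ha, hz, haz⟩, hu⟩ := h fun i => ⌊x i⌋
  refine ⟨fun i => (a i : ℝ), ⟨⟨a, ha, rfl⟩, z, hz, fun i => ?_⟩, ?_⟩
  · exact (cast_floor_iff (hx i) (a i) (z i)).2 (congrFun haz i)
  · rintro _ ⟨⟨a', ha', rfl⟩, z', hz', h'⟩
    have e : a' + z' = fun i => ⌊x i⌋ := funext fun i => (cast_floor_iff (hx i) (a' i) (z' i)).1 (h' i)
    have := hu (a', z') ⟨ha', hz', e⟩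
    rw [(Prod.mk.inj this).1]

/-- a fully periodic set of integer points is lattice periodic -/
theorem cast_per (A : Set (Fin 3 → ℤ)) (h : IsFullyPeriodic A) :
    IsLatticePeriodic ((fun a i => ((a i : ℤ) : ℝ)) '' A) := by
  obtain ⟨H, hH, hA⟩ := h
  have hN : (H.index : ℝ) ≠ 0 := by exact_mod_cast hH.index_ne_zero
  refine ⟨(Pi.basisFun ℝ (Fin 3)).unitsSMul fun _ => Units.mk0 _ hN, fun v hv => ?_⟩
  obtain ⟨c, rfl⟩ := (Submodule.mem_span_range_iff_exists_fun ℤ).1 hv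
  rintro _ ⟨a, ha, rfl⟩
  refine ⟨H.index • c + a, hA _ (H.nsmul_index_mem c) a ha, ?_⟩
  funext i
  simp [Module.Basis.unitsSMul_apply, Finset.sum_apply, Pi.single_apply, mul_comm]

end Crest.Agent.R46
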