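import Crest.Agent.R46.Frame

/-! Clauses can be forced. -/

set_option autoImplicit false
set_option linter.unusedSectionVars false

namespace Crest.Agent.R46

open Finset Crest.CombinatoricsR.Tiling Crest.Agent.R34

/-- a finite nonempty type carries a transitive self-map -/
theorem clause_exists_cyc (ι : Type) [Finite ι] [Nonempty ι] :
    ∃ σ : ι → ι, ∀ i j, ∃ k : ℕ, σ^[k] i = j := by
  obtain ⟨n, ⟨e⟩⟩ := Finite.exists_equiv_fin ι
  cases n with
  | zero => exact (e (Classical.arbitrary ι)).elim0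
  | succ n =>
    let e' : ι ≃ ZMod (n + 1) := e
    refine ⟨fun i => e'.symm (e' i + 1), fun i j => ⟨(e' j - e' i).val, ?_⟩⟩
    have h : ∀ k : ℕ, (fun i => e'.symm (e' i + 1))^[k] i = e'.symm (e' i + k) := by
      intro k
      induction k with
      | zero => simp
      | succ k ih =>
        rw [Function.iterate_succ_apply', ih]
        simp [add_assoc]
    rw [h]
    simp

/-- the cyclic system has exactly one solution as soon as one rule is unconditional -/
theorem clause_cyc {ι : Type} [Finite ι] (σ : ι → ι) (hσ : ∀ i j, ∃ k : ℕ, σ^[k] i = j)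
    {X : ι → Type} (p : ∀ i, X i → Prop) [∀ i, DecidablePred (p i)] (a b : ∀ i, X i) (i₀ : ι)
    (h₀ : b i₀ = a i₀) :
    ∃! h : ∀ i, X i, ∀ i, h i = if p (σ i) (h (σ i)) then b i else a i := by
  let T : (∀ i, X i) → ∀ i, X i := fun h i => if p (σ i) (h (σ i)) then b i else a i
  have key : ∀ k : ℕ, ∀ m, k < m → ∀ i, σ^[k] i = i₀ → ∀ h h', T^[m] h i = T^[m] h' i := by
    intro k
    induction k with
    | zero =>
      intro m hm i hi h h'
      obtain ⟨m, rfl⟩ : ∃ m', m = m' + 1 := ⟨m - 1, by omega⟩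
      have hi' : i = i₀ := hi
      subst hi'
      rw [Function.iterate_succ_apply', Function.iterate_succ_apply']
      simp only [T, h₀, ite_self]
    | succ k ih =>
      intro m hm i hi h h'
      obtain ⟨m, rfl⟩ : ∃ m', m = m' + 1 := ⟨m - 1, by omega⟩
      rw [Function.iterate_succ_apply] at hi
      rw [Function.iterate_succ_apply', Function.iterate_succ_apply']
      have := ih m (by omega) (σ i) hi h h'
      show (if p (σ i) (T^[m] h (σ i)) then b i else a i) =
        if p (σ i) (T^[m] h' (σ i)) then b i else a i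
      rw [this]
  choose k hk using fun i => hσ i i₀
  obtain ⟨M, hM⟩ := (Set.finite_range k).bddAbove
  have hconst : ∀ h h', T^[M + 1] h = T^[M + 1] h' := fun h h' =>
    funext fun i => key (k i) (M + 1) (Nat.lt_succ_of_le (hM ⟨i, rfl⟩)) i (hk i) h h'
  have hfix : T (T^[M + 1] a) = T^[M + 1] a := by
    rw [← Function.iterate_succ_apply' T (M + 1) a, Function.iterate_succ_apply]
    exact hconst _ _
  refine ⟨T^[M + 1] a, fun i => (congrFun hfix i).symm, fun h hh => ?_⟩
  have h1 : T h = h := funext fun i => (hh i).symm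
  rw [← hconst h a, Function.iterate_fixed h1]

variable {D : Type} [AddCommGroup D] {C : Type} [Fintype C] [DecidableEq C] {Hc : C → Type}
  [∀ c, AddCommGroup (Hc c)] [∀ c, Finite (Hc c)] {K : ∀ c, AddSubgroup (Hc c)}

/-- the vertical vector with prescribed components -/
def clauseV {ι : Type} [Fintype ι] (c : ι → C) (h : ∀ i, K (c i)) : ∀ c', Hc c' :=
  ∑ i, Pi.single (c i) (h i : Hc (c i))

theorem clauseV_mem {ι : Type} [Fintype ι] (c : ι → C) (h : ∀ i, K (c i)) (c' : C) :
    clauseV c h c' ∈ K c' := by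
  unfold clauseV
  rw [Finset.sum_apply]
  refine sum_mem fun i _ => ?_
  by_cases hi : c' = c i
  · subst hi
    rw [Pi.single_eq_same]
    exact (h i).2
  · rw [Pi.single_eq_of_ne hi]
    exact zero_mem _

theorem clauseV_apply {ι : Type} [Fintype ι] {c : ι → C} (hc : Function.Injective c)
    (h : ∀ i, K (c i)) (i : ι) : clauseV c h (c i) = h i := by
  unfold clauseV
  rw [Finset.sum_apply, Finset.sum_eq_single i]
  · rw [Pi.single_eq_same]
  · intro j _ hj
    exact Pi.single_eq_of_ne (fun e => hj (hc e).symm) _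
  · simp

theorem clause_rho_sub (R : Rho D K) {ι : Type} [Fintype ι] {c : ι → C}
    (hc : Function.Injective c) (h : ∀ i, K (c i)) (g : D × (∀ c, Hc c)) (i : ι) :
    R.ρ (g - (0, clauseV c h)) (c i) = R.ρ g (c i) - h i := by
  have e : g - (0, clauseV c h) = g + (0, -clauseV c h) := by
    rw [sub_eq_add_neg, Prod.neg_mk, neg_zero]
  rw [e, R.equiv g (-clauseV c h) fun c' => neg_mem (clauseV_mem c h c'), Pi.add_apply,
    Pi.neg_apply, clauseV_apply hc, sub_eq_add_neg]

open Classical in
/-- the family of the clause -/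
noncomputable def clauseΦ {ι : Type} [Fintype ι] (σ : ι → ι) (c : ι → C)
    (τ : ι → D × (∀ c, Hc c)) (h : ∀ i, K (c i)) : D × (∀ c, Hc c) :=
  (0, clauseV c h) - ∑ i, if h (σ i) = 0 then τ i else 0

open Classical in
theorem clause_zero_iff (R : Rho D K) {ι : Type} [Fintype ι] (σ : ι → ι) {c : ι → C}
    (hc : Function.Injective c) (τ : ι → D × (∀ c, Hc c))
    (h1 : ∀ i j, i ≠ j → τ j ∈ R.stab (c i)) (g : D × (∀ c, Hc c)) (h : ∀ i, K (c i)) :
    R.Zero (univ.image c) (g - clauseΦ σ c τ h) ↔
      ∀ i, h i = if h (σ i) = 0 then (⟨R.ρ (g + τ i) (c i), R.mem _ _⟩ : K (c i))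
        else ⟨R.ρ g (c i), R.mem _ _⟩ := by
  have key : ∀ i, R.ρ (g - clauseΦ σ c τ h) (c i) =
      R.ρ (g + if h (σ i) = 0 then τ i else 0) (c i) - h i := by
    intro i
    have e : g - clauseΦ σ c τ h = ((g + if h (σ i) = 0 then τ i else 0) - (0, clauseV c h)) +
        ∑ j ∈ univ.erase i, if h (σ j) = 0 then τ j else 0 := by
      unfold clauseΦ
      rw [← Finset.add_sum_erase _ _ (mem_univ i)]
      abel
    have hs : (∑ j ∈ univ.erase i, if h (σ j) = 0 then τ j else 0) ∈ R.stab (c i) := by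
      refine sum_mem fun j hj => ?_
      split_ifs
      · exact h1 i j (Finset.ne_of_mem_erase hj).symm
      · exact zero_mem _
    rw [e, hs, clause_rho_sub R hc]
  unfold Rho.Zero
  simp only [Finset.mem_image, mem_univ, true_and, forall_exists_index, forall_apply_eq_imp_iff,
    key]
  refine forall_congr' fun i => ?_
  rw [sub_eq_zero]
  split_ifs
  · rw [Subtype.ext_iff, eq_comm]
  · rw [add_zero, Subtype.ext_iff, eq_comm]

/-- With a cyclic permutation `σ` of `ι`, the family
`h ↦ (0, ∑ i, single (c i) (h i)) - ∑ i, if h (σ i) = 0 then τ i else 0` (`h i ∈ K (c i)`) is a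
transversal for the image of `c` exactly when the clause holds everywhere. -/
theorem good_clause (R₀ : Rho D K) {ι : Type} [Finite ι] [Nonempty ι] (c : ι → C)
    (hc : Function.Injective c) (τ : ι → D × (∀ c, Hc c))
    (h1 : ∀ i j, i ≠ j → τ j ∈ R₀.stab (c i)) (h2 : ∀ g, ∃ i, R₀.Lit (c i) (τ i) g) :
    Good R₀ (fun R => (∀ i j, i ≠ j → τ j ∈ R.stab (c i)) → ∀ g, ∃ i, R.Lit (c i) (τ i) g) := by
  classical
  have := Fintype.ofFinite ι
  obtain ⟨σ, hσ⟩ := clause_exists_cyc ι
  have hT : R₀.Trans (univ.image c) (clauseΦ (K := K) σ c τ) := by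
    intro g
    obtain ⟨i₀, hi₀⟩ := h2 g
    simp only [clause_zero_iff R₀ σ hc τ h1 g]
    exact clause_cyc σ hσ (X := fun i => K (c i)) (fun _ x => x = 0) _ _ i₀ (Subtype.ext hi₀)
  refine good_mono (good_trans R₀ _ _ hT) fun R hR hs g => ?_
  by_contra hno
  push Not at hno
  let b : ∀ i, K (c i) := fun i => ⟨R.ρ (g + τ i) (c i), R.mem _ _⟩
  let g' := g - (0, clauseV c b)
  have hb : ∀ i, R.ρ (g' + τ i) (c i) = 0 := by
    intro i
    have e : g' + τ i = (g + τ i) - (0, clauseV c b) := by simp only [g']; abel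
    rw [e, clause_rho_sub R hc]
    exact sub_self _
  have ha : ∀ i, R.ρ g' (c i) ≠ 0 := by
    intro i
    rw [clause_rho_sub R hc, sub_ne_zero]
    exact fun e => hno i e.symm
  obtain ⟨h, -, hu⟩ := hR g'
  simp only [clause_zero_iff R σ hc τ hs g'] at hu
  have e1 := hu 0 fun i => by
    rw [if_pos (by rfl)]
    exact Subtype.ext (hb i).symm
  have e2 := hu (fun i => ⟨R.ρ g' (c i), R.mem _ _⟩) fun i => by
    rw [if_neg fun e => ha (σ i) (congrArg Subtype.val e)]
  have i := Classical.arbitrary ι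
  exact ha i (congrArg Subtype.val (congrFun (e2.trans e1.symm) i))

end Crest.Agent.R46
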