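import Crest.Agent.R46.Pr

/-! The clock family is not almost constant. -/

set_option autoImplicit false
set_option linter.unusedSectionVars false

namespace Crest.Agent.R46

open Finset Crest.CombinatoricsR.Tiling Crest.Agent.R34

namespace ClockAux

variable {r : ℕ} [Fact r.Prime]

theorem natCast_ne (h1000 : 1000 < r) {k : ℕ} (h0 : 0 < k) (hk : k ≤ 1000) : (k : ZMod r) ≠ 0 := by
  rw [Ne, ZMod.natCast_eq_zero_iff]
  exact fun h => absurd (Nat.le_of_dvd h0 h) (by omega)

theorem chi_le (x : ZMod r) : -1 ≤ quadraticChar (ZMod r) x ∧ quadraticChar (ZMod r) x ≤ 1 := by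
  rcases quadraticChar_isQuadratic (ZMod r) x with h | h | h <;> rw [h] <;> norm_num

theorem sum_mul (hF : ringChar (ZMod r) ≠ 2) (a : ZMod r) :
    -1 ≤ ∑ x : ZMod r, quadraticChar (ZMod r) x * quadraticChar (ZMod r) (x + a) := by
  have h1 : ∀ x : ZMod r, quadraticChar (ZMod r) x * quadraticChar (ZMod r) (x + a) =
      quadraticChar (ZMod r) (1 + a * x⁻¹) - if x = 0 then 1 else 0 := fun x => by
    by_cases hx : x = 0
    · subst hx; simp
    · rw [if_neg hx, sub_zero, ← map_mul, show x * (x + a) = x ^ 2 * (1 + a * x⁻¹) by field_simp,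
        map_mul, quadraticChar_sq_one' hx, one_mul]
  have h2 : ∑ x : ZMod r, quadraticChar (ZMod r) (1 + a * x⁻¹) =
      ∑ y : ZMod r, quadraticChar (ZMod r) (1 + a * y) :=
    Equiv.sum_comp (Equiv.inv (ZMod r)) fun y => quadraticChar (ZMod r) (1 + a * y)
  rw [sum_congr rfl fun x _ => h1 x, sum_sub_distrib, sum_ite_eq', if_pos (mem_univ _), h2]
  by_cases ha : a = 0
  · subst ha
    simp only [zero_mul, add_zero, map_one, sum_const, nsmul_eq_mul, mul_one]
    omega
  · have h3 : ∑ y : ZMod r, quadraticChar (ZMod r) (1 + a * y) = 0 :=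
      (Equiv.sum_comp ((Equiv.mulLeft₀ a ha).trans (Equiv.addLeft 1))
        fun y => quadraticChar (ZMod r) y).trans (quadraticChar_sum_zero hF)
    rw [h3]
    norm_num

theorem one_sub_le (z : ZMod r) :
    1 - quadraticChar (ZMod r) (z ^ 2) ≤ if z ^ 2 = 0 then 1 else 0 := by
  by_cases hz : z = 0
  · subst hz; simp
  · rw [quadraticChar_sq_one' hz]
    split_ifs <;> norm_num

end ClockAux

open ClockAux in
/-- the values of `z²` and of `z² + C z` together miss a fixed proportion of the field -/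
theorem card_two_conics {r : ℕ} [Fact r.Prime] (h1000 : 1000 < r) (C : ZMod r) :
    pr (fun κ : ZMod r => (∃ z, κ = z ^ 2) ∨ ∃ z, κ = z ^ 2 + C * z) ≤ 4 / 5 := by
  classical
  have hF : ringChar (ZMod r) ≠ 2 := by rw [ZMod.ringChar_zmod_n]; omega
  have h2 : (2 : ZMod r) ≠ 0 := by exact_mod_cast natCast_ne h1000 (k := 2) (by omega) (by omega)
  set E : ZMod r → Prop := fun κ => (∃ z, κ = z ^ 2) ∨ ∃ z, κ = z ^ 2 + C * z with hE
  set a : ZMod r := (C / 2) ^ 2 with ha
  have hpt : ∀ x : ZMod r, (1 - quadraticChar (ZMod r) x) * (1 - quadraticChar (ZMod r) (x + a)) ≤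
      4 * (if ¬ E x then 1 else 0) + 2 * (if x = 0 then 1 else 0) +
        2 * (if x = -a then 1 else 0) := fun x => by
    have c1 := chi_le x
    have c2 := chi_le (x + a)
    have p1 : (0 : ℤ) ≤ if x = 0 then 1 else 0 := by split_ifs <;> norm_num
    have p2 : (0 : ℤ) ≤ if x = -a then 1 else 0 := by split_ifs <;> norm_num
    by_cases hx : E x
    · rw [if_neg (not_not.2 hx)]
      rcases hx with ⟨z, hz⟩ | ⟨z, hz⟩
      · have := one_sub_le z
        rw [← hz] at this
        nlinarith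
      · have := one_sub_le (z + C / 2)
        rw [show (z + C / 2) ^ 2 = x + a by rw [hz, ha]; field_simp; ring] at this
        simp only [add_eq_zero_iff_eq_neg] at this
        nlinarith
    · rw [if_pos hx]
      nlinarith
  have hs := sum_le_sum (s := univ) fun x _ => hpt x
  have e1 : ∑ x : ZMod r, (1 - quadraticChar (ZMod r) x) * (1 - quadraticChar (ZMod r) (x + a)) =
      r + ∑ x : ZMod r, quadraticChar (ZMod r) x * quadraticChar (ZMod r) (x + a) := by
    have e2 : ∑ x : ZMod r, quadraticChar (ZMod r) (x + a) = 0 :=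
      (Equiv.sum_comp (Equiv.addRight a) fun y => quadraticChar (ZMod r) y).trans
        (quadraticChar_sum_zero hF)
    simp only [sub_mul, mul_sub, one_mul, mul_one, sum_sub_distrib, e2, quadraticChar_sum_zero hF,
      sum_const, card_univ, ZMod.card, nsmul_eq_mul]
    ring
  rw [e1, sum_add_distrib, sum_add_distrib, ← mul_sum, ← mul_sum, ← mul_sum, sum_ite_eq',
    sum_ite_eq', if_pos (mem_univ _), if_pos (mem_univ _), sum_boole] at hs
  have h3 : (r : ℤ) ≤ 4 * (univ.filter fun x => ¬ E x).card + 5 := by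
    linarith [sum_mul hF a]
  have h4 : (r : ℝ) ≤ 4 * (univ.filter fun x => ¬ E x).card + 5 := by exact_mod_cast h3
  have h5 : (1000 : ℝ) < r := by exact_mod_cast h1000
  have h6 := prA_not E
  rw [pr_eq_card, ZMod.card] at h6
  have h7 : 1 / 5 ≤ ((univ.filter fun x => ¬ E x).card : ℝ) / r := by
    rw [le_div_iff₀ (by linarith)]
    linarith
  linarith

open ClockAux in
theorem clock_bound {r : ℕ} [Fact r.Prime] (h1000 : 1000 < r) {N : ℕ} (hN : 0 < N)
    (f : ℤ → ZMod r) (per : ∀ m, f (m + N) = f m)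
    (h : ∀ m₀ : ℤ, ∃ d₁ d₂ ς : ZMod r, d₁ ≠ 0 ∧ (ς = 1 ∨ ς = -1) ∧ ∀ t : ℤ, ∃ z : ZMod r,
      (d₂ + ς * ((4 * t : ℤ) : ZMod r)) / d₁ = z ^ 2 + f (m₀ + 4 * t) * z) (C : ZMod r) :
    dens1 N (fun m => f m = 0 ∨ f m = C) ≤ 4 / 5 := by
  have h4 : (4 : ZMod r) ≠ 0 := by exact_mod_cast natCast_ne h1000 (k := 4) (by omega) (by omega)
  refine dens1_box hN (fun m => by rw [per]) (fun t : ZMod r => 4 * (t.val : ℤ)) fun m => ?_
  obtain ⟨d₁, d₂, ς, hd, hς, ht⟩ := h m
  have hς0 : ς ≠ 0 := by rcases hς with rfl | rfl <;> simp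
  let e : ZMod r ≃ ZMod r := ((Equiv.mulLeft₀ (ς * 4) (mul_ne_zero hς0 h4)).trans
    (Equiv.addLeft d₂)).trans (Equiv.divRight₀ d₁ hd)
  refine le_trans (pr_mono fun t ht' => ?_)
    ((PrAux.pr_equiv e _).trans_le (card_two_conics h1000 C))
  obtain ⟨z, hz⟩ := ht t.val
  have he : e t = (d₂ + ς * ((4 * (t.val : ℤ) : ℤ) : ZMod r)) / d₁ := by
    simp [e, mul_assoc]
  rw [he, hz]
  rcases ht' with h0 | h0
  · exact Or.inl ⟨z, by rw [h0, zero_mul, add_zero]⟩
  · exact Or.inr ⟨z, by rw [h0]⟩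

end Crest.Agent.R46
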