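import Crest.Agent.R46.Rho0

/-! The intended solution satisfies the marker equations and has the required periods. -/

set_option autoImplicit false
set_option linter.unusedSectionVars false

namespace Crest.Agent.R46

open Finset Crest.CombinatoricsR.Tiling Crest.Agent.R34

/-- the intended marker as a function of the residue -/
def conEx1G (r : ZMod 4) : ZMod 4 := if r = 0 ∨ r = 1 then 0 else 1

theorem conEx1_Gam0 (k : ℤ) : Gam0 k = conEx1G (k : ZMod 4) := by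
  have h : ((k % 4 : ℤ) : ZMod 4) = (k : ZMod 4) := ZMod.intCast_mod k 4
  unfold Gam0 conEx1G
  rw [← h]
  have : k % 4 = 0 ∨ k % 4 = 1 ∨ k % 4 = 2 ∨ k % 4 = 3 := by omega
  rcases this with h | h | h | h <;> rw [h] <;> decide

theorem conEx1_m1 : ∀ r y : ZMod 4, ∃! ij : Bool × Bool,
    y - (if ij.2 then 2 else 0) - conEx1G (r - if ij.1 then 2 else 0) = 0 := by
  unfold ExistsUnique
  decide

theorem conEx1_m2 : ∀ r y : ZMod 4, ∃! ij : Bool × Bool,
    y - (if ij.2 then 2 else 0) -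
      conEx1G (r - ((if ij.1 then 2 else 0) + if ij.2 then 1 else 0)) = 0 := by
  unfold ExistsUnique
  decide

namespace Setup

variable {F A : Type} (S : Setup F A) [Fintype F] [Fintype A] [DecidableEq F] [DecidableEq A]
  (X : ∀ n, XY (S.q n)) (f : F → ℤ → A)

theorem conEx1_E : ((S.E .two : ℤ) : ZMod 4) = 1 := S.E_one .two

theorem conEx1_zero (g : S.G) : (S.R0 X f).Zero {.two} g ↔
    (g.2 .two : ZMod 4) - conEx1G (g.1.1 : ZMod 4) = 0 := by
  unfold Rho.Zero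
  simp only [mem_singleton, forall_eq]
  rw [R0_two, conEx1_Gam0]

theorem conEx1_dom_fst (m : F) (g : S.G) : (g + S.dom m).1 = g.1 := add_zero _

theorem conEx1_dom_snd (m : F) (g : S.G) (c : S.C) (h : c ≠ .qq m) :
    (g + S.dom m).2 c = g.2 c := by
  simp [dom, fib, Pi.single_eq_of_ne h]

theorem conEx1_dv_fst (x : ℤ × ℤ) (g : S.G) : (g + S.dv x).1 = g.1 + x := rfl

theorem conEx1_dv_snd (x : ℤ × ℤ) (g : S.G) : (g + S.dv x).2 = g.2 := add_zero _

theorem conEx1_d0_dom (n m : F) (h : m ≠ n) (g : S.G) :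
    S.d0 X n (g + S.dom m) = S.d0 X n g := by
  apply S.d0_congr
  · simp [dom, fib]
  · simp [dom, fib]
  · rw [conEx1_dom_snd _ _ _ _ (by simpa using h.symm), sub_self]; exact zero_mem _

theorem conEx1_d0_dv (n : F) (x : ℤ × ℤ) (h1 : 4 * (S.q n : ℤ) ^ 2 ∣ x.1)
    (h2 : 4 * (S.q n : ℤ) ^ 2 ∣ x.2) (g : S.G) : S.d0 X n (g + S.dv x) = S.d0 X n g := by
  apply S.d0_congr
  · simpa [dv] using h1
  · simpa [dv] using h2
  · rw [conEx1_dv_snd, sub_self]; exact zero_mem _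

theorem conEx1_mu (P : ℕ) (u y x : ℤ × ℤ) (h : (P : ℤ) ∣ mu u x) :
    ((mu u (y + x) : ℤ) : ZMod P) = ((mu u y : ℤ) : ZMod P) := by
  rw [mu_add, Int.cast_add, (ZMod.intCast_zmod_eq_zero_iff_dvd _ _).2 h, add_zero]

theorem conEx1_pi (n : F) (l : Fin S.Λ) (x : ℤ × ℤ)
    (h1 : 4 * (S.q n : ℤ) ^ 2 * S.p (.pi n l) ∣ x.1)
    (h2 : 4 * (S.q n : ℤ) ^ 2 * S.p (.pi n l) ∣ x.2) :
    S.dv x ∈ (S.R0 X f).stab (.pi n l) := fun g => by
  rw [R0_pi, R0_pi, S.conEx1_d0_dv X n x ((dvd_mul_right _ _).trans h1)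
    ((dvd_mul_right _ _).trans h2), conEx1_dv_fst, conEx1_dv_snd,
    conEx1_mu _ _ _ _ ((dvd_mul_left _ _).trans (dvd_mu _ h1 h2))]

theorem con1_R0 : S.Con1 (S.R0 X f) := by
  refine ⟨fun g => ?_, fun g => ?_, fun n g => ?_, fun g => ?_, fun g => ?_, fun n g => ?_,
    fun n g => ?_, fun n m h g => ?_⟩
  · rw [R0_two, R0_two, conEx1_dv_fst, conEx1_dv_snd, Prod.fst_add, add_zero]
  · rw [R0_two, R0_two, conEx1_dv_fst, conEx1_dv_snd, Prod.fst_add,
      Gam0_congr (k' := g.1.1) (by simp)]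
  · rw [R0_two, R0_two, conEx1_dom_fst, conEx1_dom_snd _ _ _ _ (by simp)]
  · refine (existsUnique_congr fun ij => ?_).2 (conEx1_m1 (g.1.1 : ZMod 4) (g.2 .two))
    rw [conEx1_zero]
    have e1 : ((g - S.ev ij).2 .two : ZMod 4) = g.2 .two - (if ij.2 then 2 else 0) := by
      obtain ⟨i, j⟩ := ij
      cases i <;> cases j <;> simp [ev, a, t2, dv, fib]
    have e2 : (((g - S.ev ij).1.1 : ℤ) : ZMod 4) = g.1.1 - (if ij.1 then 2 else 0) := by
      obtain ⟨i, j⟩ := ij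
      cases i <;> cases j <;> simp [ev, a, t2, dv, fib, conEx1_E]
    rw [e1, e2]
  · refine (existsUnique_congr fun ij => ?_).2 (conEx1_m2 (g.1.1 : ZMod 4) (g.2 .two))
    rw [conEx1_zero]
    have e1 : ((g - S.m2 ij).2 .two : ZMod 4) = g.2 .two - (if ij.2 then 2 else 0) := by
      obtain ⟨i, j⟩ := ij
      cases i <;> cases j <;> simp [m2, a, t2, dv, fib]
    have e2 : (((g - S.m2 ij).1.1 : ℤ) : ZMod 4) =
        g.1.1 - ((if ij.1 then 2 else 0) + if ij.2 then 1 else 0) := by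
      obtain ⟨i, j⟩ := ij
      cases i <;> cases j <;> simp [m2, a, t2, dv, fib, conEx1_E]
    rw [e1, e2]
  · rw [R0_qq, R0_qq]
    apply S.rq0_congr <;> simp [dv]
  · rw [R0_qq, R0_qq]
    apply S.rq0_congr <;> simp [dv]
  · rw [R0_qq, R0_qq]
    apply S.rq0_congr
    · simp [dom, fib]
    · simp [dom, fib]
    · exact S.conEx1_dom_snd _ _ _ (by simpa using h.symm)

theorem con3_R0 : S.Con3 (S.R0 X f) := by
  refine ⟨fun n l => ?_, fun n l => ?_, fun n l m h g => ?_, fun n e l g => ?_,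
    fun n e l m h g => ?_, fun n e g => ?_, fun n e m g => ?_⟩
  · exact S.conEx1_pi X f n l _ dvd_rfl (dvd_zero _)
  · exact S.conEx1_pi X f n l _ (dvd_zero _) dvd_rfl
  · rw [R0_pi, R0_pi, S.conEx1_d0_dom X n m h, conEx1_dom_fst, conEx1_dom_snd _ _ _ _ (by simp)]
  · rw [R0_be, R0_be, S.conEx1_d0_dv X n _
      (by simp only [Prod.smul_fst, smul_eq_mul, mul_assoc (4 * (S.q n : ℤ) ^ 2)]
          exact dvd_mul_right _ _)
      (by simp only [Prod.smul_snd, smul_eq_mul, mul_assoc (4 * (S.q n : ℤ) ^ 2)]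
          exact dvd_mul_right _ _),
      conEx1_dv_fst, conEx1_dv_snd,
      conEx1_mu _ _ _ _ (by rw [mu_smul]; exact (dvd_mul_left _ _).mul_right _),
      lam_add, lam_smul, lam_self, mul_zero, add_zero]
  · rw [R0_be, R0_be, S.conEx1_d0_dom X n m h, conEx1_dom_fst, conEx1_dom_snd _ _ _ _ (by simp)]
  · rw [R0_de, R0_de, conEx1_dv_fst, conEx1_dv_snd,
      conEx1_mu _ _ _ _ (by rw [mu_smul]; exact dvd_mul_right _ _),
      lam_add, lam_smul, lam_self, mul_zero, add_zero]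
  · rw [R0_de, R0_de, conEx1_dom_fst, conEx1_dom_snd _ _ _ _ (by simp)]

end Setup

end Crest.Agent.R46
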