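import Crest.Agent.R46.ConEx1

/-! The intended solution satisfies the marker links. -/

set_option autoImplicit false
set_option linter.unusedSectionVars false

namespace Crest.Agent.R46

open Finset Crest.CombinatoricsR.Tiling Crest.Agent.R34

/-- the finite check behind the marker links, on residues -/
theorem mark_fin0 : ∀ (r : Fin 4) (w : ZMod 4) (i j i' j' : Bool),
    w - (if j then 2 else 0) - Gam0 (((r : ℕ) : ℤ) - if i then 2 else 0) = 0 →
    w - 1 - (if j' then 2 else 0) - Gam0 (((r : ℕ) : ℤ) - 1 - if i' then 2 else 0) = 0 →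
    typ0 (((r : ℕ) : ℤ) - if i then 2 else 0) = typ0 (((r : ℕ) : ℤ) - 1 - if i' then 2 else 0) ∧
      xor i' j' = if xor i j then !typ0 (((r : ℕ) : ℤ) - if i then 2 else 0)
        else typ0 (((r : ℕ) : ℤ) - if i then 2 else 0) := by
  decide

/-- the finite check behind the marker links -/
theorem mark_fin (k k0 k1 : ℤ) (w : ZMod 4) (i j i' j' : Bool)
    (e0 : 4 ∣ k0 - (k - if i then 2 else 0)) (e1 : 4 ∣ k1 - (k - 1 - if i' then 2 else 0))
    (h0 : w - (if j then 2 else 0) - Gam0 k0 = 0)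
    (h1 : w - 1 - (if j' then 2 else 0) - Gam0 k1 = 0) :
    typ0 k0 = typ0 k1 ∧ xor i' j' = if xor i j then !typ0 k0 else typ0 k0 := by
  have hr : (k % 4).toNat < 4 := by omega
  have hk : (((k % 4).toNat : ℕ) : ℤ) = k % 4 := by omega
  have d0 : 4 ∣ k0 - ((((k % 4).toNat : ℕ) : ℤ) - if i then 2 else 0) := by
    rw [hk]; omega
  have d1 : 4 ∣ k1 - ((((k % 4).toNat : ℕ) : ℤ) - 1 - if i' then 2 else 0) := by
    rw [hk]; omega
  rw [Gam0_congr d0] at h0
  rw [Gam0_congr d1] at h1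
  rw [typ0_congr d0, typ0_congr d1]
  exact mark_fin0 ⟨_, hr⟩ w i j i' j' h0 h1

namespace Setup

variable {F A : Type} (S : Setup F A) [Fintype F] [Fintype A] [DecidableEq F] [DecidableEq A]
  (X : ∀ n, XY (S.q n)) (f : F → ℤ → A)

theorem ev_fst (ij : Bool × Bool) : (S.ev ij).1 = (if ij.1 then 2 * S.E .two else 0, 0) := by
  obtain ⟨i, j⟩ := ij
  cases i <;> cases j <;> ext <;> simp [ev, a, t2, dv, fib]

theorem ev_two (ij : Bool × Bool) :
    (S.ev ij).2 .two = (if ij.2 then 2 else 0 : ZMod 4) := by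
  obtain ⟨i, j⟩ := ij
  cases i <;> cases j <;> simp [ev, a, t2, dv, fib]

theorem ev_qq (n : F) (ij : Bool × Bool) : (S.ev ij).2 (.qq n) = 0 := by
  obtain ⟨i, j⟩ := ij
  cases i <;> cases j <;> simp [ev, a, t2, dv, fib]

theorem at2_fst : (S.a + S.t2).1 = (S.E .two, 0) := by
  simp [a, t2, dv, fib]

theorem at2_two : (S.a + S.t2).2 .two = (1 : ZMod 4) := by
  simp [a, t2, dv, fib]

theorem at2_qq (n : F) : (S.a + S.t2).2 (.qq n) = 0 := by
  simp [a, t2, dv, fib]

/-- the `q`-component only sees the type, the site modulo `q ^ 3` and its own coordinate -/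
theorem rq0_congr' (n : F) (g g' : S.G) (ht : typ0 g.1.1 = typ0 g'.1.1)
    (h1 : (S.q n : ℤ) ^ 3 ∣ g.1.1 - g'.1.1) (h2 : (S.q n : ℤ) ^ 3 ∣ g.1.2 - g'.1.2)
    (hy : g.2 (.qq n) = g'.2 (.qq n)) : S.rq0 X n g = S.rq0 X n g' := by
  unfold rq0
  rw [ht, hy]
  apply (X n).congr
  · rw [← mu_sub]; exact (pow_dvd_pow _ (by norm_num)).trans (dvd_mu _ h1 h2)
  · rw [← lam_sub]; exact (dvd_pow_self _ three_ne_zero).trans (dvd_lam _ h1 h2)

/-- a marker link holds once every step chosen by the type stays in the subgroup -/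
theorem link_R0 (n : F) (x y : S.G) (hx1 : 4 ∣ x.1.1) (hy1 : 4 ∣ y.1.1) (hx2 : x.2 .two = 0)
    (hy2 : y.2 .two = 0) (K' : AddSubgroup (S.Hc (.qq n)))
    (hstep : ∀ h : S.G, S.rq0 X n (h + if typ0 h.1.1 then y else x) - S.rq0 X n h ∈ K') :
    (S.R0 X f).Link {.two} (S.L0 x y) (S.L1 x y) (.qq n) K' := by
  intro g ij ij' hz0 hz1
  have e0 : g - S.L0 x y ij = (g - S.ev ij) + (if xor ij.1 ij.2 then x + y else 0) := by
    unfold L0; abel
  have e1 : g - S.L1 x y ij' =
      (g - (S.a + S.t2) - S.ev ij') + (if xor ij'.1 ij'.2 then y else x) := by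
    unfold L1; abel
  have z0 := hz0 .two (mem_singleton_self _)
  have z1 := hz1 .two (mem_singleton_self _)
  rw [R0_qq, R0_qq]
  rw [R0_two] at z0 z1
  rw [e0] at z0 ⊢
  rw [e1] at z1 ⊢
  set h0 := g - S.ev ij with hh0
  set h1 := g - (S.a + S.t2) - S.ev ij' with hh1
  have hE := S.four_dvd_E_two
  have hE3 := S.q3_dvd_E n .two (by simp)
  have a0 : h0.1.1 = g.1.1 - if ij.1 then 2 * S.E .two else 0 := by
    rw [hh0, Prod.fst_sub, ev_fst]; rfl
  have a1 : h1.1.1 = g.1.1 - S.E .two - if ij'.1 then 2 * S.E .two else 0 := by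
    rw [hh1, Prod.fst_sub, ev_fst, Prod.fst_sub g, at2_fst]; rfl
  have b0 : h0.1.2 = g.1.2 := by
    rw [hh0, Prod.fst_sub, ev_fst]; simp
  have b1 : h1.1.2 = g.1.2 := by
    rw [hh1, Prod.fst_sub, Prod.fst_sub, ev_fst, at2_fst]; simp
  have c0 : h0.2 .two = (g.2 .two - if ij.2 then 2 else 0 : ZMod 4) := by
    rw [hh0, Prod.snd_sub, Pi.sub_apply, ev_two]
  have c1 : h1.2 .two = (g.2 .two - 1 - if ij'.2 then 2 else 0 : ZMod 4) := by
    rw [hh1, Prod.snd_sub, Prod.snd_sub, Pi.sub_apply, Pi.sub_apply, ev_two, at2_two]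
  have q0 : h0.2 (.qq n) = g.2 (.qq n) := by
    rw [hh0, Prod.snd_sub, Pi.sub_apply, ev_qq, sub_zero]
  have q1 : h1.2 (.qq n) = g.2 (.qq n) := by
    rw [hh1, Prod.snd_sub, Prod.snd_sub, Pi.sub_apply, Pi.sub_apply, ev_qq, at2_qq, sub_zero,
      sub_zero]
  have w0 : ∀ b : Bool, 4 ∣ (if b then x + y else 0 : S.G).1.1 ∧
      (if b then x + y else 0 : S.G).2 .two = 0 := by
    intro b
    cases b
    · simp
    · simp only [if_true, Prod.fst_add, Prod.snd_add, Pi.add_apply, hx2, hy2, add_zero, and_true]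
      exact dvd_add hx1 hy1
  have w1 : ∀ b : Bool, 4 ∣ (if b then y else x : S.G).1.1 ∧
      (if b then y else x : S.G).2 .two = 0 := by
    intro b
    cases b
    · exact ⟨hx1, hx2⟩
    · exact ⟨hy1, hy2⟩
  have tz : ∀ (h z : S.G), 4 ∣ z.1.1 → typ0 (h + z).1.1 = typ0 h.1.1 := fun h z hz =>
    typ0_congr (by simpa using hz)
  have gz : ∀ (h z : S.G), 4 ∣ z.1.1 → Gam0 (h + z).1.1 = Gam0 h.1.1 := fun h z hz =>
    Gam0_congr (by simpa using hz)
  rw [gz _ _ (w0 _).1, Prod.snd_add, Pi.add_apply, (w0 _).2, add_zero, c0] at z0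
  rw [gz _ _ (w1 _).1, Prod.snd_add, Pi.add_apply, (w1 _).2, add_zero, c1] at z1
  obtain ⟨ht, hxor⟩ := mark_fin g.1.1 h0.1.1 h1.1.1 (g.2 .two) ij.1 ij.2 ij'.1 ij'.2
    (by rw [a0]; split_ifs <;> omega) (by rw [a1]; split_ifs <;> omega) z0 z1
  have same : ∀ z : S.G, 4 ∣ z.1.1 → S.rq0 X n (h1 + z) = S.rq0 X n (h0 + z) := by
    intro z hz
    apply S.rq0_congr' X n
    · rw [tz _ _ hz, tz _ _ hz, ht]
    · simp only [Prod.fst_add, add_sub_add_right_eq_sub]
      rw [a0, a1]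
      obtain ⟨c, hc⟩ := hE3
      rw [hc]
      split_ifs
      · exact ⟨-c, by ring⟩
      · exact ⟨-3 * c, by ring⟩
      · exact ⟨c, by ring⟩
      · exact ⟨-c, by ring⟩
    · simp only [Prod.fst_add, Prod.snd_add, add_sub_add_right_eq_sub]
      rw [b0, b1, sub_self]; exact dvd_zero _
    · simp only [Prod.snd_add, Pi.add_apply]
      rw [q0, q1]
  rw [same _ (w1 _).1, hxor]
  cases hb : xor ij.1 ij.2
  · simp only [Bool.false_eq_true, if_false, add_zero]
    rw [← neg_sub]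
    exact K'.neg_mem (hstep h0)
  · simp only [if_true]
    have := hstep (h0 + if (!typ0 h0.1.1) = true then y else x)
    rw [tz _ _ (w1 _).1] at this
    have e : (h0 + if (!typ0 h0.1.1) = true then y else x) +
        (if typ0 h0.1.1 = true then y else x) = h0 + (x + y) := by
      cases typ0 h0.1.1
      · simp only [Bool.not_false, if_true, Bool.false_eq_true, if_false]; abel
      · simp only [Bool.not_true, if_true, Bool.false_eq_true, if_false]; abel
    rwa [e] at this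

theorem four_dvd_mq (n : F) : 4 ∣ (S.mq n).1.1 :=
  (S.four_dvd_E (.qq n) (by simp)).mul_right _

theorem four_dvd_lq (n : F) : 4 ∣ (S.lq n).1.1 :=
  (S.four_dvd_E (.qq n) (by simp)).mul_right _

/-- a step along the lines -/
theorem rq0_mq (n : F) (h : S.G) (z : S.G) (hz : z.1 = (S.mq n).1) :
    S.rq0 X n (h + z) = (X n).Rt (typ0 h.1.1) (mu (S.u n) h.1 + 1) (lam (S.v n) h.1)
      (h.2 (.qq n) + z.2 (.qq n)) := by
  unfold rq0
  have h4 : typ0 (h + z).1.1 = typ0 h.1.1 :=
    typ0_congr (by simpa [hz] using S.four_dvd_mq n)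
  rw [h4]
  apply (X n).congr
  · rw [Prod.fst_add, hz, mu_add]
    simp only [mq, dv]
    rw [mu_smul, mu_v, mul_one, add_sub_add_left_eq_sub]
    exact (pow_dvd_pow _ (by norm_num)).trans (S.q3_dvd_E_qq n)
  · rw [Prod.fst_add, hz, lam_add]
    simp only [mq, dv]
    rw [lam_smul, lam_self, mul_zero, add_zero, sub_self]
    exact dvd_zero _

/-- a transversal step -/
theorem rq0_lq (n : F) (h : S.G) (z : S.G) (hz : z.1 = (S.lq n).1) :
    S.rq0 X n (h + z) = (X n).Rt (typ0 h.1.1) (mu (S.u n) h.1) (lam (S.v n) h.1 + 1)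
      (h.2 (.qq n) + z.2 (.qq n)) := by
  unfold rq0
  have h4 : typ0 (h + z).1.1 = typ0 h.1.1 :=
    typ0_congr (by simpa [hz] using S.four_dvd_lq n)
  rw [h4]
  apply (X n).congr
  · rw [Prod.fst_add, hz, mu_add]
    simp only [lq, dv]
    rw [mu_smul, mu_self, mul_zero, add_zero, sub_self]
    exact dvd_zero _
  · rw [Prod.fst_add, hz, lam_add]
    simp only [lq, dv]
    rw [lam_smul, S.det, mul_one, add_sub_add_left_eq_sub]
    exact (dvd_pow_self _ three_ne_zero).trans (S.q3_dvd_E_qq n)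

theorem con2_R0 : S.Con2 (S.R0 X f) :=
  { S.con1_R0 X f with
    link0 := fun n => S.link_R0 X f n 0 0 (by simp) (by simp) rfl rfl ⊥ fun h => by simp
    link1 := fun n => by
      refine S.link_R0 X f n _ _ ?_ ?_ ?_ ?_ _ fun h => ?_
      · simpa [dom, fib] using S.four_dvd_mq n
      · simpa [dom, fib] using S.four_dvd_mq n
      · simp [mq, dv, dom, fib]
      · simp [mq, dv, dom, fib]
      · rw [S.rq0_mq X n h _ (by split_ifs <;> simp [dom, fib])]
        have e : (if typ0 h.1.1 = true then S.mq n - S.dom n else S.mq n + S.dom n).2 (.qq n) =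
            (if typ0 h.1.1 = true then -1 else 1 : ZMod (S.q n ^ 3)) := by
          split_ifs <;> simp [mq, dv, dom, fib]
        rw [e]
        exact (X n).skew _ _ _ _
    link2 := fun n => by
      refine S.link_R0 X f n _ _ ?_ ?_ ?_ ?_ _ fun h => ?_
      · exact S.four_dvd_lq n
      · simpa [dom, fib] using S.four_dvd_lq n
      · simp [lq, dv]
      · simp [lq, dv, dom, fib]
      · rw [S.rq0_lq X n h _ (by split_ifs <;> simp [dom, fib])]
        have e : (if typ0 h.1.1 = true then S.lq n + ((S.q n : ℤ) ^ 2) • S.dom n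
            else S.lq n).2 (.qq n) =
            (if typ0 h.1.1 = true then ((S.q n : ℕ) : ZMod (S.q n ^ 3)) ^ 2 else 0) := by
          split_ifs <;> simp [lq, dv, dom, fib]
        rw [e, (X n).vert, AddSubgroup.mem_bot]
        exact sub_self _ }

end Setup

end Crest.Agent.R46
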