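import Crest.Agent.R46.Rho0

/-! The intended solution satisfies the type links. -/

set_option autoImplicit false
set_option linter.unusedSectionVars false

namespace Crest.Agent.R46

open Finset Crest.CombinatoricsR.Tiling Crest.Agent.R34

theorem typ0_flip_of_gam {m m' : ℤ} (hpar : ¬ 2 ∣ m - m') (x : ZMod 4) (b b' : Bool)
    (h : x - (if b then 2 else 0) - Gam0 m = 0) (h' : x - (if b' then 2 else 0) - Gam0 m' = 0) :
    typ0 m' = !typ0 m := by
  have hx : x = (if b then 2 else 0) + Gam0 m := by linear_combination h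
  rw [hx] at h'
  unfold Gam0 typ0 at *
  have h1 : m % 4 = 0 ∨ m % 4 = 1 ∨ m % 4 = 2 ∨ m % 4 = 3 := by omega
  have h2 : m' % 4 = 0 ∨ m' % 4 = 1 ∨ m' % 4 = 2 ∨ m' % 4 = 3 := by omega
  rcases h1 with h1 | h1 | h1 | h1 <;> rcases h2 with h2 | h2 | h2 | h2 <;>
    first
    | (exfalso; omega)
    | (simp only [h1, h2] at h' ⊢; revert h'; cases b <;> cases b' <;> decide)

namespace Setup

variable {F A : Type} (S : Setup F A) [Fintype F] [Fintype A] [DecidableEq F] [DecidableEq A]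
  (X : ∀ n, XY (S.q n)) (f : F → ℤ → A)

open Classical in
/-- the coordinates of a point of a type link -/
structure PCo (n : F) (l : Fin S.Λ) (j : ℤ) (P : S.G) (c : ℤ) (b : Bool)
    (κ : ZMod (S.q n) × ZMod (S.q n)) : Prop where
  fst : P.1 = ((c * S.E .two, 0) : ℤ × ℤ) +
    ((κ.1.val : ℤ) * S.q n * S.E (.qq n) + if InL (S.q n) l κ then j else 0) • S.v n
  two : P.2 .two = if b then 2 else 0
  qq : P.2 (.qq n) = (κ.2.val : ZMod (S.q n ^ 3)) * (S.q n : ZMod (S.q n ^ 3)) ^ 2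
  pi : P.2 (.pi n l) = 0

theorem pco_P0 (n : F) (l : Fin S.Λ) (j : ℤ)
    (z : (Bool × Bool) × (ZMod (S.q n) × ZMod (S.q n))) :
    S.PCo n l j (S.P0 n l (S.dv (j • S.v n)) z) (if z.1.1 then 2 else 0) z.1.2 z.2 := by
  obtain ⟨⟨i, b⟩, κ⟩ := z
  refine ⟨?_, ?_, ?_, ?_⟩
  · by_cases h : InL (S.q n) l κ <;> cases i <;> cases b <;> ext <;>
      simp [P0, ev, kt, a, t2, mq, dom, dv, fib, h, -ZMod.natCast_val] <;> ring
  · by_cases h : InL (S.q n) l κ <;> cases i <;> cases b <;>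
      simp [P0, ev, kt, a, t2, mq, dom, dv, fib, h]
  · by_cases h : InL (S.q n) l κ <;> cases i <;> cases b <;>
      simp [P0, ev, kt, a, t2, mq, dom, dv, fib, h, -ZMod.natCast_val]
  · by_cases h : InL (S.q n) l κ <;> cases i <;> cases b <;>
      simp [P0, ev, kt, a, t2, mq, dom, dv, fib, h]

theorem pco_P1 (n : F) (l : Fin S.Λ) (j : ℤ)
    (z : (Bool × Bool) × (ZMod (S.q n) × ZMod (S.q n))) :
    S.PCo n l j (S.P1 n l (S.dv (j • S.v n)) z) (1 + if z.1.1 then 2 else 0) z.1.2 z.2 := by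
  have h := S.pco_P0 n l j z
  refine ⟨?_, ?_, ?_, ?_⟩
  · rw [P1, Prod.fst_add, h.fst, ← add_assoc]
    congr 1
    simp [a, dv, add_mul]
  · rw [P1, Prod.snd_add, Pi.add_apply, h.two]; simp [a, dv]
  · rw [P1, Prod.snd_add, Pi.add_apply, h.qq]; simp [a, dv]
  · rw [P1, Prod.snd_add, Pi.add_apply, h.pi]; simp [a, dv]

variable {S}

section
variable {n : F} {l : Fin S.Λ} {j : ℤ} {P : S.G} {c : ℤ} {b : Bool}
  {κ : ZMod (S.q n) × ZMod (S.q n)}

open Classical in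
theorem PCo.mu_eq (h : S.PCo n l j P c b κ) (g : S.G) :
    mu (S.u n) (g - P).1 = mu (S.u n) g.1 - c * S.E .two * (S.u n).2 -
      ((κ.1.val : ℤ) * S.q n * S.E (.qq n) + if InL (S.q n) l κ then j else 0) := by
  rw [Prod.fst_sub, mu_sub, h.fst, mu_add, mu_smul, S.mu_v]
  simp only [mu]; ring

theorem PCo.lam_eq (h : S.PCo n l j P c b κ) (g : S.G) :
    lam (S.v n) (g - P).1 = lam (S.v n) g.1 + c * S.E .two * (S.v n).2 := by
  rw [Prod.fst_sub, lam_sub, h.fst, lam_add, lam_smul, lam_self]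
  simp only [lam]; ring

theorem PCo.four (h : S.PCo n l j P c b κ) (hj : 4 * (S.q n : ℤ) ^ 2 ∣ j) (g : S.G) :
    4 ∣ (g - P).1.1 - (g.1.1 - c) := by
  classical
  have h4 : (4 : ℤ) ∣ j := (dvd_mul_right _ _).trans hj
  have h5 : (4 : ℤ) ∣ (κ.1.val : ℤ) * S.q n * S.E (.qq n) + if InL (S.q n) l κ then j else 0 := by
    refine dvd_add ((S.four_dvd_E _ (by simp)).mul_left _) ?_
    split_ifs
    · exact h4
    · exact dvd_zero _
  have e : (g - P).1.1 - (g.1.1 - c) = -(c * (S.E .two - 1)) -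
      ((κ.1.val : ℤ) * S.q n * S.E (.qq n) + if InL (S.q n) l κ then j else 0) * (S.v n).1 := by
    rw [Prod.fst_sub, Prod.fst_sub, h.fst]
    simp only [Prod.fst_add, Prod.smul_fst, smul_eq_mul]
    ring
  rw [e]
  exact dvd_sub (dvd_neg.2 (S.four_dvd_E_two.mul_left _)) (h5.mul_right _)

theorem PCo.mu_dvd (h : S.PCo n l j P c b κ) (hj : 4 * (S.q n : ℤ) ^ 2 ∣ j) (g : S.G) :
    (S.q n : ℤ) ^ 2 ∣ mu (S.u n) (g - P).1 - (mu (S.u n) g.1 - (κ.1.val : ℤ) * S.q n) := by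
  classical
  have h23 : (S.q n : ℤ) ^ 2 ∣ (S.q n : ℤ) ^ 3 := pow_dvd_pow _ (by norm_num)
  have h1 : (S.q n : ℤ) ^ 2 ∣ S.E .two := h23.trans (S.q3_dvd_E n _ (by simp))
  have h2 : (S.q n : ℤ) ^ 2 ∣ S.E (.qq n) - 1 := h23.trans (S.q3_dvd_E_qq n)
  have h3 : (S.q n : ℤ) ^ 2 ∣ if InL (S.q n) l κ then j else 0 := by
    split_ifs
    · exact (dvd_mul_left _ _).trans hj
    · exact dvd_zero _
  have e : mu (S.u n) (g - P).1 - (mu (S.u n) g.1 - (κ.1.val : ℤ) * S.q n) =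
      -(c * S.E .two * (S.u n).2) - (κ.1.val : ℤ) * S.q n * (S.E (.qq n) - 1) -
        if InL (S.q n) l κ then j else 0 := by
    rw [h.mu_eq]; ring
  rw [e]
  exact dvd_sub (dvd_sub (dvd_neg.2 ((h1.mul_left _).mul_right _)) (h2.mul_left _)) h3

theorem PCo.lam_dvd (h : S.PCo n l j P c b κ) (g : S.G) :
    (S.q n : ℤ) ∣ lam (S.v n) (g - P).1 - lam (S.v n) g.1 := by
  have h1 : (S.q n : ℤ) ∣ S.E .two :=
    (dvd_pow_self _ (by norm_num)).trans (S.q3_dvd_E n _ (by simp))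
  rw [h.lam_eq, add_sub_cancel_left]
  exact (h1.mul_left _).mul_right _

theorem PCo.rq_eq (h : S.PCo n l j P c b κ) (hj : 4 * (S.q n : ℤ) ^ 2 ∣ j) (g : S.G) :
    S.rq0 X n (g - P) = (X n).Rt (typ0 (g.1.1 - c)) (mu (S.u n) g.1 - (κ.1.val : ℤ) * S.q n)
      (lam (S.v n) g.1)
      (g.2 (.qq n) - (κ.2.val : ZMod (S.q n ^ 3)) * (S.q n : ZMod (S.q n ^ 3)) ^ 2) := by
  unfold rq0
  rw [typ0_congr (h.four hj g), Prod.snd_sub, Pi.sub_apply, h.qq]
  exact (X n).congr _ _ _ _ _ _ (h.mu_dvd hj g) (h.lam_dvd g)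

theorem PCo.d_eq (h : S.PCo n l j P c b κ) (hj : 4 * (S.q n : ℤ) ^ 2 ∣ j) (g : S.G)
    (h0 : S.rq0 X n (g - P) = 0) :
    S.d0 X n (g - P) = (X n).dc (mu (S.u n) g.1) (lam (S.v n) g.1) (g.2 (.qq n)) := by
  unfold d0
  rw [h0, sub_zero]
  apply (X n).dc_congr
  · have h1 := (dvd_pow_self (S.q n : ℤ) two_ne_zero).trans (h.mu_dvd hj g)
    have h2 : (S.q n : ℤ) ∣ (κ.1.val : ℤ) * S.q n := dvd_mul_left _ _
    have := dvd_sub h1 h2
    rwa [show ∀ x y z : ℤ, x - (y - z) - z = x - y from fun x y z => by ring] at this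
  · exact h.lam_dvd g
  · rw [Prod.snd_sub, Pi.sub_apply, h.qq, sub_sub_cancel_left]
    refine neg_mem ?_
    rw [← nsmul_eq_mul]
    exact AddSubgroup.nsmul_mem _ (AddSubgroup.mem_zmultiples _) _

open Classical in
theorem PCo.mu_cast (h : S.PCo n l j P c b κ) (g : S.G) :
    ((mu (S.u n) (g - P).1 : ℤ) : ZMod (S.p (.pi n l))) =
      ((mu (S.u n) g.1 - (if InL (S.q n) l κ then j else 0) : ℤ) : ZMod (S.p (.pi n l))) := by
  rw [ZMod.intCast_eq_intCast_iff_dvd_sub, h.mu_eq]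
  have h1 : ((S.p (.pi n l) : ℕ) : ℤ) ∣ S.E .two := S.E_dvd .two (.pi n l) (by simp)
  have h2 : ((S.p (.pi n l) : ℕ) : ℤ) ∣ S.E (.qq n) := S.E_dvd (.qq n) (.pi n l) (by simp)
  have := dvd_add ((h1.mul_left c).mul_right (S.u n).2) (h2.mul_left ((κ.1.val : ℤ) * S.q n))
  rwa [show ∀ x y z t : ℤ, x - t - (x - y - (z + t)) = y + z from fun x y z t => by ring]

end

variable (S)

theorem plink_R0 (n : F) (l : Fin S.Λ) (j : ℤ) (hj : 4 * (S.q n : ℤ) ^ 2 ∣ j) :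
    (S.R0 X f).Link {.two, .qq n} (S.P0 n l (S.dv (j • S.v n))) (S.P1 n l (S.dv (j • S.v n)))
      (.pi n l) ⊥ := by
  classical
  intro g z z' hz hz'
  have h0 := S.pco_P0 n l j z
  have h1 := S.pco_P1 n l j z'
  set P := S.P0 n l (S.dv (j • S.v n)) z
  set P' := S.P1 n l (S.dv (j • S.v n)) z'
  have a0 := hz .two (by simp)
  have a1 := hz' .two (by simp)
  have b0 := hz (.qq n) (by simp)
  have b1 := hz' (.qq n) (by simp)
  rw [R0_two, Gam0_congr (h0.four hj g), Prod.snd_sub, Pi.sub_apply, h0.two] at a0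
  rw [R0_two, Gam0_congr (h1.four hj g), Prod.snd_sub, Pi.sub_apply, h1.two] at a1
  rw [R0_qq] at b0 b1
  have hflip := typ0_flip_of_gam (by split_ifs <;> omega) _ _ _ a0 a1
  have d0' := h0.d_eq X hj g b0
  have d1' := h1.d_eq X hj g b1
  rw [h0.rq_eq X hj g] at b0
  rw [h1.rq_eq X hj g, hflip] at b1
  rw [AddSubgroup.mem_bot, R0_pi, R0_pi, d0', d1', h0.mu_cast, h1.mu_cast, Prod.snd_sub,
    Prod.snd_sub, Pi.sub_apply, Pi.sub_apply, h0.pi, h1.pi]
  by_cases hd : InL (S.q n) l ((X n).dc (mu (S.u n) g.1) (lam (S.v n) g.1) (g.2 (.qq n)))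
  · have hiff : InL (S.q n) l z.2 ↔ InL (S.q n) l z'.2 := by
      have key : InL (S.q n) l (z.2 - z'.2) := by
        cases ht : typ0 (g.1.1 - if z.1.1 then 2 else 0)
        · rw [ht] at b0 b1
          rw [(X n).dc_spec _ _ _ _ _ b0 b1]; exact hd
        · rw [ht] at b0 b1
          rw [← inL_neg, neg_sub, (X n).dc_spec _ _ _ _ _ b1 b0]; exact hd
      constructor
      · intro h
        have := h.sub key
        rwa [sub_sub_cancel] at this
      · intro h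
        have := key.add h
        rwa [sub_add_cancel] at this
    simp only [hd, if_true, hiff, sub_self]
  · simp only [hd, if_false, sub_self]

theorem con4_R0 : S.Con4 (S.R0 X f) := by
  refine ⟨fun n l => ?_, fun n l => ?_⟩
  · have := S.plink_R0 X f n l 0 (dvd_zero _)
    rwa [zero_smul, dv_zero] at this
  · exact S.plink_R0 X f n l _ (S.fourq2_dvd_E n _ (by simp) (by simp))

end Setup

end Crest.Agent.R46
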