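import Crest.Agent.R46.Rho0

/-! The intended solution satisfies the clauses. -/

set_option autoImplicit false
set_option linter.unusedSectionVars false

namespace Crest.Agent.R46

open Finset Crest.CombinatoricsR.Tiling Crest.Agent.R34

namespace Setup

variable {F A : Type} (S : Setup F A) [Fintype F] [Fintype A] [DecidableEq F] [DecidableEq A]
  (X : ∀ n, XY (S.q n)) (f : F → ℤ → A)

theorem ex5_lam (c : S.C) (n : F) (g τ : S.G) (h : τ.1 = S.E c • S.v n) :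
    lam (S.v n) (g + τ).1 = lam (S.v n) g.1 := by
  rw [Prod.fst_add, h, lam_add, lam_smul, lam_self, mul_zero, add_zero]

theorem ex5_mu (c : S.C) (n : F) (g τ : S.G) (h : τ.1 = S.E c • S.v n) :
    ((mu (S.u n) (g + τ).1 : ℤ) : ZMod (S.md c)) = (mu (S.u n) g.1 : ℤ) + 1 := by
  rw [Prod.fst_add, h, mu_add, mu_smul, S.mu_v, mul_one, Int.cast_add, S.E_one]

theorem ex5_d0 (c : S.C) (n : F) (h2 : c ≠ .two) (hq : c ≠ .qq n) (g τ : S.G)
    (h : τ.1 = S.E c • S.v n) (h' : τ.2 (.qq n) = 0) : S.d0 X n (g + τ) = S.d0 X n g := by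
  have := S.fourq2_dvd_E n c h2 hq
  apply S.d0_congr
  · simpa [h] using this.mul_right _
  · simpa [h] using this.mul_right _
  · simp [h']

theorem ex5_lsel (n : F) (d : ZMod (S.q n) × ZMod (S.q n)) :
    S.lsel n d = if d.1 = 0 then S.q n else (d.2 / d.1).val := rfl
theorem ex5_tp0 (c : S.C) (n : F) : (S.tp c n).2 = Pi.single c 1 := zero_add _
theorem ex5_tm1 (c : S.C) (n : F) : (S.tm c n).1 = S.E c • S.v n := rfl
theorem ex5_tm2 (c c' : S.C) (n : F) : (S.tm c n).2 c' = 0 := rfl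
theorem ex5_tp1 (c : S.C) (n : F) : (S.tp c n).1 = S.E c • S.v n := add_zero _
theorem ex5_tp2 (c : S.C) (n : F) : (S.tp c n).2 c = 1 := by rw [ex5_tp0, Pi.single_eq_same]
theorem ex5_tp3 (c c' : S.C) (n : F) (h : c' ≠ c) : (S.tp c n).2 c' = 0 := by
  rw [ex5_tp0, Pi.single_eq_of_ne h]

theorem con5_R0 (h0 : ∀ J τ, S.Forb J τ → ∀ x, ∃ n ∈ J, f n (lam (S.v n) x) ≠ τ n)
    (hAl : ∀ n (m : ℤ) (z : ZMod (S.q n)), S.Al n (f n m) (z ^ 2 + (m : ZMod (S.q n)) * z)) :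
    S.Con5 (S.R0 X f) := by
  refine ⟨fun n e l g => ?_, fun n e g => ?_, fun n g => ?_, fun J τ l hJ g => ?_⟩
  · by_cases h : InL (S.q n) l (S.d0 X n g)
    · right
      have h1 := S.ex5_d0 X (.pi n l) n (by simp) (by simp) g _ (S.ex5_tp1 _ n)
        (S.ex5_tp3 _ _ n (by simp))
      have h2 := S.ex5_mu (.pi n l) n g _ (S.ex5_tp1 _ n)
      unfold Rho.Lit
      rw [R0_pi, R0_pi, h1, if_pos h, if_pos h, Prod.snd_add, Pi.add_apply, ex5_tp2]
      linear_combination (-1 : ZMod (S.md (.pi n l))) * h2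
    · left
      have h1 := S.ex5_d0 X (.be n e l) n (by simp) (by simp) g _ (S.ex5_tm1 _ n)
        (S.ex5_tm2 _ _ n)
      have h2 : ∀ P : Prop, ¬ (P ∧ (l : ℕ) = S.lsel n (S.d0 X n g)) := fun P hP =>
        h (hP.2 ▸ S.inL_lsel n _)
      unfold Rho.Lit
      rw [R0_be, R0_be, h1, if_neg (h2 _), if_neg (h2 _), Prod.snd_add, Pi.add_apply, ex5_tm2,
        add_zero]
  · by_cases h : f n (lam (S.v n) g.1) = e
    · right
      refine ⟨⟨S.lsel n (S.d0 X n g), S.lsel_lt n _⟩, fun hl => ?_, ?_⟩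
      · have hd : (S.d0 X n g).1 ≠ 0 := fun h0 => by simp [ex5_lsel, h0] at hl
        obtain ⟨z, hz⟩ := ((X n).dc_dir _ _ _).resolve_left hd
        have : ((S.lsel n (S.d0 X n g) : ℕ) : ZMod (S.q n)) =
            z ^ 2 + ((lam (S.v n) g.1 : ℤ) : ZMod (S.q n)) * z := by
          rw [ex5_lsel, if_neg hd, ZMod.natCast_zmod_val, div_eq_iff hd]
          exact hz
        rw [this, ← h]
        exact hAl n _ z
      · generalize hl : (⟨S.lsel n (S.d0 X n g), S.lsel_lt n _⟩ : Fin S.Λ) = l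
        have hl' : (l : ℕ) = S.lsel n (S.d0 X n g) := by rw [← hl]
        have h1 := S.ex5_d0 X (.be n e l) n (by simp) (by simp) g _ (S.ex5_tp1 _ n)
          (S.ex5_tp3 _ _ n (by simp))
        have h2 := S.ex5_mu (.be n e l) n g _ (S.ex5_tp1 _ n)
        unfold Rho.Lit
        rw [R0_be, R0_be, h1, S.ex5_lam _ n g _ (S.ex5_tp1 _ n), if_pos ⟨h, hl'⟩, if_pos ⟨h, hl'⟩,
          Prod.snd_add, Pi.add_apply, ex5_tp2]
        linear_combination (-1 : ZMod (S.md (.be n e l))) * h2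
    · left
      unfold Rho.Lit
      rw [R0_de, R0_de, S.ex5_lam _ n g _ (S.ex5_tm1 _ n), if_neg h, if_neg h, Prod.snd_add,
        Pi.add_apply, ex5_tm2, add_zero]
  · refine ⟨f n (lam (S.v n) g.1), ?_⟩
    have h2 := S.ex5_mu (.de n (f n (lam (S.v n) g.1))) n g _ (S.ex5_tp1 _ n)
    unfold Rho.Lit
    rw [R0_de, R0_de, S.ex5_lam _ n g _ (S.ex5_tp1 _ n), if_pos rfl, if_pos rfl, Prod.snd_add,
      Pi.add_apply, ex5_tp2]
    linear_combination (-1 : ZMod (S.md (.de n (f n (lam (S.v n) g.1))))) * h2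
  · obtain ⟨n, hn, h⟩ := h0 J τ hJ g.1
    refine ⟨n, hn, ?_⟩
    have h1 : (g + S.dom n).1 = g.1 := add_zero _
    have h2 : (S.dom n).2 (.be n (τ n) (l n)) = 0 := by simp [dom, fib]
    unfold Rho.Lit
    rw [R0_be, R0_be, h1, if_neg (fun h' => h h'.1), if_neg (fun h' => h h'.1), Prod.snd_add,
      Pi.add_apply, h2, add_zero]

end Setup

end Crest.Agent.R46
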