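import Crest.Agent.R46.Frame

/-! Links and periods can be forced. -/

set_option autoImplicit false

namespace Crest.Agent.R46

open Finset Crest.CombinatoricsR.Tiling Crest.Agent.R34

variable {D : Type} [AddCommGroup D] {C : Type} [Fintype C] [DecidableEq C] {Hc : C → Type}
  [∀ c, AddCommGroup (Hc c)] [∀ c, Finite (Hc c)] {K : ∀ c, AddSubgroup (Hc c)}

/-- shifting along the component `s` -/
theorem link_rho_sub (R : Rho D K) (s : C) (g : D × (∀ c, Hc c)) (k : K s) :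
    R.ρ (g - (0, Pi.single s (k : Hc s))) = R.ρ g - Pi.single s (k : Hc s) := by
  have := R.equiv g (-Pi.single s (k : Hc s)) fun c => by
    by_cases h : c = s
    · subst h; simp
    · simp [Pi.single_eq_of_ne h]
  rw [sub_eq_add_neg, sub_eq_add_neg, ← this]
  congr 2
  ext <;> simp

theorem link_zero_iff (R : Rho D K) (B : Finset C) (s : C) (hs : s ∉ B) (g : D × (∀ c, Hc c))
    (k : K s) : R.Zero (insert s B) (g - (0, Pi.single s (k : Hc s))) ↔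
      R.Zero B g ∧ R.ρ g s = k := by
  unfold Rho.Zero
  rw [link_rho_sub]
  simp only [Finset.mem_insert, forall_eq_or_imp, Pi.sub_apply, Pi.single_eq_same, sub_eq_zero]
  rw [and_comm]
  refine and_congr_left fun _ => forall₂_congr fun c hc => ?_
  rw [Pi.single_eq_of_ne (fun h : c = s => hs (h ▸ hc))]

open Classical in
theorem link_iff (R : Rho D K) (B : Finset C) {J : Type}
    (Φ₀ Φ₁ : J → D × (∀ c, Hc c)) (s : C) (hs : s ∉ B) (K' : AddSubgroup (Hc s))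
    (h0 : R.Trans B Φ₀) (h1 : R.Trans B Φ₁) :
    R.Trans (insert s B) (fun z : J × K s => (if (z.2 : Hc s) ∈ K' then Φ₀ z.1 else Φ₁ z.1) +
      (0, Pi.single s (z.2 : Hc s))) ↔ R.Link B Φ₀ Φ₁ s K' := by
  have key : ∀ g (z : J × K s), R.Zero (insert s B) (g -
      ((if (z.2 : Hc s) ∈ K' then Φ₀ z.1 else Φ₁ z.1) + (0, Pi.single s (z.2 : Hc s)))) ↔
      ((z.2 : Hc s) ∈ K' ∧ R.Zero B (g - Φ₀ z.1) ∧ R.ρ (g - Φ₀ z.1) s = z.2) ∨
      ((z.2 : Hc s) ∉ K' ∧ R.Zero B (g - Φ₁ z.1) ∧ R.ρ (g - Φ₁ z.1) s = z.2) := by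
    intro g z
    rw [← sub_sub, link_zero_iff R B s hs]
    by_cases h : (z.2 : Hc s) ∈ K' <;> simp [h]
  constructor
  · intro hT g j j' hj hj'
    obtain ⟨k₁, hk₁⟩ : ∃ k₁ : K s, R.ρ (g - Φ₁ j') s = k₁ := ⟨⟨_, R.mem _ _⟩, rfl⟩
    have e : ∀ f, g - (0, Pi.single s (k₁ : Hc s)) - f = g - f - (0, Pi.single s (k₁ : Hc s)) :=
      fun f => sub_right_comm _ _ _
    have hz : ∀ f, R.Zero B (g - (0, Pi.single s (k₁ : Hc s)) - f) → R.Zero B (g - f) := by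
      intro f hf c hc
      have := hf c hc
      rwa [e, link_rho_sub, Pi.sub_apply, Pi.single_eq_of_ne (fun h : c = s => hs (h ▸ hc)),
        sub_zero] at this
    obtain ⟨z, hz', -⟩ := hT (g - (0, Pi.single s (k₁ : Hc s)))
    rcases (key _ z).1 hz' with ⟨h2, h3, h4⟩ | ⟨h2, h3, h4⟩
    · rw [(h0 g).unique (hz _ h3) hj, e, link_rho_sub, Pi.sub_apply, Pi.single_eq_same] at h4
      rw [hk₁, h4]
      exact h2
    · rw [(h1 g).unique (hz _ h3) hj', e, link_rho_sub, Pi.sub_apply, Pi.single_eq_same, hk₁,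
        sub_self] at h4
      exact (h2 (h4 ▸ K'.zero_mem)).elim
  · intro hL g
    obtain ⟨j, hj, hju⟩ := h0 g
    obtain ⟨j', hj', hju'⟩ := h1 g
    have hl := hL g j j' hj hj'
    have hiff : R.ρ (g - Φ₀ j) s ∈ K' ↔ R.ρ (g - Φ₁ j') s ∈ K' :=
      ⟨fun h => by simpa using K'.sub_mem h hl, fun h => by simpa using K'.add_mem hl h⟩
    by_cases h : R.ρ (g - Φ₀ j) s ∈ K'
    · refine ⟨(j, ⟨_, R.mem (g - Φ₀ j) s⟩), (key _ _).2 (Or.inl ⟨h, hj, rfl⟩), fun z hz => ?_⟩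
      rcases (key _ z).1 hz with ⟨h2, h3, h4⟩ | ⟨h2, h3, h4⟩
      · have := hju _ h3
        exact Prod.ext this (Subtype.ext (by rw [← h4, this]))
      · rw [hju' _ h3] at h4
        exact (h2 (h4 ▸ hiff.1 h)).elim
    · have h' := fun h'' => h (hiff.2 h'')
      refine ⟨(j', ⟨_, R.mem (g - Φ₁ j') s⟩), (key _ _).2 (Or.inr ⟨h', hj', rfl⟩), fun z hz => ?_⟩
      rcases (key _ z).1 hz with ⟨h2, h3, h4⟩ | ⟨h2, h3, h4⟩
      · rw [hju _ h3] at h4
        exact (h (h4 ▸ h2)).elim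
      · have := hju' _ h3
        exact Prod.ext this (Subtype.ext (by rw [← h4, this]))

/-- the family `(j, k) ↦ (if k ∈ K' then Φ₀ j else Φ₁ j) + (0, single s k)` (`k ∈ K s`) is a
transversal for `insert s B` exactly when the link holds -/
theorem good_link (R₀ : Rho D K) (B : Finset C) {J : Type} [Finite J]
    (Φ₀ Φ₁ : J → D × (∀ c, Hc c)) (s : C) (hs : s ∉ B) (K' : AddSubgroup (Hc s)) (hK : K' ≤ K s)
    (h0 : R₀.Trans B Φ₀) (h1 : R₀.Trans B Φ₁) (hL : R₀.Link B Φ₀ Φ₁ s K') :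
    Good R₀ (fun R => R.Trans B Φ₀ → R.Trans B Φ₁ → R.Link B Φ₀ Φ₁ s K') := by
  obtain ⟨𝓕, h2, h3⟩ := good_trans R₀ _ _ ((link_iff R₀ B Φ₀ Φ₁ s hs K' h0 h1).2 hL)
  exact ⟨𝓕, h2, fun R hR a b => (link_iff R B Φ₀ Φ₁ s hs K' a b).1 (h3 R hR)⟩

/-- a period of one component can be forced -/
theorem good_stab (R₀ : Rho D K) (c : C) (τ : D × (∀ c, Hc c)) (h : τ ∈ R₀.stab c) :
    Good R₀ (fun R => τ ∈ R.stab c) := by
  have ht : ∀ (R : Rho D K) (Φ : Unit → D × (∀ c, Hc c)), R.Trans ∅ Φ :=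
    fun R Φ g => ⟨(), fun c hc => by simp at hc, fun _ _ => rfl⟩
  obtain ⟨𝓕, h2, h3⟩ := good_link R₀ ∅ (fun _ : Unit => 0) (fun _ => -τ) c (by simp) ⊥ bot_le
    (ht _ _) (ht _ _) fun g _ _ _ _ => by
      rw [sub_zero, sub_neg_eq_add, h g, sub_self]; exact zero_mem _
  refine ⟨𝓕, h2, fun R hR g => ?_⟩
  have := h3 R hR (ht _ _) (ht _ _) g () () (fun c hc => by simp at hc) fun c hc => by simp at hc
  rw [sub_zero, sub_neg_eq_add, AddSubgroup.mem_bot, sub_eq_zero] at this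
  exact this.symm

end Crest.Agent.R46
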