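import Crest.Agent.R46.QCon
import Crest.Agent.R46.Link

/-! The periods and links can be forced. -/

set_option autoImplicit false
set_option linter.unusedSectionVars false

namespace Crest.Agent.R46

open Finset Crest.CombinatoricsR.Tiling Crest.Agent.R34

namespace Setup

variable {F A : Type} (S : Setup F A) [Fintype F] [Fintype A] [DecidableEq F] [DecidableEq A]

theorem good_dom (R₀ : S.R) (c : S.C) (n : F) (h : ∀ m, m ≠ n → S.dom m ∈ R₀.stab c) :
    Good R₀ (fun R => ∀ m, m ≠ n → S.dom m ∈ R.stab c) :=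
  good_mono (good_forall fun m : {m // m ≠ n} => good_stab R₀ c _ (h m m.2))
    fun _ hR m hm => hR ⟨m, hm⟩

theorem good_con1 (R₀ : S.R) (h : S.Con1 R₀) : Good R₀ S.Con1 := by
  refine good_mono (good_and (good_and
    (good_and (good_stab R₀ _ _ h.two_u) (good_stab R₀ _ _ h.two_4))
    (good_and (good_forall fun n => good_stab R₀ _ _ (h.two_dom n)) (good_trans R₀ _ _ h.m1)))
    (good_and (good_and (good_trans R₀ _ _ h.m2) (good_forall fun n => good_stab R₀ _ _ (h.q_e1 n)))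
      (good_and (good_forall fun n => good_stab R₀ _ _ (h.q_e2 n))
        (good_forall fun n => S.good_dom R₀ _ n (h.q_dom n))))) ?_
  rintro R ⟨⟨⟨a1, a2⟩, a3, a4⟩, ⟨a5, a6⟩, a7, a8⟩
  exact ⟨a1, a2, a3, a4, a5, a6, a7, a8⟩

theorem good_mlink (R₀ : S.R) (h : S.Con1 R₀) (n : F) (x y : S.G)
    (hx : ∀ R, S.Con1 R → x ∈ R.stab .two) (hy : ∀ R, S.Con1 R → y ∈ R.stab .two)
    (K' : AddSubgroup (S.Hc (.qq n))) (hK : K' ≤ S.K (.qq n))
    (hL : R₀.Link {.two} (S.L0 x y) (S.L1 x y) (.qq n) K') :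
    Good R₀ (fun R => S.Con1 R → R.Link {.two} (S.L0 x y) (S.L1 x y) (.qq n) K') :=
  good_mono (good_link R₀ _ _ _ _ (by simp) K' hK (S.trans_L0 R₀ h x y (hx _ h) (hy _ h))
    (S.trans_L1 R₀ h x y (hx _ h) (hy _ h)) hL) fun R hR h' =>
      hR (S.trans_L0 R h' x y (hx _ h') (hy _ h')) (S.trans_L1 R h' x y (hx _ h') (hy _ h'))

theorem good_plink (R₀ : S.R) (h : S.Con2 R₀) (n : F) (l : Fin S.Λ) (w : S.G)
    (h2 : ∀ R, S.Con1 R → w ∈ R.stab .two) (hq : ∀ R, S.Con1 R → w ∈ R.stab (.qq n))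
    (hL : R₀.Link {.two, .qq n} (S.P0 n l w) (S.P1 n l w) (.pi n l) ⊥) :
    Good R₀ (fun R => S.Con2 R → R.Link {.two, .qq n} (S.P0 n l w) (S.P1 n l w) (.pi n l) ⊥) :=
  good_mono (good_link R₀ _ _ _ _ (by simp) ⊥ bot_le
    (S.trans_P0 R₀ h n l w (h2 _ h.toCon1) (hq _ h.toCon1))
    (S.trans_P1 R₀ h n l w (h2 _ h.toCon1) (hq _ h.toCon1)) hL) fun R hR h' =>
      hR (S.trans_P0 R h' n l w (h2 _ h'.toCon1) (hq _ h'.toCon1))
        (S.trans_P1 R h' n l w (h2 _ h'.toCon1) (hq _ h'.toCon1))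

theorem good_con2 (R₀ : S.R) (h : S.Con2 R₀) : Good R₀ S.Con2 := by
  have hm : ∀ n R, S.Con1 R → S.mq n ∈ R.stab .two := fun n R hR =>
    hR.dv_two ((S.four_dvd_E _ (by simp)).mul_right _)
  have hl : ∀ n R, S.Con1 R → S.lq n ∈ R.stab .two := fun n R hR =>
    hR.dv_two ((S.four_dvd_E _ (by simp)).mul_right _)
  have hK : ∀ n, S.Ktop n ≤ S.K (.qq n) := fun n =>
    AddSubgroup.zmultiples_le.2 ⟨(S.q n : ℤ), by simp [sq]⟩
  refine good_mono (good_and (good_and (S.good_con1 R₀ h.toCon1)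
    (good_forall fun n => S.good_mlink R₀ h.toCon1 n 0 0 (fun _ _ => zero_mem _)
      (fun _ _ => zero_mem _) ⊥ bot_le (h.link0 n)))
    (good_and (good_forall fun n => S.good_mlink R₀ h.toCon1 n _ _
        (fun R hR => add_mem (hm n R hR) (hR.two_dom n))
        (fun R hR => sub_mem (hm n R hR) (hR.two_dom n)) _ (hK n) (h.link1 n))
      (good_forall fun n => S.good_mlink R₀ h.toCon1 n _ _ (hl n)
        (fun R hR => add_mem (hl n R hR) (AddSubgroup.zsmul_mem _ (hR.two_dom n) _)) ⊥ bot_le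
        (h.link2 n)))) ?_
  rintro R ⟨⟨a1, a2⟩, a3, a4⟩
  exact ⟨a1, fun n => a2 n a1, fun n => a3 n a1, fun n => a4 n a1⟩

theorem good_con3 (R₀ : S.R) (h : S.Con3 R₀) : Good R₀ S.Con3 := by
  refine good_mono (good_and (good_and
    (good_and (good_forall fun n => good_forall fun l => good_stab R₀ _ _ (h.pi_e1 n l))
      (good_forall fun n => good_forall fun l => good_stab R₀ _ _ (h.pi_e2 n l)))
    (good_and (good_forall fun n => good_forall fun l => S.good_dom R₀ _ n (h.pi_dom n l))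
      (good_forall fun n => good_forall fun e => good_forall fun l =>
        good_stab R₀ _ _ (h.be_v n e l))))
    (good_and (good_forall fun n => good_forall fun e => good_forall fun l =>
        S.good_dom R₀ _ n (h.be_dom n e l))
      (good_and (good_forall fun n => good_forall fun e => good_stab R₀ _ _ (h.de_v n e))
        (good_forall fun n => good_forall fun e => good_forall fun m =>
          good_stab R₀ _ _ (h.de_dom n e m))))) ?_
  rintro R ⟨⟨⟨a1, a2⟩, a3, a4⟩, a5, a6, a7⟩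
  exact ⟨a1, a2, a3, a4, a5, a6, a7⟩

theorem good_con4 (R₀ : S.R) (h2 : S.Con2 R₀) (h : S.Con4 R₀) :
    Good R₀ (fun R => S.Con2 R → S.Con4 R) := by
  refine good_mono (good_and
    (good_forall fun n => good_forall fun l => S.good_plink R₀ h2 n l 0 (fun _ _ => zero_mem _)
      (fun _ _ => zero_mem _) (h.plink0 n l))
    (good_forall fun n => good_forall fun l => S.good_plink R₀ h2 n l _
      (fun R hR => hR.dv_two ((S.four_dvd_E _ (by simp)).mul_right _))
      (fun R hR => hR.dv_qq n ((S.fourq2_dvd_E n _ (by simp) (by simp)).mul_right _)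
        ((S.fourq2_dvd_E n _ (by simp) (by simp)).mul_right _)) (h.plink1 n l))) ?_
  rintro R ⟨a1, a2⟩ hR
  exact ⟨fun n l => a1 n l hR, fun n l => a2 n l hR⟩

end Setup

end Crest.Agent.R46
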