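import Crest.Agent.R46.Basic
import Crest.Agent.R46.Clause

/-! The clauses can be forced. -/

set_option autoImplicit false
set_option linter.unusedSectionVars false

namespace Crest.Agent.R46

open Finset Crest.CombinatoricsR.Tiling Crest.Agent.R34

namespace Setup

variable {F A : Type} (S : Setup F A) [Fintype F] [Fintype A] [DecidableEq F] [DecidableEq A]

theorem cg5_tm_be {R : S.R} (h3 : S.Con3 R) (n : F) (e : A) (l : Fin S.Λ) (c : S.C)
    (h2 : c ≠ .two) (hq : c ≠ .qq n) (hc : c ≠ .be n e l) : S.tm c n ∈ R.stab (.be n e l) :=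
  S.dv_smul_mem_of_dvd _ (h3.be_v n e l)
    (S.fourq2md_dvd_E n c (.be n e l) h2 hq hc (by simp) (by simp))

theorem cg5_tm_pi {R : S.R} (h3 : S.Con3 R) (n : F) (l : Fin S.Λ) (c : S.C)
    (h2 : c ≠ .two) (hq : c ≠ .qq n) (hc : c ≠ .pi n l) : S.tm c n ∈ R.stab (.pi n l) := by
  have hd := S.fourq2md_dvd_E n c (.pi n l) h2 hq hc (by simp) (by simp)
  exact S.dv_mem_of_dvd _ (h3.pi_e1 n l) (h3.pi_e2 n l) (hd.mul_right _) (hd.mul_right _)

theorem cg5_tm_de {R : S.R} (h3 : S.Con3 R) (n : F) (e : A) (c : S.C)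
    (hc : c ≠ .de n e) : S.tm c n ∈ R.stab (.de n e) :=
  S.dv_smul_mem_of_dvd _ (h3.de_v n e) (S.E_dvd c (.de n e) hc)

theorem cg5_tp {R : S.R} (n : F) {c c' : S.C} (hc : c ≠ c') (hq : ∀ m, c ≠ .qq m)
    (h : S.tm c n ∈ R.stab c') : S.tp c n ∈ R.stab c' :=
  (R.stab c').add_mem h (S.fib_stab R hc.symm (by rw [S.K_eq_top c hq]; trivial))

theorem cg5_c1 (R₀ : S.R) (h3 : S.Con3 R₀) (h : S.Con5 R₀) (n : F) (e : A) (l : Fin S.Λ) :
    Good R₀ (fun R => S.Con3 R → ∀ g,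
      R.Lit (.be n e l) (S.tm (.be n e l) n) g ∨ R.Lit (.pi n l) (S.tp (.pi n l) n) g) := by
  let c : Bool → S.C := fun b => match b with
    | true => .be n e l
    | false => .pi n l
  let τ : Bool → S.G := fun b => match b with
    | true => S.tm (.be n e l) n
    | false => S.tp (.pi n l) n
  have hc : Function.Injective c := by
    intro b b' hb
    cases b <;> cases b' <;> simp_all [c]
  have hx : ∀ R : S.R, S.Con3 R → ∀ i j, i ≠ j → τ j ∈ R.stab (c i) := by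
    intro R hR i j hij
    cases i <;> cases j
    · exact absurd rfl hij
    · exact S.cg5_tm_pi hR n l _ (by simp) (by simp) (by simp)
    · exact S.cg5_tp n (by simp [c]) (by simp)
        (S.cg5_tm_be hR n e l _ (by simp) (by simp) (by simp))
    · exact absurd rfl hij
  refine good_mono (good_clause R₀ c hc τ (hx R₀ h3) fun g => ?_) fun R hR hR3 g => ?_
  · rcases h.c1 n e l g with h1 | h1
    · exact ⟨true, h1⟩
    · exact ⟨false, h1⟩
  · obtain ⟨i, hi⟩ := hR (hx R hR3) g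
    cases i
    · exact Or.inr hi
    · exact Or.inl hi

theorem cg5_c2 (R₀ : S.R) (h3 : S.Con3 R₀) (h : S.Con5 R₀) (n : F) (e : A) :
    Good R₀ (fun R => S.Con3 R → ∀ g, R.Lit (.de n e) (S.tm (.de n e) n) g ∨
      ∃ l, S.AlL n e l ∧ R.Lit (.be n e l) (S.tp (.be n e l) n) g) := by
  let c : Option {l // S.AlL n e l} → S.C := fun b => match b with
    | none => .de n e
    | some l => .be n e l.1
  let τ : Option {l // S.AlL n e l} → S.G := fun b => match b with
    | none => S.tm (.de n e) n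
    | some l => S.tp (.be n e l.1) n
  have hc : Function.Injective c := by
    intro b b' hb
    cases b <;> cases b' <;> simp_all [c, Subtype.ext_iff]
  have hx : ∀ R : S.R, S.Con3 R → ∀ i j, i ≠ j → τ j ∈ R.stab (c i) := by
    intro R hR i j hij
    rcases i with _ | i <;> rcases j with _ | j
    · exact absurd rfl hij
    · exact S.cg5_tp n (by simp [c]) (by simp) (S.cg5_tm_de hR n e _ (by simp))
    · exact S.cg5_tm_be hR n e i.1 _ (by simp) (by simp) (by simp)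
    · have hne : (Cmp.be n e j.1 : S.C) ≠ .be n e i.1 := fun hh => hij (hc hh.symm)
      exact S.cg5_tp n hne (by simp) (S.cg5_tm_be hR n e i.1 _ (by simp) (by simp) hne)
  refine good_mono (good_clause R₀ c hc τ (hx R₀ h3) fun g => ?_) fun R hR hR3 g => ?_
  · rcases h.c2 n e g with h1 | ⟨l, hl, h1⟩
    · exact ⟨none, h1⟩
    · exact ⟨some ⟨l, hl⟩, h1⟩
  · obtain ⟨i, hi⟩ := hR (hx R hR3) g
    rcases i with _ | i
    · exact Or.inl hi
    · exact Or.inr ⟨i.1, i.2, hi⟩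

theorem cg5_c3 (R₀ : S.R) (h3 : S.Con3 R₀) (h : S.Con5 R₀) (n : F) :
    Good R₀ (fun R => S.Con3 R → ∀ g, ∃ e, R.Lit (.de n e) (S.tp (.de n e) n) g) := by
  have : Nonempty A := ⟨(h.c3 n 0).choose⟩
  have hc : Function.Injective (fun e : A => (Cmp.de n e : S.C)) := by
    intro b b' hb
    simpa using hb
  have hx : ∀ R : S.R, S.Con3 R → ∀ i j : A, i ≠ j →
      S.tp (.de n j) n ∈ R.stab (.de n i) := by
    intro R hR i j hij
    have hne : (Cmp.de n j : S.C) ≠ .de n i := fun hh => hij (hc hh.symm)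
    exact S.cg5_tp n hne (by simp) (S.cg5_tm_de hR n i _ hne)
  exact good_mono (good_clause R₀ (fun e : A => (Cmp.de n e : S.C)) hc
    (fun e => S.tp (.de n e) n) (hx R₀ h3) (h.c3 n)) fun R hR hR3 g => hR (hx R hR3) g

theorem cg5_c4 (R₀ : S.R) (h3 : S.Con3 R₀) (h : S.Con5 R₀) (J : Finset F) (τ : F → A)
    (l : F → Fin S.Λ) (hJ : S.Forb J τ) :
    Good R₀ (fun R => S.Con3 R → ∀ g, ∃ n ∈ J, R.Lit (.be n (τ n) (l n)) (S.dom n) g) := by
  have : Nonempty {n // n ∈ J} := (S.Forb_ne J τ hJ).to_subtype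
  have hc : Function.Injective
      (fun n : {n // n ∈ J} => (Cmp.be n.1 (τ n.1) (l n.1) : S.C)) := by
    intro b b' hb
    exact Subtype.ext (Cmp.be.inj hb).1
  have hx : ∀ R : S.R, S.Con3 R → ∀ i j : {n // n ∈ J}, i ≠ j →
      S.dom j.1 ∈ R.stab (.be i.1 (τ i.1) (l i.1)) := by
    intro R hR i j hij
    exact hR.be_dom _ _ _ _ fun hh => hij (Subtype.ext hh.symm)
  refine good_mono (good_clause R₀
    (fun n : {n // n ∈ J} => (Cmp.be n.1 (τ n.1) (l n.1) : S.C)) hc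
    (fun n => S.dom n.1) (hx R₀ h3) fun g => ?_) fun R hR hR3 g => ?_
  · obtain ⟨n, hn, h1⟩ := h.c4 J τ l hJ g
    exact ⟨⟨n, hn⟩, h1⟩
  · obtain ⟨i, hi⟩ := hR (hx R hR3) g
    exact ⟨i.1, i.2, hi⟩

theorem good_con5 (R₀ : S.R) (h3 : S.Con3 R₀) (h : S.Con5 R₀) :
    Good R₀ (fun R => S.Con3 R → S.Con5 R) := by
  have g1 := good_forall (ι := F × A × Fin S.Λ) fun i => S.cg5_c1 R₀ h3 h i.1 i.2.1 i.2.2
  have g2 := good_forall (ι := F × A) fun i => S.cg5_c2 R₀ h3 h i.1 i.2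
  have g3 := good_forall (ι := F) fun n => S.cg5_c3 R₀ h3 h n
  have g4 := good_forall
    (ι := {i : Finset F × (F → A) × (F → Fin S.Λ) // S.Forb i.1 i.2.1})
    fun i => S.cg5_c4 R₀ h3 h i.1.1 i.1.2.1 i.1.2.2 i.2
  refine good_mono (good_and (good_and g1 g2) (good_and g3 g4)) fun R hR hR3 => ?_
  obtain ⟨⟨k1, k2⟩, k3, k4⟩ := hR
  exact ⟨fun n e l => k1 (n, e, l) hR3, fun n e => k2 (n, e) hR3, fun n => k3 n hR3,
    fun J τ l hJ => k4 ⟨(J, τ, l), hJ⟩ hR3⟩

end Setup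

end Crest.Agent.R46
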