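import Crest.Prelude.Def_Tiling
import Crest.Agent.R34.Prob

/-! Definitions for row 46 (an aperiodic translational monotile in `ℤ³`).

Plan: a finite system of tiling equations in `ℤ² × H` (`H` finite cyclic) whose common solutions
encode a Sudoku-type rule off a sparse set of holes; the rule has no periodic solution. -/

set_option autoImplicit false

namespace Crest.Agent.R46

open Finset Crest.CombinatoricsR.Tiling Crest.Agent.R34

/-! ### Densities of periodic predicates -/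

/-- density of `P` on `{0, …, N-1}` -/
noncomputable def dens1 (N : ℕ) (P : ℤ → Prop) : ℝ :=
  pr (fun m : Fin N => P ((m : ℕ) : ℤ))

/-- density of `P` on `{0, …, N-1}²` -/
noncomputable def dens2 (N : ℕ) (P : ℤ × ℤ → Prop) : ℝ :=
  pr (fun x : Fin N × Fin N => P (((x.1 : ℕ) : ℤ), ((x.2 : ℕ) : ℤ)))

/-- `N`-periodic predicates on `ℤ` -/
def Per1 (N : ℕ) (P : ℤ → Prop) : Prop := ∀ m, P (m + N) ↔ P m

/-- `N`-periodic predicates on `ℤ²` -/
def Per2 (N : ℕ) (P : ℤ × ℤ → Prop) : Prop :=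
  ∀ x, (P (x + ((N : ℤ), 0)) ↔ P x) ∧ (P (x + (0, (N : ℤ))) ↔ P x)

/-- the linear form vanishing on `v` -/
def lam (v x : ℤ × ℤ) : ℤ := v.1 * x.2 - v.2 * x.1

/-- the linear form vanishing on `u` (dual to `lam`: for `lam v u = 1` one has `mu u v = 1`) -/
def mu (u x : ℤ × ℤ) : ℤ := x.1 * u.2 - x.2 * u.1

/-! ### The general frame: sections of `D × Π c, Hc c` -/

section Frame

variable {D : Type} [AddCommGroup D] {C : Type} {Hc : C → Type} [∀ c, AddCommGroup (Hc c)]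

/-- A set `A` that is a transversal of the subgroup `0 × Π c, K c` is described by the function
`ρ` with `g - (0, ρ g) ∈ A`. -/
structure Rho (D : Type) [AddCommGroup D] {C : Type} {Hc : C → Type} [∀ c, AddCommGroup (Hc c)]
    (K : ∀ c, AddSubgroup (Hc c)) where
  /-- the correction -/
  ρ : D × (∀ c, Hc c) → ∀ c, Hc c
  mem : ∀ g c, ρ g c ∈ K c
  equiv : ∀ g (κ : ∀ c, Hc c), (∀ c, κ c ∈ K c) → ρ (g + (0, κ)) = ρ g + κ

variable {K : ∀ c, AddSubgroup (Hc c)}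

/-- the set described by `R` -/
def Rho.set (R : Rho D K) : Set (D × (∀ c, Hc c)) := {g | R.ρ g = 0}

/-- the translations under which the component `c` of `R` is invariant -/
def Rho.stab (R : Rho D K) (c : C) : AddSubgroup (D × (∀ c, Hc c)) where
  carrier := {τ | ∀ g, R.ρ (g + τ) c = R.ρ g c}
  zero_mem' := fun g => by rw [add_zero]
  add_mem' := fun {a b} ha hb g => by rw [← add_assoc, hb, ha]
  neg_mem' := fun {a} ha g => by rw [← ha (g + -a), neg_add_cancel_right]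

/-- the local literal: component `c` is invariant under `τ` at `g` -/
def Rho.Lit (R : Rho D K) (c : C) (τ g : D × (∀ c, Hc c)) : Prop := R.ρ (g + τ) c = R.ρ g c

/-- the components in `B` vanish at `g` -/
def Rho.Zero (R : Rho D K) (B : Finset C) (g : D × (∀ c, Hc c)) : Prop := ∀ c ∈ B, R.ρ g c = 0

/-- the family `Φ` is a transversal for the components in `B` -/
def Rho.Trans (R : Rho D K) (B : Finset C) {J : Type} (Φ : J → D × (∀ c, Hc c)) : Prop :=
  ∀ g, ∃! j, R.Zero B (g - Φ j)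

/-- matched points of the two families have the same component `s` modulo `K'` -/
def Rho.Link (R : Rho D K) (B : Finset C) {J : Type} (Φ₀ Φ₁ : J → D × (∀ c, Hc c)) (s : C)
    (K' : AddSubgroup (Hc s)) : Prop :=
  ∀ g j j', R.Zero B (g - Φ₀ j) → R.Zero B (g - Φ₁ j') →
    R.ρ (g - Φ₀ j) s - R.ρ (g - Φ₁ j') s ∈ K'

/-- `P` can be forced by finitely many tiling equations that `R₀` solves -/
def Good (R₀ : Rho D K) (P : Rho D K → Prop) : Prop :=
  ∃ 𝓕 : Finset (Finset (D × (∀ c, Hc c))), (∀ F ∈ 𝓕, IsTilingBy F R₀.set) ∧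
    ∀ R : Rho D K, (∀ F ∈ 𝓕, IsTilingBy F R.set) → P R

end Frame

/-! ### The concrete system -/

/-- the components: the marker, the `q`-components, the type variables, the literal variables and
the digit variables -/
inductive Cmp (F A : Type) (Λ : ℕ) : Type
  | two
  | qq (n : F)
  | pi (n : F) (l : Fin Λ)
  | be (n : F) (e : A) (l : Fin Λ)
  | de (n : F) (e : A)
  deriving DecidableEq, Fintype

/-- the modulus of a component -/
@[reducible] def mdOf {F A : Type} {Λ : ℕ} (q : F → ℕ) (p : Cmp F A Λ → ℕ) : Cmp F A Λ → ℕ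
  | .two => 4
  | .qq n => q n ^ 3
  | .pi n l => p (.pi n l)
  | .be n e l => p (.be n e l)
  | .de n e => p (.de n e)

/-- `d` lies on the line number `l` of `(ZMod q)²` (slope `l` for `l < q`, vertical otherwise) -/
def InL (q l : ℕ) (d : ZMod q × ZMod q) : Prop :=
  if l < q then d.2 = (l : ZMod q) * d.1 else d.1 = 0

/-- the data of the system -/
structure Setup (F A : Type) where
  /-- direction of the lines of a family -/
  v : F → ℤ × ℤ
  /-- the transversal vector -/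
  u : F → ℤ × ℤ
  det : ∀ n, lam (v n) (u n) = 1
  /-- the domain prime of a family -/
  q : F → ℕ
  q_prime : ∀ n, (q n).Prime
  q_two : ∀ n, 2 < q n
  /-- number of line labels -/
  Λ : ℕ
  q_lt : ∀ n, q n < Λ
  /-- the primes of the one-digit components -/
  p : Cmp F A Λ → ℕ
  p_prime : ∀ c, (p c).Prime
  cop : Pairwise fun c c' => Nat.Coprime (mdOf q p c) (mdOf q p c')
  /-- the idempotents -/
  E : Cmp F A Λ → ℤ
  E_one : ∀ c, ((E c : ℤ) : ZMod (mdOf q p c)) = 1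
  E_dvd : ∀ c c', c ≠ c' → ((mdOf q p c' : ℕ) : ℤ) ∣ E c
  /-- allowed finite slopes for a digit -/
  Al : ∀ n, A → ZMod (q n) → Prop
  /-- forbidden partial assignments -/
  Forb : Finset F → (F → A) → Prop
  Forb_ne : ∀ J τ, Forb J τ → J.Nonempty

namespace Setup

variable {F A : Type} (S : Setup F A)

/-- the component type -/
abbrev C : Type := Cmp F A S.Λ
/-- moduli -/
abbrev md (c : S.C) : ℕ := mdOf S.q S.p c
/-- component groups -/
abbrev Hc (c : S.C) : Type := ZMod (S.md c)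
/-- the ambient group -/
abbrev G : Type := (ℤ × ℤ) × (∀ c, S.Hc c)

instance (n : F) : Fact (S.q n).Prime := ⟨S.q_prime n⟩
instance (c : S.C) : Fact (S.p c).Prime := ⟨S.p_prime c⟩
instance (c : S.C) : NeZero (S.md c) :=
  ⟨by
    cases c with
    | two => exact four_ne_zero
    | qq n => exact pow_ne_zero 3 (S.q_prime n).ne_zero
    | pi n l => exact (S.p_prime _).ne_zero
    | be n e l => exact (S.p_prime _).ne_zero
    | de n e => exact (S.p_prime _).ne_zero⟩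

/-- the range subgroups -/
def K : (c : S.C) → AddSubgroup (S.Hc c)
  | .two => ⊤
  | .qq n => AddSubgroup.zmultiples ((S.q n : ℕ) : ZMod (S.q n ^ 3))
  | .pi _ _ => ⊤
  | .be _ _ _ => ⊤
  | .de _ _ => ⊤

/-- the top digit subgroup of a `q`-component -/
def Ktop (n : F) : AddSubgroup (S.Hc (.qq n)) :=
  AddSubgroup.zmultiples (((S.q n : ℕ) : ZMod (S.q n ^ 3)) ^ 2)

/-- sections -/
abbrev R : Type := Rho (ℤ × ℤ) S.K

/-- a horizontal vector -/
def dv (x : ℤ × ℤ) : S.G := (x, 0)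

/-- allowed line labels -/
def AlL (n : F) (e : A) (l : Fin S.Λ) : Prop :=
  (l : ℕ) < S.q n → S.Al n e ((l : ℕ) : ZMod (S.q n))

variable [DecidableEq F] [DecidableEq A]

/-- a vertical vector in one component -/
def fib (c : S.C) (y : S.Hc c) : S.G := (0, Pi.single c y)
/-- the generator of the `q`-component (it moves the domain digit) -/
def dom (n : F) : S.G := S.fib (.qq n) 1
/-- the marker step -/
def a : S.G := S.dv (S.E .two, 0)
/-- the generator of the marker component -/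
def t2 : S.G := S.fib .two 1
/-- the even elements -/
def ev (ij : Bool × Bool) : S.G :=
  (if ij.1 then (2 : ℤ) • S.a else 0) + (if ij.2 then (2 : ℤ) • S.t2 else 0)
/-- second marker equation -/
def m2 (ij : Bool × Bool) : S.G :=
  (if ij.1 then (2 : ℤ) • S.a else 0) + (if ij.2 then S.a + (2 : ℤ) • S.t2 else 0)
/-- first family of a marker link with labels `x, y` -/
def L0 (x y : S.G) (ij : Bool × Bool) : S.G :=
  S.ev ij - (if xor ij.1 ij.2 then x + y else 0)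
/-- second family of a marker link with labels `x, y` -/
def L1 (x y : S.G) (ij : Bool × Bool) : S.G :=
  S.a + S.t2 + S.ev ij - (if xor ij.1 ij.2 then y else x)
/-- step along the lines in the `q`-coordinates -/
def mq (n : F) : S.G := S.dv (S.E (.qq n) • S.v n)
/-- transversal step in the `q`-coordinates -/
def lq (n : F) : S.G := S.dv (S.E (.qq n) • S.u n)
/-- the elements of the rank-two transversal `Δ` -/
def kt (n : F) (κ : ZMod (S.q n) × ZMod (S.q n)) : S.G :=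
  ((κ.1.val : ℤ) * S.q n) • S.mq n + ((κ.2.val : ℤ) * (S.q n : ℤ) ^ 2) • S.dom n
/-- the translation of slope zero for the component `c` -/
def tm (c : S.C) (n : F) : S.G := S.dv (S.E c • S.v n)
/-- the translation of slope one for the component `c` -/
def tp (c : S.C) (n : F) : S.G := S.dv (S.E c • S.v n) + S.fib c 1

open Classical in
/-- first family of a type link -/
noncomputable def P0 (n : F) (l : ℕ) (w : S.G)
    (z : (Bool × Bool) × (ZMod (S.q n) × ZMod (S.q n))) : S.G :=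
  S.ev z.1 + S.kt n z.2 + (if InL (S.q n) l z.2 then w else 0)

/-- second family of a type link -/
noncomputable def P1 (n : F) (l : ℕ) (w : S.G)
    (z : (Bool × Bool) × (ZMod (S.q n) × ZMod (S.q n))) : S.G :=
  S.a + S.P0 n l w z

/-- the constraints, first group: the marker and the periods of the `q`-components -/
structure Con1 (R : S.R) : Prop where
  two_u : S.dv (0, 1) ∈ R.stab .two
  two_4 : S.dv (4, 0) ∈ R.stab .two
  two_dom : ∀ n, S.dom n ∈ R.stab .two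
  m1 : R.Trans {.two} S.ev
  m2 : R.Trans {.two} S.m2
  q_e1 : ∀ n, S.dv (4 * (S.q n : ℤ) ^ 2, 0) ∈ R.stab (.qq n)
  q_e2 : ∀ n, S.dv (0, 4 * (S.q n : ℤ) ^ 2) ∈ R.stab (.qq n)
  q_dom : ∀ n m, m ≠ n → S.dom m ∈ R.stab (.qq n)

/-- the constraints, second group: the marker links -/
structure Con2 (R : S.R) : Prop extends S.Con1 R where
  link0 : ∀ n, R.Link {.two} (S.L0 0 0) (S.L1 0 0) (.qq n) ⊥
  link1 : ∀ n, R.Link {.two} (S.L0 (S.mq n + S.dom n) (S.mq n - S.dom n))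
    (S.L1 (S.mq n + S.dom n) (S.mq n - S.dom n)) (.qq n) (S.Ktop n)
  link2 : ∀ n, R.Link {.two} (S.L0 (S.lq n) (S.lq n + ((S.q n : ℤ) ^ 2) • S.dom n))
    (S.L1 (S.lq n) (S.lq n + ((S.q n : ℤ) ^ 2) • S.dom n)) (.qq n) ⊥

/-- the constraints, third group: periods of the one-digit components -/
structure Con3 (R : S.R) : Prop where
  pi_e1 : ∀ n l, S.dv (4 * (S.q n : ℤ) ^ 2 * S.p (.pi n l), 0) ∈ R.stab (.pi n l)
  pi_e2 : ∀ n l, S.dv (0, 4 * (S.q n : ℤ) ^ 2 * S.p (.pi n l)) ∈ R.stab (.pi n l)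
  pi_dom : ∀ n l m, m ≠ n → S.dom m ∈ R.stab (.pi n l)
  be_v : ∀ n e l, S.dv ((4 * (S.q n : ℤ) ^ 2 * S.p (.be n e l)) • S.v n) ∈ R.stab (.be n e l)
  be_dom : ∀ n e l m, m ≠ n → S.dom m ∈ R.stab (.be n e l)
  de_v : ∀ n e, S.dv ((S.p (.de n e) : ℤ) • S.v n) ∈ R.stab (.de n e)
  de_dom : ∀ n e m, S.dom m ∈ R.stab (.de n e)

/-- the constraints, fourth group: the type links -/
structure Con4 (R : S.R) : Prop where
  plink0 : ∀ n (l : Fin S.Λ), R.Link {.two, .qq n} (S.P0 n l 0) (S.P1 n l 0) (.pi n l) ⊥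
  plink1 : ∀ n (l : Fin S.Λ), R.Link {.two, .qq n} (S.P0 n l (S.tm (.pi n l) n))
    (S.P1 n l (S.tm (.pi n l) n)) (.pi n l) ⊥

/-- the constraints, fifth group: the clauses -/
structure Con5 (R : S.R) : Prop where
  c1 : ∀ n e l g, R.Lit (.be n e l) (S.tm (.be n e l) n) g ∨ R.Lit (.pi n l) (S.tp (.pi n l) n) g
  c2 : ∀ n e g, R.Lit (.de n e) (S.tm (.de n e) n) g ∨
    ∃ l, S.AlL n e l ∧ R.Lit (.be n e l) (S.tp (.be n e l) n) g
  c3 : ∀ n g, ∃ e, R.Lit (.de n e) (S.tp (.de n e) n) g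
  c4 : ∀ J τ (l : F → Fin S.Λ), S.Forb J τ → ∀ g, ∃ n ∈ J, R.Lit (.be n (τ n) (l n)) (S.dom n) g

/-- all constraints -/
structure Con (R : S.R) : Prop extends S.Con2 R, S.Con3 R, S.Con4 R, S.Con5 R

/-- what the marker equations yield: the type `typ` of a site and the side `sg` of its partner -/
structure Mark (R : S.R) (typ sg : ℤ → Bool) : Prop where
  typ_per : ∀ k k' : ℤ, 4 ∣ k - k' → typ k = typ k'
  sg_per : ∀ k k' : ℤ, 4 ∣ k - k' → sg k = sg k'
  lnk : ∀ g : S.G, R.ρ g .two = 0 → ∃ ij : Bool × Bool, xor ij.1 ij.2 = typ g.1.1 ∧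
    R.ρ (g - (S.a + S.t2 + S.ev ij)) .two = 0
  par : ∀ g : S.G, R.ρ g .two = 0 → R.ρ (g - (S.a + S.ev (sg g.1.1, false))) .two = 0
  flip : ∀ k : ℤ, typ (k - if sg k then 3 else 1) = !typ k
  four : ∀ M : ℤ, S.dv (M, 0) ∈ R.stab .two → 4 ∣ M

/-- the `q`-component in coordinates -/
def Rq (R : S.R) (n : F) (x : ℤ × ℤ) (y : ZMod (S.q n ^ 3)) : ZMod (S.q n ^ 3) :=
  R.ρ (x, Pi.single (M := S.Hc) (.qq n) y) (.qq n)

/-- the partner of a site -/
def partner (sg : ℤ → Bool) (x : ℤ × ℤ) : ℤ × ℤ :=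
  x - ((if sg x.1 then 3 else 1) * S.E .two, 0)

omit [DecidableEq F] [DecidableEq A] in
/-- the semantic content of an `N`-periodic solution of the constraints -/
structure Sem (N : ℕ) where
  /-- the difference vector of a site and a layer -/
  d : ∀ n, ℤ × ℤ → ZMod (S.q n) → ZMod (S.q n) × ZMod (S.q n)
  /-- the literal variables -/
  β : ∀ n e l, ℤ × ℤ → ZMod (S.q n) → ZMod (S.p (.be n e l))
  /-- the digit variables -/
  δ : ∀ n e, ℤ × ℤ → ZMod (S.p (.de n e))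
  s1 : ∀ n e (l : Fin S.Λ) x w, ¬ InL (S.q n) l (d n x w) →
    β n e l (x + S.E (.be n e l) • S.v n) w = β n e l x w
  s2 : ∀ n e x w, δ n e (x + S.E (.de n e) • S.v n) = δ n e x ∨
    ∃ l, S.AlL n e l ∧ β n e l (x + S.E (.be n e l) • S.v n) w = β n e l x w + 1
  s3 : ∀ n x, ∃ e, δ n e (x + S.E (.de n e) • S.v n) = δ n e x + 1
  s4 : ∀ J τ (l : F → Fin S.Λ), S.Forb J τ → ∀ x (w : ∀ n, ZMod (S.q n)),
    ∃ n ∈ J, β n (τ n) (l n) x (w n + 1) = β n (τ n) (l n) x (w n)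
  β_per : ∀ n e l x w (k : ℤ), 4 * (S.q n : ℤ) ^ 2 * S.p (.be n e l) ∣ k →
    β n e l (x + k • S.v n) w = β n e l x w
  δ_per : ∀ n e x (k : ℤ), (S.p (.de n e) : ℤ) ∣ k → δ n e (x + k • S.v n) = δ n e x
  d_per : ∀ n x w (y : ℤ × ℤ), d n (x + (4 * (S.q n : ℤ) ^ 2) • y) w = d n x w
  β_N : ∀ n e l x w (y : ℤ × ℤ), β n e l (x + (N : ℤ) • y) w = β n e l x w
  δ_N : ∀ n e x (y : ℤ × ℤ), δ n e (x + (N : ℤ) • y) = δ n e x
  bad_N : ∀ n x (y : ℤ × ℤ), (∃ l : ℕ, ∀ w, InL (S.q n) l (d n (x + (N : ℤ) • y) w)) ↔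
    ∃ l : ℕ, ∀ w, InL (S.q n) l (d n x w)
  bad : ∀ n x (c : ℤ), 4 ∣ c → (c : ZMod (S.q n)) ≠ 0 →
    pr (fun t : Fin (S.q n) × Fin (S.q n) => ∃ l : ℕ, ∀ w, InL (S.q n) l
      (d n (x + (c * ((t.1 : ℕ) : ℤ)) • S.v n + (c * ((t.2 : ℕ) : ℤ)) • S.u n) w)) ≤ 2 / (S.q n : ℝ)
  sweep : ∀ n x, ∃ (t : ℤ) (w ς : ZMod (S.q n)), (ς = 1 ∨ ς = -1) ∧
    (d n (x + t • S.v n) w).1 ≠ 0 ∧ ∀ s : ℤ, d n (x + t • S.v n + (4 * s) • S.u n) w =
      d n (x + t • S.v n) w + (0, ς * ((4 * s : ℤ) : ZMod (S.q n)))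

omit [DecidableEq F] [DecidableEq A] in
/-- what a periodic solution of the constraints yields: digits on the lines and holes -/
structure Out (N r P₀ : ℕ) (f : F → ℤ → A) (hole : F → ℤ × ℤ → Prop) : Prop where
  per : ∀ n m, f n (m + N) = f n m
  rule : ∀ J τ x, S.Forb J τ → (∀ n ∈ J, f n (lam (S.v n) x) = τ n) → ∃ n ∈ J, hole n x
  dens : ∀ n (j : ℕ) (x₀ : ℤ × ℤ), Nat.Coprime (r ^ j) (S.q n) →
    dens2 N (fun x => hole n (x₀ + ((r : ℤ) ^ j) • x)) ≤ 2 / (S.q n : ℝ) + 1 / (P₀ : ℝ)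
  clock : ∀ n (m₀ : ℤ), ∃ d₁ d₂ ς : ZMod (S.q n), d₁ ≠ 0 ∧ (ς = 1 ∨ ς = -1) ∧
    ∀ t : ℤ, S.Al n (f n (m₀ + 4 * t)) ((d₂ + ς * ((4 * t : ℤ) : ZMod (S.q n))) / d₁)

end Setup

/-- the abstract properties of a `q`-component: `R x y` is its value at the site `x` and the
fibre coordinate `y`, `typ` the type of a site, `m`, `l` the two steps -/
structure QHyp (q : ℕ) (R : ℤ × ℤ → ZMod (q ^ 3) → ZMod (q ^ 3)) (typ : ℤ × ℤ → Bool)
    (m l : ℤ × ℤ) : Prop where
  mem : ∀ x y, R x y ∈ AddSubgroup.zmultiples ((q : ℕ) : ZMod (q ^ 3))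
  equiv : ∀ x y, ∀ k ∈ AddSubgroup.zmultiples ((q : ℕ) : ZMod (q ^ 3)), R x (y + k) = R x y + k
  q1 : ∀ x y, R (x + m) (y + if typ x then -1 else 1) - R x y ∈
    AddSubgroup.zmultiples (((q : ℕ) : ZMod (q ^ 3)) ^ 2)
  q2 : ∀ x y, R (x + l) (y + if typ x then ((q : ℕ) : ZMod (q ^ 3)) ^ 2 else 0) = R x y
  typ_m : ∀ x, typ (x + m) = typ x
  typ_l : ∀ x, typ (x + l) = typ x

/-! ### The intended solution -/

/-- the two intended `q`-states and their difference vector -/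
structure XY (q : ℕ) where
  /-- the corrections of the two states -/
  Rt : Bool → ℤ → ℤ → ZMod (q ^ 3) → ZMod (q ^ 3)
  /-- the difference vector of a coset -/
  dc : ℤ → ℤ → ZMod (q ^ 3) → ZMod q × ZMod q
  mem : ∀ b μ l y, Rt b μ l y ∈ AddSubgroup.zmultiples ((q : ℕ) : ZMod (q ^ 3))
  equiv : ∀ b μ l y, ∀ k ∈ AddSubgroup.zmultiples ((q : ℕ) : ZMod (q ^ 3)),
    Rt b μ l (y + k) = Rt b μ l y + k
  congr : ∀ b μ μ' l l' y, (q : ℤ) ^ 2 ∣ μ - μ' → (q : ℤ) ∣ l - l' → Rt b μ l y = Rt b μ' l' y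
  skew : ∀ b μ l y, Rt b (μ + 1) l (y + if b then -1 else 1) - Rt b μ l y ∈
    AddSubgroup.zmultiples (((q : ℕ) : ZMod (q ^ 3)) ^ 2)
  vert : ∀ b μ l y, Rt b μ (l + 1) (y + if b then ((q : ℕ) : ZMod (q ^ 3)) ^ 2 else 0) =
    Rt b μ l y
  dc_congr : ∀ μ μ' l l' y y', (q : ℤ) ∣ μ - μ' → (q : ℤ) ∣ l - l' →
    y - y' ∈ AddSubgroup.zmultiples (((q : ℕ) : ZMod (q ^ 3)) ^ 2) → dc μ l y = dc μ' l' y'
  dc_spec : ∀ μ l y (κ κ' : ZMod q × ZMod q),
    Rt false (μ - (κ.1.val : ℤ) * q) l (y - (κ.2.val : ZMod (q ^ 3)) * (q : ZMod (q ^ 3)) ^ 2) = 0 →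
    Rt true (μ - (κ'.1.val : ℤ) * q) l (y - (κ'.2.val : ZMod (q ^ 3)) * (q : ZMod (q ^ 3)) ^ 2) = 0 →
    κ - κ' = dc μ l y
  dc_dir : ∀ μ l y, (dc μ l y).1 = 0 ∨
    ∃ z : ZMod q, (dc μ l y).2 = (z ^ 2 + (l : ZMod q) * z) * (dc μ l y).1

/-- the intended marker -/
def Gam0 (k : ℤ) : ZMod 4 := if k % 4 = 0 ∨ k % 4 = 1 then 0 else 1

/-- the intended type -/
def typ0 (k : ℤ) : Bool := decide (k % 4 = 0 ∨ k % 4 = 3)

namespace Setup

variable {F A : Type} (S : Setup F A) (X : ∀ n, XY (S.q n)) (f : F → ℤ → A)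

/-- the intended `q`-component -/
def rq0 (n : F) (g : S.G) : ZMod (S.q n ^ 3) :=
  (X n).Rt (typ0 g.1.1) (mu (S.u n) g.1) (lam (S.v n) g.1) (g.2 (.qq n))

/-- the intended difference vector -/
def d0 (n : F) (g : S.G) : ZMod (S.q n) × ZMod (S.q n) :=
  (X n).dc (mu (S.u n) g.1) (lam (S.v n) g.1) (g.2 (.qq n) - S.rq0 X n g)

/-- the label of a line through `d` -/
def lsel (n : F) (d : ZMod (S.q n) × ZMod (S.q n)) : ℕ :=
  if d.1 = 0 then S.q n else (d.2 / d.1).val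

open Classical in
/-- the intended corrections -/
noncomputable def rho0 (g : S.G) : (c : S.C) → S.Hc c
  | .two => g.2 .two - Gam0 g.1.1
  | .qq n => S.rq0 X n g
  | .pi n l => g.2 (.pi n l) -
      if InL (S.q n) l (S.d0 X n g) then ((mu (S.u n) g.1 : ℤ) : ZMod (S.p (.pi n l))) else 0
  | .be n e l => g.2 (.be n e l) -
      if f n (lam (S.v n) g.1) = e ∧ (l : ℕ) = S.lsel n (S.d0 X n g) then
        ((mu (S.u n) g.1 : ℤ) : ZMod (S.p (.be n e l))) else 0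
  | .de n e => g.2 (.de n e) -
      if f n (lam (S.v n) g.1) = e then ((mu (S.u n) g.1 : ℤ) : ZMod (S.p (.de n e))) else 0

end Setup

/-! ### The Sudoku rule -/

/-- the families of lines -/
inductive Fam : Type
  | star
  | tri (k : Fin 60) (i : Fin 3)
  | dsc (n : Fin 2) (i : Fin 5)
  deriving DecidableEq, Fintype

/-- first coefficient of the linear form of a family -/
def al : Fam → ℤ
  | .star => 1
  | .tri _ i => ![1, 1, 2] i
  | .dsc _ i => ![1, 1, 0, 1, 2] i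

/-- second coefficient of the linear form of a family -/
def be (r : ℕ) : Fam → ℤ
  | .star => 0
  | .tri k i => ![2 * (k : ℤ), 2 * (k : ℤ) + 1, 4 * (k : ℤ) + 1] i
  | .dsc n i => ![(n : ℤ), (n : ℤ) + r, 1, (n : ℤ) + 1, 2 * (n : ℤ) + 1] i

/-- direction of a family: `lam (vv r n) x = al n * x.1 + be r n * x.2` -/
def vv (r : ℕ) (n : Fam) : ℤ × ℤ := (be r n, -al n)

/-- a transversal vector -/
def uu : Fam → ℤ × ℤ
  | .star => (1, 0)
  | .tri k i => ![(1, 0), (1, 0), (-2 * (k : ℤ), 1)] i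
  | .dsc n i => ![(1, 0), (1, 0), (0, 1), (1, 0), (-(n : ℤ), 1)] i

/-- the linear form of a family modulo `r` -/
def lamb (r : ℕ) (n : Fam) (x : ZMod r × ZMod r) : ZMod r :=
  (al n : ZMod r) * x.1 + (be r n : ZMod r) * x.2

/-- the digits seen at a site -/
def tup (r : ℕ) (f : Fam → ℤ → ZMod r) (x : ℤ × ℤ) : Fam → ZMod r :=
  fun n => f n (lam (vv r n) x)

/-- `x` is a witness for the digits `τ` -/
def Wit (r : ℕ) (τ : Fam → ZMod r) (x : ZMod r × ZMod r) : Prop :=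
  x ≠ 0 ∧ (∀ n, n ≠ .star → lamb r n x ≠ 0 → τ n = lamb r n x) ∧
    ∀ n : Fin 2, lamb r (.dsc n 0) x = 0 →
      τ (.dsc n 1) - τ (.dsc n 0) = x.2 ∨ τ (.dsc n 1) = x.2 ∨ τ (.dsc n 0) = -x.2

/-- the Sudoku rule -/
def SS (r : ℕ) (τ : Fam → ZMod r) : Prop := ∃ x, Wit r τ x

/-- the Sudoku rule with the clock -/
def SS' (r : ℕ) (τ : Fam → ZMod r) : Prop :=
  ∃ x, Wit r τ x ∧ (τ .star ≠ 0 → τ .star = x.1)

/-- the affine map `ω ↦ B ω + c` modulo `r` -/
def aff {r : ℕ} (B : ZMod r) (c : ZMod r × ZMod r) (ω : ℤ × ℤ) : ZMod r × ZMod r :=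
  (B * (ω.1 : ZMod r) + c.1, B * (ω.2 : ZMod r) + c.2)

/-- the intended digits: the last non-zero digit in base `r` (the clock family: the last digit) -/
noncomputable def f0 (r : ℕ) (n : Fam) (m : ℤ) : ZMod r :=
  if n = .star then (m : ZMod r)
  else if m = 0 then (al n : ZMod r) else ((m / (r : ℤ) ^ padicValInt r m : ℤ) : ZMod r)

/-! ### From systems to one tile -/

/-- a finite system of tiles of `G` with a common complement such that no common complement has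
the property `Per` -/
def AperSys (G : Type) [AddCommGroup G] (Per : Set G → Prop) : Prop :=
  ∃ 𝓕 : Finset (Finset G), 𝓕.Nonempty ∧ (∃ A, ∀ F ∈ 𝓕, IsTilingBy F A) ∧
    ∀ A, (∀ F ∈ 𝓕, IsTilingBy F A) → ¬ Per A

/-- invariance under `N ℤ² × 0` for some `N ≥ 1` -/
def PerG {H : Type} [AddCommGroup H] (A : Set ((ℤ × ℤ) × H)) : Prop :=
  ∃ N : ℕ, 0 < N ∧ ∀ a ∈ A, ∀ x : ℤ × ℤ, a + ((N : ℤ) • x, 0) ∈ A

/-- invariance under `N ℤ³` for some `N ≥ 1` -/
def Per3 (A : Set (Fin 3 → ℤ)) : Prop :=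
  ∃ N : ℕ, 0 < N ∧ ∀ a ∈ A, ∀ x : Fin 3 → ℤ, a + (N : ℤ) • x ∈ A

/-- a rigid family: `M` finite sets that together form a complete residue system modulo `L ℤ³`
inside `[0, 3L)³`, meet every subcube, and whose difference sets contain every small vector
outside `L ℤ³` -/
structure RigidFam (M L : ℕ) (E : Fin M → Finset (Fin 3 → ℤ)) : Prop where
  two_le : 2 ≤ L
  range : ∀ m, ∀ e ∈ E m, ∀ i, 0 ≤ e i ∧ e i < 3 * L
  res : ∀ x : Fin 3 → ℤ, ∃! me : Fin M × (Fin 3 → ℤ), me.2 ∈ E me.1 ∧ ∀ i, (L : ℤ) ∣ x i - me.2 i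
  cube : ∀ m (ε : Fin 3 → Fin 3), ∃ e ∈ E m, ∀ i, ((ε i : ℕ) : ℤ) * L ≤ e i ∧
    e i < (((ε i : ℕ) : ℤ) + 1) * L
  diff : ∀ m m' (h : Fin 3 → ℤ), (∀ i, |h i| ≤ 2 * L) → (∃ i, ¬ (L : ℤ) ∣ h i) →
    ∃ e ∈ E m, ∃ e' ∈ E m', e - e' = h

/-- the tile built from a system and a rigid family -/
def bigT {M : ℕ} (L : ℕ) (F E : Fin M → Finset (Fin 3 → ℤ)) : Finset (Fin 3 → ℤ) :=
  univ.biUnion fun m => (F m ×ˢ E m).image fun fe => (L : ℤ) • fe.1 + fe.2

end Crest.Agent.R46
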