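import Crest.Agent.R46.Basic

/-! The families of lines and the intended digits. -/

set_option autoImplicit false
set_option linter.unusedSectionVars false

namespace Crest.Agent.R46

open Finset Crest.CombinatoricsR.Tiling Crest.Agent.R34

theorem lam_vv (r : ℕ) (n : Fam) (x : ℤ × ℤ) : lam (vv r n) x = al n * x.1 + be r n * x.2 := by
  simp only [lam, vv]; ring

theorem lam_vv_uu (r : ℕ) (n : Fam) : lam (vv r n) (uu n) = 1 := by
  rw [lam_vv]
  cases n with
  | star => simp [al, be, uu]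
  | tri k i => fin_cases i <;> simp [al, be, uu] <;> ring
  | dsc n i => fin_cases i <;> simp [al, be, uu] <;> ring

theorem cast_lam_vv (r : ℕ) (n : Fam) (x : ℤ × ℤ) :
    ((lam (vv r n) x : ℤ) : ZMod r) = lamb r n ((x.1 : ZMod r), (x.2 : ZMod r)) := by
  rw [lam_vv]; simp only [lamb]; push_cast; ring

theorem dig_f0 {r : ℕ} (hr : r.Prime) {n : Fam} (hn : n ≠ .star) (j : ℕ) {m : ℤ}
    (hm : (m : ZMod r) ≠ 0) : f0 r n ((r : ℤ) ^ j * m) = (m : ZMod r) := by
  have := Fact.mk hr
  have hm' : ¬ (r : ℤ) ∣ m := fun h => hm ((ZMod.intCast_zmod_eq_zero_iff_dvd m r).2 h)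
  have hm0 : m ≠ 0 := by rintro rfl; simp at hm
  have hr0 : (r : ℤ) ^ j ≠ 0 := pow_ne_zero _ (by exact_mod_cast hr.ne_zero)
  have hv : padicValInt r ((r : ℤ) ^ j * m) = j := by
    rw [padicValInt.mul hr0 hm0, padicValInt.eq_zero_of_not_dvd hm', add_zero]
    simp [padicValInt, Int.natAbs_pow]
  rw [f0, if_neg hn, if_neg (mul_ne_zero hr0 hm0), hv, Int.mul_ediv_cancel_left _ hr0]

theorem dig_split {r : ℕ} (hr : r.Prime) (x : ℤ × ℤ) (hx : x ≠ 0) :
    ∃ (j : ℕ) (y : ℤ × ℤ), x = (r : ℤ) ^ j • y ∧ ((y.1 : ZMod r), (y.2 : ZMod r)) ≠ 0 := by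
  induction h : x.1.natAbs + x.2.natAbs using Nat.strong_induction_on generalizing x with
  | _ N ih =>
    by_cases h0 : ((x.1 : ZMod r), (x.2 : ZMod r)) = 0
    · obtain ⟨a, ha⟩ := (ZMod.intCast_zmod_eq_zero_iff_dvd _ r).1 (congrArg Prod.fst h0)
      obtain ⟨b, hb⟩ := (ZMod.intCast_zmod_eq_zero_iff_dvd _ r).1 (congrArg Prod.snd h0)
      have hab : (a, b) ≠ 0 := by
        intro hab
        obtain ⟨rfl, rfl⟩ := Prod.mk.inj hab
        exact hx (Prod.ext (by simpa using ha) (by simpa using hb))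
      have hpos : 0 < a.natAbs + b.natAbs := by
        rcases Nat.eq_zero_or_pos (a.natAbs + b.natAbs) with h1 | h1
        · exact (hab (Prod.ext (by simp only [Prod.fst_zero]; omega)
            (by simp only [Prod.snd_zero]; omega))).elim
        · exact h1
      obtain ⟨j, y, hy, hy'⟩ := ih (a.natAbs + b.natAbs) (by
        rw [← h, ha, hb, Int.natAbs_mul, Int.natAbs_mul, Int.natAbs_natCast, ← mul_add]
        have := hr.two_le
        nlinarith) (a, b) hab rfl
      refine ⟨j + 1, y, ?_, hy'⟩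
      rw [pow_succ', mul_smul, ← hy]
      exact Prod.ext ha hb
    · exact ⟨0, x, by simp, h0⟩

/-- the intended digits obey the rule at every site -/
theorem ss_f0 {r : ℕ} (hr : r.Prime) (x : ℤ × ℤ) : SS' r (tup r (f0 r) x) := by
  have := Fact.mk hr
  by_cases hx : x = 0
  · subst hx
    refine ⟨(1, 0), ⟨by simp, fun n hn _ => ?_, fun n h => ?_⟩, fun h => ?_⟩
    · simp [tup, f0, hn, lam, lamb]
    · simp [lamb, al] at h
    · simp [tup, f0, lam] at h
  obtain ⟨j, y, rfl, hy⟩ := dig_split hr x hx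
  have hl : ∀ n, lam (vv r n) ((r : ℤ) ^ j • y) = (r : ℤ) ^ j * lam (vv r n) y := by
    intro n
    simp only [lam_vv, Prod.smul_fst, Prod.smul_snd, smul_eq_mul]
    ring
  refine ⟨((y.1 : ZMod r), (y.2 : ZMod r)), ⟨hy, fun n hn h => ?_, fun n h => ?_⟩, fun h => ?_⟩
  · rw [← cast_lam_vv] at h ⊢
    rw [tup, hl, dig_f0 hr hn j h]
  · rw [← cast_lam_vv] at h
    obtain ⟨s, hs⟩ := (ZMod.intCast_zmod_eq_zero_iff_dvd _ r).1 h
    have h2 : (y.2 : ZMod r) ≠ 0 := by
      intro h2
      apply hy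
      rw [lam_vv] at h
      simp only [al, be] at h
      simp [h2] at h
      simp [h, h2]
    have hs1 : lam (vv r (.dsc n 1)) y = r * (s + y.2) := by
      rw [lam_vv] at hs ⊢
      simp only [al, be] at hs ⊢
      simp at hs ⊢
      linear_combination hs
    have e0 : (s : ZMod r) ≠ 0 → tup r (f0 r) ((r : ℤ) ^ j • y) (.dsc n 0) = s := fun h => by
      rw [tup, hl, hs, ← mul_assoc, ← pow_succ, dig_f0 hr (by simp) _ h]
    have e1 : ((s + y.2 : ℤ) : ZMod r) ≠ 0 →
        tup r (f0 r) ((r : ℤ) ^ j • y) (.dsc n 1) = (s + y.2 : ℤ) := fun h => by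
      rw [tup, hl, hs1, ← mul_assoc, ← pow_succ, dig_f0 hr (by simp) _ h]
    by_cases h3 : (s : ZMod r) = 0
    · right; left
      rw [e1 (by push_cast; rwa [h3, zero_add])]
      push_cast
      rw [h3, zero_add]
    · by_cases h4 : ((s + y.2 : ℤ) : ZMod r) = 0
      · right; right
        rw [e0 h3]
        push_cast at h4
        linear_combination h4
      · left
        rw [e0 h3, e1 h4]
        push_cast
        ring
  · simp only [tup, hl, f0, if_true] at h ⊢
    rcases j with _ | j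
    · simp [lam_vv, al, be]
    · simp at h

end Crest.Agent.R46
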