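import Crest.Agent.R46.Pr
import Crest.Agent.R46.Digit

/-! A non-constant board cannot sit above a constant one. -/

set_option autoImplicit false
set_option linter.unusedSectionVars false

namespace Crest.Agent.R46

open Finset Crest.CombinatoricsR.Tiling Crest.Agent.R34

namespace DescAux

theorem lamb_aff {r : ℕ} (n : Fam) (B : ZMod r) (c : ZMod r × ZMod r) (ω : ℤ × ℤ) :
    lamb r n (aff B c ω) = B * ((lam (vv r n) ω : ℤ) : ZMod r) + lamb r n c := by
  rw [cast_lam_vv]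
  simp only [lamb, aff]
  ring

theorem pr_mul_eq {r : ℕ} (hr : r.Prime) {B : ZMod r} (hB : B ≠ 0) (v : ZMod r) :
    pr (fun b : Fin r => B * (((b : ℕ) : ℤ) : ZMod r) = v) ≤ 1 / r := by
  classical
  have : Fact r.Prime := ⟨hr⟩
  rw [pr_eq_card, Fintype.card_fin]
  refine div_le_div_of_nonneg_right ?_ (Nat.cast_nonneg _)
  have : (univ.filter fun b : Fin r => B * (((b : ℕ) : ℤ) : ZMod r) = v).card ≤ 1 := by
    refine card_le_one.2 fun a ha b hb => ?_
    have h := (mem_filter.1 ha).2.trans (mem_filter.1 hb).2.symm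
    have h' := mul_left_cancel₀ hB h
    simp only [Int.cast_natCast] at h'
    have h'' := (ZMod.natCast_eq_natCast_iff' _ _ _).1 h'
    rw [Nat.mod_eq_of_lt a.2, Nat.mod_eq_of_lt b.2] at h''
    exact Fin.ext h''
  exact_mod_cast this

theorem dens2_const (N : ℕ) (p : Prop) [Decidable p] :
    dens2 N (fun _ => p) ≤ if p then 1 else 0 := by
  split_ifs with h
  · exact pr_le_one _
  · exact (pr_false fun _ => h).le

theorem exists_lt_one {Ω : Type} [Fintype Ω] [Nonempty Ω] {f : Ω → ℝ} (h : ex f < 1) :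
    ∃ ω, f ω < 1 := by
  by_contra hc
  push Not at hc
  have := ex_mono (f := fun _ : Ω => (1 : ℝ)) hc
  rw [ex_const] at this
  linarith

/-- the final contradiction -/
theorem no_wit {r : ℕ} (τ : Fam → ZMod r) (n : Fin 2) {γ s : ZMod r} (hγ : γ ≠ 0)
    (h1 : s ≠ γ) (h2 : s ≠ -γ) (t0 : τ (.dsc n 0) = γ) (t1 : τ (.dsc n 1) = γ)
    (t2 : τ (.dsc n 2) = s) (t3 : τ (.dsc n 3) = s) : ¬ SS r τ := by
  rintro ⟨x, hx, hw, hd⟩
  have e0 : lamb r (.dsc n 0) x = x.1 + ((n : ℤ) : ZMod r) * x.2 := by simp [lamb, al, be]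
  have e2 : lamb r (.dsc n 2) x = x.2 := by simp [lamb, al, be]
  have e3 : lamb r (.dsc n 3) x = x.1 + ((n : ℤ) : ZMod r) * x.2 + x.2 := by
    simp [lamb, al, be]; ring
  have w0 := hw (.dsc n 0) (by simp)
  have w2 := hw (.dsc n 2) (by simp)
  have w3 := hw (.dsc n 3) (by simp)
  have wd := hd n
  rw [e0, t0] at w0
  rw [e2, t2] at w2
  rw [e3, t3] at w3
  rw [e0, t0, t1] at wd
  by_cases hL : x.1 + ((n : ℤ) : ZMod r) * x.2 = 0
  · have hy : x.2 ≠ 0 := fun hy => hx (Prod.ext (by simpa [hy] using hL) hy)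
    have hs := w2 hy
    rcases wd hL with h | h | h
    · exact hy (by rw [← h, sub_self])
    · exact h1 (hs.trans h.symm)
    · exact h2 (by rw [h, neg_neg, hs])
  · have hg := w0 hL
    rw [← hg] at w3
    by_cases hy : x.2 = 0
    · rw [hy, add_zero] at w3
      exact h1 (w3 hγ)
    · have hs := w2 hy
      rw [← hs] at w3
      by_cases h3 : γ + s = 0
      · exact h2 (by linear_combination h3)
      · exact hγ (by linear_combination -(w3 h3))

end DescAux

open DescAux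

theorem descent {r : ℕ} (hr : r.Prime) (h1000 : 1000 < r) {N : ℕ} (hN : 0 < N)
    (g : Fam → ℤ → ZMod r) (per : ∀ n m, g n (m + N) = g n m)
    (B : ZMod r) (c : ZMod r × ZMod r) (hB : B ≠ 0) (hBN : B * ((N : ℤ) : ZMod r) = 0)
    (hS : dens2 N (fun ω => ¬ Wit r (tup r g ω) (aff B c ω)) ≤ 1 / 6)
    (ω₀ : ℤ × ℤ) (h0 : aff B c ω₀ = 0)
    (hH : ∀ x₁ : ℤ × ℤ, dens2 N (fun ω => ¬ SS r (tup r g (x₁ + (r : ℤ) • ω))) ≤ 1 / 60)
    (c' : ZMod r × ZMod r)
    (hS' : dens2 N (fun ω =>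
      ¬ Wit r (tup r (fun n m => g n (lam (vv r n) ω₀ + r * m)) ω) c') ≤ 1 / 6) : False := by
  classical
  have : Fact r.Prime := ⟨hr⟩
  have hr0 : 0 < r := hr.pos
  have : Nonempty (Fin r) := ⟨⟨0, hr0⟩⟩
  have hN0 : ((N : ℤ) : ZMod r) = 0 := (mul_eq_zero.1 hBN).resolve_left hB
  have perk : ∀ n m k, g n (m + N * k) = g n m := fun n m k =>
    ((show Per1 N (fun m' => g n m' = g n m) from fun m' => by simp only [per]).mul m k).2 rfl
  -- the constant `γ`
  obtain ⟨ω₁, hω₁⟩ := exists_of_dens2_lt hN (hS'.trans_lt (by norm_num))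
  have hc' : c' ≠ 0 := (not_not.1 hω₁).1
  obtain ⟨n₀, hγ⟩ : ∃ n₀ : Fin 2, c'.1 + ((n₀ : ℤ) : ZMod r) * c'.2 ≠ 0 := by
    by_contra hc
    push Not at hc
    have a0 := hc 0
    have a1 := hc 1
    simp only [Fin.isValue, Fin.val_zero, Nat.cast_zero, Int.cast_zero, zero_mul, add_zero,
      Fin.val_one, Nat.cast_one, Int.cast_one, one_mul] at a0 a1
    exact hc' (Prod.ext a0 (by simpa [a0] using a1))
  set γ := c'.1 + ((n₀ : ℤ) : ZMod r) * c'.2 with hγdef
  -- the bad events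
  let bad : Fam → ℤ → Prop := fun n m =>
    B * (m : ZMod r) + lamb r n c ≠ 0 ∧ g n m ≠ B * (m : ZMod r) + lamb r n c
  have bper : ∀ n, Per1 N (bad n) := fun n m => by
    simp only [bad, per, Int.cast_add, hN0, add_zero]
  have bden : ∀ n, n ≠ .star → dens1 N (bad n) ≤ 1 / 6 := fun n hn => by
    rw [← dens2_lam hN (bper n) (vv r n) (uu n) (lam_vv_uu r n)]
    refine (dens2_mono fun ω hb hw => ?_).trans hS
    have := hw.2.1 n hn
    rw [lamb_aff] at this
    exact hb.2 (this hb.1)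
  let bad' : Fam → ℤ → Prop := fun n m => g n (lam (vv r n) ω₀ + r * m) ≠ γ
  have bper' : ∀ n, Per1 N (bad' n) := fun n m => by
    simp only [bad']
    rw [mul_add, ← add_assoc, mul_comm (r : ℤ) N, perk]
  have bden' : ∀ n, n ≠ .star → lamb r n c' = γ → dens1 N (bad' n) ≤ 1 / 6 := fun n hn hl => by
    rw [← dens2_lam hN (bper' n) (vv r n) (uu n) (lam_vv_uu r n)]
    refine (dens2_mono fun ω hb hw => ?_).trans hS'
    have := hw.2.1 n hn
    rw [hl] at this
    exact hb (this hγ)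
  have d0 := bden' (.dsc n₀ 0) (by simp) (by simp [lamb, al, be, hγdef])
  have d1 := bden' (.dsc n₀ 1) (by simp) (by simp [lamb, al, be, hγdef])
  let P : Fam → Fin r → ℤ × ℤ → Prop := fun n b w =>
    bad n (lam (vv r n) ω₀ + ((b : ℕ) : ℤ) + r * lam (vv r n) w)
  have hP : ∀ n, n ≠ .star → ex (fun b => dens2 N (P n b)) ≤ 1 / 6 := fun n hn => by
    refine le_trans (le_of_eq ?_) (bden n hn)
    rw [← dens1_digit hr0 (bper n) (lam (vv r n) ω₀)]
    refine congrArg ex (funext fun b => ?_)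
    refine dens2_lam hN (P := fun m => bad n (lam (vv r n) ω₀ + ((b : ℕ) : ℤ) + r * m))
      (fun m => ?_) (vv r n) (uu n) (lam_vv_uu r n)
    beta_reduce
    rw [mul_add, ← add_assoc, mul_comm (r : ℤ) N]
    exact (bper n).mul _ _
  let x₁ : Fin r → ℤ × ℤ := fun b => ω₀ + ((b : ℕ) : ℤ) • (-(n₀ : ℤ), 1)
  let Q : Fin r → Prop := fun b => B * (((b : ℕ) : ℤ) : ZMod r) = 0 ∨
    B * (((b : ℕ) : ℤ) : ZMod r) = γ ∨ B * (((b : ℕ) : ℤ) : ZMod r) = -γ
  have hQ : ex (fun b => if Q b then (1 : ℝ) else 0) ≤ 3 / 1000 := by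
    rw [← pr_eq_ex]
    have h1 := pr_mul_eq hr hB 0
    have h2 := pr_mul_eq hr hB γ
    have h3 := pr_mul_eq hr hB (-γ)
    have h4 : (1 : ℝ) / r ≤ 1 / 1000 :=
      one_div_le_one_div_of_le (by norm_num) (by exact_mod_cast h1000.le)
    refine (pr_or_le _ _).trans ((add_le_add_right (pr_or_le _ _) _).trans ?_)
    linarith
  let Bad : Fin r → ℤ × ℤ → Prop := fun b w => P (.dsc n₀ 2) b w ∨ P (.dsc n₀ 3) b w ∨
    bad' (.dsc n₀ 0) (lam (vv r (.dsc n₀ 0)) w) ∨
    bad' (.dsc n₀ 1) (((b : ℕ) : ℤ) + lam (vv r (.dsc n₀ 1)) w) ∨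
    ¬ SS r (tup r g (x₁ b + (r : ℤ) • w)) ∨ Q b
  have hb : ∀ b, dens2 N (Bad b) ≤ dens2 N (P (.dsc n₀ 2) b) + dens2 N (P (.dsc n₀ 3) b) +
      (1 / 6 + 1 / 6 + 1 / 60) + if Q b then (1 : ℝ) else 0 := fun b => by
    have e0 : dens2 N (fun w => bad' (.dsc n₀ 0) (lam (vv r (.dsc n₀ 0)) w)) ≤ 1 / 6 :=
      (dens2_lam hN (bper' _) _ _ (lam_vv_uu r _)).trans_le d0
    have e1 : dens2 N (fun w => bad' (.dsc n₀ 1) (((b : ℕ) : ℤ) + lam (vv r (.dsc n₀ 1)) w)) ≤
        1 / 6 :=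
      ((dens2_lam hN ((bper' _).shift _) _ _ (lam_vv_uu r _)).trans
        (dens1_shift (bper' _) _)).trans_le d1
    have e2 := hH (x₁ b)
    have e3 := dens2_const N (Q b)
    refine (dens2_or_le _ _ _).trans ((add_le_add_right ((dens2_or_le _ _ _).trans
      (add_le_add_right ((dens2_or_le _ _ _).trans (add_le_add_right ((dens2_or_le _ _ _).trans
      (add_le_add_right (dens2_or_le _ _ _) _)) _)) _)) _).trans ?_)
    linarith
  have htot : ex (fun b => dens2 N (Bad b)) < 1 := by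
    refine (ex_mono hb).trans_lt ?_
    rw [ex_add, ex_add, ex_add, ex_const]
    linarith [hP (.dsc n₀ 2) (by simp), hP (.dsc n₀ 3) (by simp)]
  obtain ⟨b, hb1⟩ := exists_lt_one htot
  obtain ⟨w, hw⟩ := exists_of_dens2_lt hN hb1
  simp only [Bad, Q, not_or, not_not] at hw
  obtain ⟨h2, h3, h4, h5, h6, h7, h8, h9⟩ := hw
  have hlam : ∀ n, lam (vv r n) (x₁ b + (r : ℤ) • w) = lam (vv r n) ω₀ +
      ((b : ℕ) : ℤ) * (be r n - al n * n₀) + r * lam (vv r n) w := fun n => by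
    simp only [x₁, lam_add, lam_smul]
    rw [lam_vv r n (-(n₀ : ℤ), 1)]
    ring
  have hval : ∀ n, be r n - al n * n₀ = 1 → ¬ P n b w →
      tup r g (x₁ b + (r : ℤ) • w) n = B * (((b : ℕ) : ℤ) : ZMod r) := fun n hn hp => by
    have e : B * ((lam (vv r n) ω₀ + ((b : ℕ) : ℤ) + r * lam (vv r n) w : ℤ) : ZMod r) +
        lamb r n c = B * (((b : ℕ) : ℤ) : ZMod r) := by
      have := lamb_aff n B c ω₀
      rw [h0] at this
      simp only [lamb, Prod.fst_zero, Prod.snd_zero, mul_zero, add_zero] at this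
      simp only [lamb, Int.cast_add, Int.cast_mul, Int.cast_natCast, ZMod.natCast_self, zero_mul,
        add_zero]
      linear_combination -this
    simp only [P, bad, e, not_and, not_not] at hp
    rw [tup, hlam, hn, mul_one]
    exact hp h7
  refine no_wit _ n₀ hγ h8 h9 ?_ ?_ (hval _ (by simp [al, be]) h2) (hval _ (by simp [al, be]) h3)
    h6
  · simp only [bad', not_not] at h4
    rw [tup, hlam, ← h4]
    simp [al, be]
  · simp only [bad', not_not] at h5
    rw [tup, hlam, ← h5]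
    congr 1
    simp [al, be]
    ring

end Crest.Agent.R46
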