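import Crest.Agent.R46.Defs

/-! From `ℤ² × H` with `H` finite cyclic to `ℤ³`. -/

set_option autoImplicit false
set_option linter.unusedSectionVars false

namespace Crest.Agent.R46

open Finset Crest.CombinatoricsR.Tiling Crest.Agent.R34

namespace LiftAux

variable {G G' : Type} [AddCommGroup G] [AddCommGroup G'] (φ : G' →+ G)

theorem tiling_preimage {F : Finset G} {F' : Finset G'} {A : Set G} (hA : IsTilingBy F A)
    (hinj : ∀ s ∈ F', ∀ t ∈ F', φ s = φ t → s = t) (hmap : ∀ s ∈ F', φ s ∈ F)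
    (hsurj : ∀ t ∈ F, ∃ s ∈ F', φ s = t) : IsTilingBy F' (φ ⁻¹' A) := by
  intro x
  obtain ⟨⟨a, t⟩, ⟨ha, ht, hx⟩, huniq⟩ := hA (φ x)
  obtain ⟨s, hs, rfl⟩ := hsurj t ht
  refine ⟨(x - s, s), ⟨?_, hs, by simp⟩, ?_⟩
  · change φ (x - s) ∈ A
    rw [map_sub, ← hx]
    simpa using ha
  · rintro ⟨a', s'⟩ ⟨ha', hs', hx'⟩
    have h1 := huniq (φ a', φ s') ⟨ha', hmap s' hs', by rw [← map_add]; exact congrArg φ hx'⟩
    have h2 : s' = s := hinj s' hs' s hs (congrArg Prod.snd h1)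
    subst h2
    refine Prod.ext ?_ rfl
    exact eq_sub_of_add_eq hx'

theorem tiling_image [DecidableEq G'] {sec : G → G'} (hsec : ∀ x, φ (sec x) = x) {F : Finset G}
    {A : Set G'} (hA : IsTilingBy (F.image sec) A) (hinv : ∀ a ∈ A, ∀ b, φ b = φ a → b ∈ A) :
    IsTilingBy F (φ '' A) := by
  intro x
  obtain ⟨⟨a, s⟩, ⟨ha, hs, hx⟩, huniq⟩ := hA (sec x)
  obtain ⟨t, ht, rfl⟩ := mem_image.1 hs
  have hx' : φ a + t = x := by
    have := congrArg φ hx
    rwa [map_add, hsec, hsec] at this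
  refine ⟨(φ a, t), ⟨⟨a, ha, rfl⟩, ht, hx'⟩, ?_⟩
  rintro ⟨_, t'⟩ ⟨⟨a', ha', rfl⟩, ht', hx''⟩
  have h1 : sec x - sec t' ∈ A := hinv a' ha' _ (by
    rw [map_sub, hsec, hsec]
    exact (eq_sub_of_add_eq hx'').symm)
  have h2 := huniq (sec x - sec t', sec t') ⟨h1, mem_image_of_mem _ ht', by simp⟩
  have h3 : t' = t := by
    have := congrArg φ (congrArg Prod.snd h2)
    rwa [hsec, hsec] at this
  subst h3
  refine Prod.ext ?_ rfl
  exact add_right_cancel (hx''.trans hx'.symm)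

theorem inv_of_two [DecidableEq G'] {T : Finset G'} {t k : G'} (ht : t ∈ T)
    (hk : t + k ∈ T → t + k = t) {A : Set G'} (h1 : IsTilingBy T A)
    (h2 : IsTilingBy (insert (t + k) (T.erase t)) A) {a : G'} (ha : a ∈ A) :
    a + k ∈ A ∧ a - k ∈ A := by
  constructor
  · obtain ⟨⟨a', s⟩, ⟨ha', hs, hx⟩, -⟩ := h1 (a + (t + k))
    by_cases e : s = t
    · subst e
      have : a' = a + k := by
        apply add_right_cancel (b := s)
        rw [show a' + s = a + (s + k) from hx]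
        abel
      exact this ▸ ha'
    · have h3 := (h2 (a + (t + k))).unique (y₁ := (a', s)) (y₂ := (a, t + k))
        ⟨ha', mem_insert_of_mem (mem_erase.2 ⟨e, hs⟩), hx⟩ ⟨ha, mem_insert_self _ _, rfl⟩
      have h4 : s = t + k := congrArg Prod.snd h3
      exact absurd (h4.trans (hk (h4 ▸ hs))) e
  · obtain ⟨⟨a', s⟩, ⟨ha', hs, hx⟩, -⟩ := h2 (a + t)
    rcases mem_insert.1 hs with e | e
    · have e : s = t + k := e
      subst e
      have : a' = a - k := by
        apply add_right_cancel (b := t + k)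
        rw [show a' + (t + k) = a + t from hx]
        abel
      exact this ▸ ha'
    · have h3 := (h1 (a + t)).unique (y₁ := (a', s)) (y₂ := (a, t))
        ⟨ha', (mem_erase.1 e).2, hx⟩ ⟨ha, ht, rfl⟩
      exact absurd (congrArg Prod.snd h3) (mem_erase.1 e).1

theorem aperSys_lift (hφ : Function.Surjective φ) {k : G'} (hk : φ k = 0)
    (hker : ∀ b, φ b = 0 → ∃ n : ℤ, b = n • k) {Per : Set G → Prop} {Per' : Set G' → Prop}
    (hP : ∀ A, Per' A → Per (φ '' A)) (h : AperSys G Per) : AperSys G' Per' := by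
  classical
  obtain ⟨𝓕, ⟨F₀, hF₀⟩, ⟨A, hA⟩, hno⟩ := h
  obtain ⟨sec, hsec⟩ := hφ.hasRightInverse
  have hsec : ∀ x, φ (sec x) = x := hsec
  obtain ⟨⟨a₀, t⟩, ⟨-, ht, -⟩, -⟩ := hA F₀ hF₀ 0
  have hinj : ∀ F : Finset G, ∀ s ∈ F.image sec, ∀ s' ∈ F.image sec, φ s = φ s' → s = s' := by
    intro F s hs s' hs' e
    obtain ⟨u, -, rfl⟩ := mem_image.1 hs
    obtain ⟨u', -, rfl⟩ := mem_image.1 hs'
    rw [hsec, hsec] at e
    rw [e]
  have hmap : ∀ F : Finset G, ∀ s ∈ F.image sec, φ s ∈ F := by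
    intro F s hs
    obtain ⟨u, hu, rfl⟩ := mem_image.1 hs
    rwa [hsec]
  have htk : φ (sec t + k) = φ (sec t) := by rw [map_add, hk, add_zero]
  have ht' : sec t ∈ F₀.image sec := mem_image_of_mem _ ht
  refine ⟨insert (insert (sec t + k) ((F₀.image sec).erase (sec t)))
    (𝓕.image fun F => F.image sec), insert_nonempty _ _, ⟨φ ⁻¹' A, fun F' hF' => ?_⟩,
    fun A' hA' hper => ?_⟩
  · rcases mem_insert.1 hF' with rfl | hF'
    · refine tiling_preimage φ (hA F₀ hF₀) ?_ ?_ ?_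
      · intro s hs s' hs' e
        rcases mem_insert.1 hs with rfl | hs <;> rcases mem_insert.1 hs' with rfl | hs'
        · rfl
        · exact absurd (hinj F₀ _ (mem_erase.1 hs').2 _ ht' (e.symm.trans htk)) (mem_erase.1 hs').1
        · exact absurd (hinj F₀ _ (mem_erase.1 hs).2 _ ht' (e.trans htk)) (mem_erase.1 hs).1
        · exact hinj F₀ _ (mem_erase.1 hs).2 _ (mem_erase.1 hs').2 e
      · intro s hs
        rcases mem_insert.1 hs with rfl | hs
        · rw [htk, hsec]; exact ht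
        · exact hmap F₀ s (mem_erase.1 hs).2
      · intro u hu
        by_cases e : sec u = sec t
        · exact ⟨sec t + k, mem_insert_self _ _, by rw [htk, ← e, hsec]⟩
        · exact ⟨sec u, mem_insert_of_mem (mem_erase.2 ⟨e, mem_image_of_mem _ hu⟩), hsec u⟩
    · obtain ⟨F, hF, rfl⟩ := mem_image.1 hF'
      exact tiling_preimage φ (hA F hF) (hinj F) (hmap F)
        fun u hu => ⟨sec u, mem_image_of_mem _ hu, hsec u⟩
  · have h1 : ∀ F ∈ 𝓕, IsTilingBy (F.image sec) A' := fun F hF =>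
      hA' _ (mem_insert_of_mem (mem_image_of_mem _ hF))
    have h2 : ∀ a ∈ A', a + k ∈ A' ∧ a - k ∈ A' := fun a ha =>
      inv_of_two ht' (fun h => hinj F₀ _ h _ ht' htk) (h1 F₀ hF₀) (hA' _ (mem_insert_self _ _)) ha
    have h3 : ∀ n : ℤ, ∀ a ∈ A', a + n • k ∈ A' := by
      intro n
      induction n using Int.induction_on with
      | zero => intro a ha; simpa using ha
      | succ n ih =>
        intro a ha
        rw [add_smul, one_smul, ← add_assoc]
        exact (h2 _ (ih a ha)).1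
      | pred n ih =>
        intro a ha
        rw [sub_smul, one_smul, ← add_sub_assoc]
        exact (h2 _ (ih a ha)).2
    refine hno (φ '' A') (fun F hF => tiling_image φ hsec (h1 F hF) fun a ha b hb => ?_)
      (hP A' hper)
    obtain ⟨n, hn⟩ := hker (b - a) (by rw [map_sub, hb, sub_self])
    have := h3 n a ha
    rwa [← hn, add_sub_cancel] at this

end LiftAux

theorem lift {H : Type} [AddCommGroup H] [Finite H] (π : ℤ →+ H) (hπ : Function.Surjective π)
    (h : AperSys ((ℤ × ℤ) × H) PerG) : AperSys (Fin 3 → ℤ) Per3 := by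
  let φ : (Fin 3 → ℤ) →+ (ℤ × ℤ) × H :=
    { toFun := fun a => ((a 0, a 1), π (a 2))
      map_zero' := by simp
      map_add' := fun a b => by simp }
  have hφ : ∀ a, φ a = ((a 0, a 1), π (a 2)) := fun _ => rfl
  obtain ⟨n, hn⟩ := Int.subgroup_cyclic π.ker
  refine LiftAux.aperSys_lift φ ?_ (k := ![0, 0, n]) ?_ ?_ ?_ h
  · rintro ⟨⟨x, y⟩, z⟩
    obtain ⟨w, rfl⟩ := hπ z
    exact ⟨![x, y, w], rfl⟩
  · have : n ∈ π.ker := hn ▸ AddSubgroup.subset_closure rfl
    rw [hφ]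
    simpa using this
  · intro b hb
    rw [hφ] at hb
    simp only [Prod.mk_eq_zero] at hb
    have h2 : b 2 ∈ π.ker := hb.2
    rw [hn, AddSubgroup.mem_closure_singleton] at h2
    obtain ⟨m, hm⟩ := h2
    refine ⟨m, ?_⟩
    funext i
    fin_cases i
    · simpa using hb.1.1
    · simpa using hb.1.2
    · simpa using hm.symm
  · rintro A ⟨N, hN, hA⟩
    refine ⟨N, hN, ?_⟩
    rintro _ ⟨a, ha, rfl⟩ x
    refine ⟨_, hA a ha ![x.1, x.2, 0], ?_⟩
    rw [map_add]
    congr 1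
    rw [hφ]
    ext <;> simp

end Crest.Agent.R46
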