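import Crest.Agent.R46.Defs

/-! Primes and idempotents. -/

set_option autoImplicit false
set_option linter.unusedSectionVars false

namespace Crest.Agent.R46

open Finset Crest.CombinatoricsR.Tiling Crest.Agent.R34

theorem exists_primes (ι : Type) [Finite ι] (B : ℕ) :
    ∃ q : ι → ℕ, Function.Injective q ∧ ∀ i, (q i).Prime ∧ B < q i := by
  have hinf : ({p | Nat.Prime p} \ Set.Iic B).Infinite :=
    Nat.infinite_setOfPred_prime.sdiff (Set.finite_Iic B)
  obtain ⟨f, hf⟩ := Countable.exists_injective_nat ι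
  refine ⟨fun i => (hinf.natEmbedding _ (f i) : ℕ),
    Subtype.val_injective.comp ((hinf.natEmbedding _).injective.comp hf), fun i => ?_⟩
  have := (hinf.natEmbedding _ (f i)).2
  exact ⟨this.1, not_le.1 this.2⟩

theorem exists_moduli {F A : Type} [Fintype F] [Fintype A] (Λ : ℕ) (q : F → ℕ)
    (hq : ∀ n, (q n).Prime) (hq2 : ∀ n, 2 < q n) (hinj : Function.Injective q) (B : ℕ) :
    ∃ (p : Cmp F A Λ → ℕ) (E : Cmp F A Λ → ℤ), (∀ c, (p c).Prime) ∧ (∀ c, B < p c) ∧
      (Pairwise fun c c' => Nat.Coprime (mdOf q p c) (mdOf q p c')) ∧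
      (∀ c, ((E c : ℤ) : ZMod (mdOf q p c)) = 1) ∧
      ∀ c c', c ≠ c' → ((mdOf q p c' : ℕ) : ℤ) ∣ E c := by
  classical
  obtain ⟨p, hpi, hp⟩ := exists_primes (Cmp F A Λ) (max (max B 2) (univ.sup q))
  have hB : ∀ c, B < p c := fun c =>
    lt_of_le_of_lt ((le_max_left _ _).trans (le_max_left _ _)) (hp c).2
  have h2 : ∀ c, 2 < p c := fun c =>
    lt_of_le_of_lt ((le_max_right _ _).trans (le_max_left _ _)) (hp c).2
  have hqp : ∀ n c, q n < p c := fun n c =>
    lt_of_le_of_lt ((le_sup (f := q) (mem_univ n)).trans (le_max_right _ _)) (hp c).2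
  let base : Cmp F A Λ → ℕ := fun c => match c with
    | .two => 2
    | .qq n => q n
    | c => p c
  have hbp : ∀ c, (base c).Prime := by
    intro c
    cases c
    exacts [Nat.prime_two, hq _, (hp _).1, (hp _).1, (hp _).1]
  have hpow : ∀ c, ∃ k, mdOf q p c = base c ^ k := by
    intro c
    cases c
    exacts [⟨2, rfl⟩, ⟨3, rfl⟩, ⟨1, (pow_one _).symm⟩, ⟨1, (pow_one _).symm⟩, ⟨1, (pow_one _).symm⟩]
  have hbi : Function.Injective base := by
    intro c c' h
    cases c <;> cases c' <;>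
      first
        | rfl
        | exact absurd h (hq2 _).ne
        | exact absurd h (hq2 _).ne'
        | exact absurd h (h2 _).ne
        | exact absurd h (h2 _).ne'
        | exact absurd h (hqp _ _).ne
        | exact absurd h (hqp _ _).ne'
        | exact congrArg _ (hinj h)
        | exact hpi h
  have hcop : Pairwise fun c c' => Nat.Coprime (mdOf q p c) (mdOf q p c') := by
    intro c c' hne
    obtain ⟨k, hk⟩ := hpow c
    obtain ⟨k', hk'⟩ := hpow c'
    rw [hk, hk']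
    exact Nat.Coprime.pow _ _ ((Nat.coprime_primes (hbp c) (hbp c')).2 fun h => hne (hbi h))
  have hE : ∀ c, ∃ E : ℤ, ((E : ℤ) : ZMod (mdOf q p c)) = 1 ∧
      ∀ c', c ≠ c' → ((mdOf q p c' : ℕ) : ℤ) ∣ E := by
    intro c
    have : IsCoprime ((mdOf q p c : ℕ) : ℤ) (∏ c' ∈ univ.erase c, ((mdOf q p c' : ℕ) : ℤ)) :=
      IsCoprime.prod_right fun c' hc' =>
        Nat.isCoprime_iff_coprime.2 (hcop (ne_of_mem_erase hc').symm)
    obtain ⟨a, b, hab⟩ := this
    refine ⟨b * ∏ c' ∈ univ.erase c, ((mdOf q p c' : ℕ) : ℤ), ?_, fun c' hc' =>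
      (dvd_prod_of_mem _ (mem_erase.2 ⟨hc'.symm, mem_univ _⟩)).mul_left _⟩
    rw [eq_sub_of_add_eq' hab]
    push_cast
    simp
  choose E hE1 hE2 using hE
  exact ⟨p, E, fun c => (hp c).1, hB, hcop, hE1, hE2⟩

/-- the fibre group is cyclic -/
theorem Setup.exists_surj {F A : Type} [Fintype F] [Fintype A] (S : Setup F A) :
    ∃ π : ℤ →+ (∀ c, S.Hc c), Function.Surjective π := by
  classical
  refine ⟨AddMonoidHom.pi fun c => Int.castAddHom (S.Hc c), fun y => ?_⟩
  choose z hz using fun c => ZMod.intCast_surjective (y c)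
  refine ⟨∑ c, S.E c * z c, funext fun c => ?_⟩
  simp only [AddMonoidHom.pi_apply, Int.coe_castAddHom, Int.cast_sum, Int.cast_mul]
  rw [sum_eq_single c]
  · rw [S.E_one, one_mul, hz]
  · intro c' _ hc'
    rw [(ZMod.intCast_zmod_eq_zero_iff_dvd _ _).2 (S.E_dvd c' c hc'), zero_mul]
  · simp

end Crest.Agent.R46
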