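import Crest.Agent.R46.Struct
import Crest.Agent.R46.Descent

/-! The Sudoku rule has no periodic solution off a sparse set of holes. -/

set_option autoImplicit false
set_option linter.unusedSectionVars false

namespace Crest.Agent.R46

open Finset Crest.CombinatoricsR.Tiling Crest.Agent.R34

/-- the board of level `j` with base point `x₀` -/
def board {r : ℕ} (f : Fam → ℤ → ZMod r) (j : ℕ) (x₀ : ℤ × ℤ) : Fam → ℤ → ZMod r :=
  fun n m => f n (lam (vv r n) x₀ + (r : ℤ) ^ j * m)

theorem tup_board {r : ℕ} (f : Fam → ℤ → ZMod r) (j : ℕ) (x₀ ω : ℤ × ℤ) :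
    tup r (board f j x₀) ω = tup r f (x₀ + ((r : ℤ) ^ j) • ω) := by
  funext n
  simp only [tup, board, lam_add, lam_smul]

theorem board_succ {r : ℕ} (f : Fam → ℤ → ZMod r) (j : ℕ) (x₀ ω₀ : ℤ × ℤ) :
    board f (j + 1) (x₀ + ((r : ℤ) ^ j) • ω₀) =
      fun n m => board f j x₀ n (lam (vv r n) ω₀ + r * m) := by
  funext n m
  simp only [board, lam_add, lam_smul]
  congr 1
  ring

theorem no_periodic {r : ℕ} (hr : r.Prime) (h1000 : 1000 < r) {N : ℕ} (hN : 0 < N)
    (f : Fam → ℤ → ZMod r) (per : ∀ n m, f n (m + N) = f n m)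
    (h1 : ∀ (j : ℕ) (x₀ : ℤ × ℤ),
      dens2 N (fun x => ¬ SS r (tup r f (x₀ + ((r : ℤ) ^ j) • x))) ≤ 1 / 60)
    (h2 : dens2 N (fun x => ¬ SS' r (tup r f x)) ≤ 1 / 60)
    (h3 : ∀ C, dens1 N (fun m => f .star m = 0 ∨ f .star m = C) ≤ 4 / 5) : False := by
  have : Fact r.Prime := ⟨hr⟩
  have perk : ∀ n m (k : ℤ), f n (m + N * k) = f n m := fun n m k =>
    (Per1.mul (P := fun x => f n x = f n m) (fun x => by simp only [per]) m k).2 rfl
  have bper : ∀ j x₀ n m, board f j x₀ n (m + N) = board f j x₀ n m := fun j x₀ n m => by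
    simp only [board]
    rw [← perk n (lam (vv r n) x₀ + (r : ℤ) ^ j * m) ((r : ℤ) ^ j)]
    congr 1; ring
  have key : ∀ j : ℕ, ∃ (x₀ : ℤ × ℤ) (B : ZMod r) (c : ZMod r × ZMod r), B ≠ 0 ∧
      (∀ M : ℤ, (∀ n m, board f j x₀ n (m + M) = board f j x₀ n m) → B * (M : ZMod r) = 0) ∧
      dens2 N (fun ω => ¬ Wit r (tup r (board f j x₀) ω) (aff B c ω)) ≤ 1 / 6 := by
    intro j
    induction j with
    | zero =>
      have e : board f 0 0 = f := by
        funext n m; simp [board, lam_zero]
      obtain ⟨B, c, hB, hS⟩ := struct hr h1000 hN f per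
        (fun τ x => τ .star ≠ 0 → τ .star = x.1) h2
      refine ⟨0, B, c, ?_, by rwa [e], ?_⟩
      · rintro rfl
        have hP : Per1 N (fun m => ¬ (f .star m = 0 ∨ f .star m = c.1)) := fun m => by
          simp only [per]
        have a1 := dens2_lam hN hP (vv r .star) (uu .star) (lam_vv_uu r .star)
        have a2 := dens1_not hN (fun m => f .star m = 0 ∨ f .star m = c.1)
        have a3 : dens2 N (fun x => ¬ (f .star (lam (vv r .star) x) = 0 ∨
            f .star (lam (vv r .star) x) = c.1)) ≤ 1 / 6 := by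
          refine (dens2_mono fun x hx hW => hx ?_).trans hS
          by_cases h0 : f .star (lam (vv r .star) x) = 0
          · exact Or.inl h0
          · right
            have := hW.2 h0
            simpa [aff, tup] using this
        have := h3 c.1
        linarith
      · rw [e]
        exact (dens2_mono fun x hx hW => hx hW.1).trans hS
    | succ j ih =>
      obtain ⟨x₀, B, c, hB, hM, hS⟩ := ih
      let ω₀ : ℤ × ℤ := (((-c.1 / B).val : ℤ), ((-c.2 / B).val : ℤ))
      have h0 : aff B c ω₀ = 0 := by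
        simp only [aff, ω₀, Int.cast_natCast, ZMod.natCast_zmod_val]
        ext <;> simp only [Prod.fst_zero, Prod.snd_zero] <;> field_simp <;> ring
      obtain ⟨B', c', hB', hS'⟩ := struct hr h1000 hN (board f (j + 1) (x₀ + ((r : ℤ) ^ j) • ω₀))
        (bper _ _) (fun _ _ => True) (by
          simp only [and_true, tup_board]
          exact h1 (j + 1) _)
      simp only [and_true] at hS'
      refine ⟨_, B', c', ?_, hB', hS'⟩
      rintro rfl
      refine descent hr h1000 hN (board f j x₀) (bper j x₀) B c hB (hM N (bper j x₀)) hS ω₀ h0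
        (fun x₁ => ?_) c' ?_
      · have := h1 (j + 1) (x₀ + ((r : ℤ) ^ j) • x₁)
        simp only [tup_board, smul_add, smul_smul, ← add_assoc, ← pow_succ]
        exact this
      · rw [← board_succ]
        simpa [aff] using hS'
  obtain ⟨k, N', hN', rfl⟩ := Nat.exists_eq_pow_mul_and_not_dvd hN.ne' r hr.one_lt.ne'
  obtain ⟨x₀, B, c, hB, hM, -⟩ := key k
  have := hM N' fun n m => by
    simp only [board]
    rw [← per n (lam (vv r n) x₀ + (r : ℤ) ^ k * m)]
    congr 1; push_cast; ring
  rw [mul_eq_zero, Int.cast_natCast, ZMod.natCast_eq_zero_iff] at this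
  exact this.elim hB hN'

end Crest.Agent.R46
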