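import Crest.Agent.R46.Gadget
import Crest.Agent.R46.Moduli
import Crest.Agent.R46.Sudoku
import Crest.Agent.R46.Clock
import Crest.Agent.R46.Lift

/-! An aperiodic system of tiles of `ℤ³`. -/

set_option autoImplicit false

namespace Crest.Agent.R46

open Finset Crest.CombinatoricsR.Tiling Crest.Agent.R34

theorem ss_congr {r : ℕ} {τ τ' : Fam → ZMod r} (h : ∀ n, n ≠ .star → τ n = τ' n)
    (hτ : SS r τ) : SS r τ' := by
  obtain ⟨x, h0, h1, h2⟩ := hτ
  refine ⟨x, h0, fun n hn hl => (h n hn).symm.trans (h1 n hn hl), fun n hn => ?_⟩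
  rw [← h (.dsc n 1) (by simp), ← h (.dsc n 0) (by simp)]
  exact h2 n hn

set_option maxRecDepth 100000 in
theorem card_Fam : Fintype.card Fam = 191 := by rfl

set_option maxRecDepth 100000 in
theorem exists_univ_Fam : ∃ U : Finset Fam, (∀ n, n ∈ U) ∧ U.card = 191 :=
  ⟨univ, fun n => Fintype.complete n, card_Fam⟩

theorem Setup.lift3 {F A : Type} [Fintype F] [Fintype A] (S : Setup F A) (h : AperSys S.G PerG) :
    AperSys (Fin 3 → ℤ) Per3 := by
  obtain ⟨π, hπ⟩ := S.exists_surj
  exact lift π hπ h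

theorem aperSys3 : AperSys (Fin 3 → ℤ) Per3 := by
  classical
  obtain ⟨U, hU, hUc⟩ := exists_univ_Fam
  obtain ⟨q, hinj, hq⟩ := exists_primes Fam 1000000
  have hr : (q .star).Prime := (hq .star).1
  have : Fact (q .star).Prime := ⟨hr⟩
  obtain ⟨Λ, hΛ⟩ : ∃ Λ, ∀ n, q n < Λ := by
    obtain ⟨b, hb⟩ := (Set.finite_range q).bddAbove
    exact ⟨b + 1, fun n => Nat.lt_succ_of_le (hb ⟨n, rfl⟩)⟩
  obtain ⟨p, E, hp1, hp2, hcop, hE1, hE2⟩ :=
    exists_moduli (F := Fam) (A := ZMod (q .star)) Λ q (fun n => (hq n).1)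
      (fun n => lt_trans (by norm_num) (hq n).2) hinj (q .star + 1000000)
  let S : Setup Fam (ZMod (q .star)) :=
    { v := vv (q .star)
      u := uu
      det := lam_vv_uu _
      q := q
      q_prime := fun n => (hq n).1
      q_two := fun n => lt_trans (by norm_num) (hq n).2
      Λ := Λ
      q_lt := hΛ
      p := p
      p_prime := hp1
      cop := hcop
      E := E
      E_one := hE1
      E_dvd := hE2
      Al := fun n e κ => n = .star → ∃ z, κ = z ^ 2 + (e.val : ZMod (q n)) * z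
      Forb := fun J τ => (J = U.erase .star ∧ ¬ SS (q .star) τ) ∨
        (J = U ∧ ¬ SS' (q .star) τ)
      Forb_ne := by
        rintro J τ (⟨rfl, -⟩ | ⟨rfl, -⟩)
        · exact ⟨.dsc 0 0, by simp [hU]⟩
        · exact ⟨.star, hU _⟩ }
  refine S.lift3 (S.gadget (f0 (q .star)) ?_ ?_ (q .star) 1000000 hr (by norm_num) ?_ ?_)
  · rintro J τ (⟨rfl, hτ⟩ | ⟨rfl, hτ⟩) x
    · by_contra hc
      push Not at hc
      obtain ⟨y, hy, -⟩ := ss_f0 hr x
      exact hτ (ss_congr (fun n hn => hc n (by simp [hn, hU])) ⟨y, hy⟩)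
    · by_contra hc
      push Not at hc
      have : tup (q .star) (f0 (q .star)) x = τ := funext fun n => hc n (hU n)
      exact hτ (this ▸ ss_f0 hr x)
  · rintro n m z rfl
    refine ⟨z, ?_⟩
    simp [f0]
  · intro c
    have := hp2 c
    exact ⟨lt_of_le_of_lt (Nat.le_add_right _ _) this, by
      change 1000000 ≤ p c
      omega⟩
  · intro N g hole hN hO
    have h1000 : 1000 < q .star := lt_trans (by norm_num) (hq .star).2
    have hsmall : ∀ n, 2 / (q n : ℝ) + 1 / ((1000000 : ℕ) : ℝ) ≤ 3 / 1000000 := fun n => by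
      have h1 : (1000000 : ℝ) ≤ q n := by exact_mod_cast (hq n).2.le
      have h2 : 2 / (q n : ℝ) ≤ 2 / 1000000 := by gcongr
      push_cast
      linarith
    refine no_periodic hr h1000 hN g hO.per (fun j x₀ => ?_) ?_ fun C => ?_
    · refine (dens2_mono (Q := fun x => ∃ n ∈ U.erase Fam.star,
        hole n (x₀ + ((q .star : ℤ) ^ j) • x)) fun x hx => ?_).trans ?_
      · exact hO.rule _ _ _ (Or.inl ⟨rfl, hx⟩) fun n _ => rfl
      · refine (dens2_exists_le N _ _).trans ?_
        refine (sum_le_card_nsmul _ _ (3 / 1000000 : ℝ) fun n hn => ?_).trans ?_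
        · refine (hO.dens n j x₀ ?_).trans (hsmall n)
          refine Nat.Coprime.pow_left _ ((Nat.coprime_primes hr (hq n).1).2 ?_)
          exact fun h => (mem_erase.1 hn).1 (hinj h).symm
        · rw [card_erase_of_mem (hU _), hUc]
          norm_num
    · refine (dens2_mono (Q := fun x => ∃ n ∈ U,
        hole n (0 + ((q .star : ℤ) ^ 0) • x)) fun x hx => ?_).trans ?_
      · simpa only [pow_zero, one_smul, zero_add] using
          hO.rule _ _ x (Or.inr ⟨rfl, hx⟩) fun n _ => rfl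
      · refine (dens2_exists_le N _ _).trans ?_
        refine (sum_le_card_nsmul _ _ (3 / 1000000 : ℝ) fun n _ => ?_).trans ?_
        · exact (hO.dens n 0 0 (by simp)).trans (hsmall n)
        · rw [hUc]
          norm_num
    · refine clock_bound h1000 hN (g .star) (hO.per .star) (fun m₀ => ?_) C
      obtain ⟨d₁, d₂, ς, h1, h2, h3⟩ := hO.clock .star m₀
      refine ⟨d₁, d₂, ς, h1, h2, fun t => ?_⟩
      obtain ⟨z, hz⟩ := h3 t rfl
      refine ⟨z, hz.trans ?_⟩
      simp

end Crest.Agent.R46
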