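import Crest.Agent.R46.Frame0

/-! Transversality can be forced. -/

set_option autoImplicit false

namespace Crest.Agent.R46

open Finset Crest.CombinatoricsR.Tiling Crest.Agent.R34

variable {D : Type} [AddCommGroup D] {C : Type} [Fintype C] [DecidableEq C] {Hc : C → Type}
  [∀ c, AddCommGroup (Hc c)] [∀ c, Finite (Hc c)] {K : ∀ c, AddSubgroup (Hc c)}

omit [Fintype C] [DecidableEq C] [∀ c, Finite (Hc c)] in
theorem Rho.sub_mem_set_iff (R : Rho D K) (g φ : D × (∀ c, Hc c)) (κ : ∀ c, Hc c)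
    (hκ : ∀ c, κ c ∈ K c) : g - (φ + (0, κ)) ∈ R.set ↔ κ = R.ρ (g - φ) := by
  have e : g - (φ + (0, κ)) = g - φ + (0, -κ) := by
    rw [sub_add_eq_sub_sub, sub_eq_add_neg (g - φ), Prod.neg_mk, neg_zero]
  change R.ρ _ = 0 ↔ _
  rw [e, R.equiv _ (-κ) fun c => (K c).neg_mem (hκ c), add_neg_eq_zero, eq_comm]

/-- the tile `{Φ j + (0, κ) : κ ∈ Π K c, κ = 0 on B}` forces transversality -/
theorem good_trans (R₀ : Rho D K) (B : Finset C) {J : Type} [Finite J]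
    (Φ : J → D × (∀ c, Hc c)) (h : R₀.Trans B Φ) : Good R₀ (fun R => R.Trans B Φ) := by
  classical
  let T : Set (D × (∀ c, Hc c)) :=
    {t | ∃ j κ, (∀ c, κ c ∈ K c) ∧ (∀ c ∈ B, κ c = 0) ∧ t = Φ j + (0, κ)}
  have hT : T.Finite :=
    (Set.finite_range fun p : J × (∀ c, Hc c) => Φ p.1 + (0, p.2)).subset
      fun t ⟨j, κ, _, _, e⟩ => ⟨(j, κ), e.symm⟩
  have zero : ∀ (R : Rho D K) g j κ, (∀ c, κ c ∈ K c) → (∀ c ∈ B, κ c = 0) →
      g - (Φ j + (0, κ)) ∈ R.set → R.Zero B (g - Φ j) := fun R g j κ h1 h2 h3 c hc => by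
    rw [← (R.sub_mem_set_iff g (Φ j) κ h1).1 h3]
    exact h2 c hc
  have inj : ∀ j κ j' κ', (∀ c, κ c ∈ K c) → (∀ c ∈ B, κ c = 0) → (∀ c, κ' c ∈ K c) →
      (∀ c ∈ B, κ' c = 0) → Φ j + (0, κ) = Φ j' + (0, κ') → j = j' := by
    intro j κ j' κ' h1 h2 h3 h4 e
    have ha : (0 : D × (∀ c, Hc c)) - (0 + (0, R₀.ρ 0)) ∈ R₀.set :=
      (R₀.sub_mem_set_iff 0 0 _ (R₀.mem 0)).2 (by rw [sub_zero])
    generalize (0 : D × (∀ c, Hc c)) - (0 + (0, R₀.ρ 0)) = a at ha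
    refine (h (a + (Φ j + (0, κ)))).unique (zero R₀ _ j κ h1 h2 ?_) (zero R₀ _ j' κ' h3 h4 ?_)
    · rwa [add_sub_cancel_right]
    · rwa [e, add_sub_cancel_right]
  have main : ∀ R : Rho D K, IsTilingBy hT.toFinset R.set ↔ R.Trans B Φ := by
    intro R
    constructor
    · intro ht g
      obtain ⟨⟨a, t⟩, ⟨ha, htT, e⟩, hu⟩ := ht g
      obtain ⟨j, κ, h1, h2, rfl⟩ := hT.mem_toFinset.1 htT
      simp only at ha e
      refine ⟨j, zero R g j κ h1 h2 (by rwa [← e, add_sub_cancel_right]), fun j' hj' => ?_⟩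
      have h3 := hu (g - (Φ j' + (0, R.ρ (g - Φ j'))), Φ j' + (0, R.ρ (g - Φ j')))
        ⟨(R.sub_mem_set_iff g _ _ (R.mem _)).2 rfl,
          hT.mem_toFinset.2 ⟨j', _, R.mem _, hj', rfl⟩, sub_add_cancel _ _⟩
      exact inj j' _ j κ (R.mem _) hj' h1 h2 (congrArg Prod.snd h3)
    · intro ht g
      obtain ⟨j, hj, hu⟩ := ht g
      refine ⟨(g - (Φ j + (0, R.ρ (g - Φ j))), Φ j + (0, R.ρ (g - Φ j))),
        ⟨(R.sub_mem_set_iff g _ _ (R.mem _)).2 rfl,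
          hT.mem_toFinset.2 ⟨j, _, R.mem _, hj, rfl⟩, sub_add_cancel _ _⟩, ?_⟩
      rintro ⟨a, t⟩ ⟨ha, htT, e⟩
      obtain ⟨j', κ, h1, h2, rfl⟩ := hT.mem_toFinset.1 htT
      simp only at ha e
      have ha' : g - (Φ j' + (0, κ)) ∈ R.set := by rwa [← e, add_sub_cancel_right]
      obtain rfl : j' = j := hu j' (zero R g j' κ h1 h2 ha')
      rw [← (R.sub_mem_set_iff g _ κ h1).1 ha', ← e, add_sub_cancel_right]
  exact ⟨{hT.toFinset}, fun F hF => by rw [mem_singleton.1 hF]; exact (main R₀).2 h,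
    fun R hR => (main R).1 (hR _ (mem_singleton_self _))⟩

end Crest.Agent.R46
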