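import Crest.Agent.R46.Defs

/-! The general frame: which properties of a section can be forced by tiling equations. -/

set_option autoImplicit false

namespace Crest.Agent.R46

open Finset Crest.CombinatoricsR.Tiling Crest.Agent.R34

variable {D : Type} [AddCommGroup D] {C : Type} [Fintype C] [DecidableEq C] {Hc : C → Type}
  [∀ c, AddCommGroup (Hc c)] [∀ c, Finite (Hc c)] {K : ∀ c, AddSubgroup (Hc c)}

theorem good_mono {R₀ : Rho D K} {P Q : Rho D K → Prop} (h : Good R₀ P) (hPQ : ∀ R, P R → Q R) :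
    Good R₀ Q := by
  obtain ⟨𝓕, h1, h2⟩ := h
  exact ⟨𝓕, h1, fun R hR => hPQ R (h2 R hR)⟩

theorem good_and {R₀ : Rho D K} {P Q : Rho D K → Prop} (hP : Good R₀ P) (hQ : Good R₀ Q) :
    Good R₀ (fun R => P R ∧ Q R) := by
  classical
  obtain ⟨𝓕, h1, h2⟩ := hP
  obtain ⟨𝓖, h3, h4⟩ := hQ
  refine ⟨𝓕 ∪ 𝓖, fun F hF => ?_, fun R hR => ⟨h2 R fun F hF => hR F (mem_union_left _ hF),
    h4 R fun F hF => hR F (mem_union_right _ hF)⟩⟩
  rcases mem_union.1 hF with h | h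
  · exact h1 F h
  · exact h3 F h

theorem good_forall {R₀ : Rho D K} {ι : Type} [Finite ι] {P : ι → Rho D K → Prop}
    (h : ∀ i, Good R₀ (P i)) : Good R₀ (fun R => ∀ i, P i R) := by
  classical
  letI : Fintype ι := Fintype.ofFinite ι
  choose 𝓕 h1 h2 using h
  refine ⟨Finset.univ.biUnion 𝓕, fun F hF => ?_, fun R hR i => h2 i R fun F hF =>
    hR F (mem_biUnion.2 ⟨i, mem_univ _, hF⟩)⟩
  obtain ⟨i, -, hi⟩ := mem_biUnion.1 hF
  exact h1 i F hi

/-- a component does not see vertical translations in the range subgroups that vanish there -/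
theorem Rho.vert_mem_stab (R : Rho D K) (c : C) (κ : ∀ c, Hc c) (hκ : ∀ c', κ c' ∈ K c')
    (hc : κ c = 0) : ((0, κ) : D × (∀ c, Hc c)) ∈ R.stab c := by
  intro g
  rw [R.equiv g κ hκ, Pi.add_apply, hc, add_zero]

/-- removing the correction lands in the set -/
theorem Rho.sub_mem_set (R : Rho D K) (g : D × (∀ c, Hc c)) : g - (0, R.ρ g) ∈ R.set := by
  show R.ρ (g - (0, R.ρ g)) = 0
  have h := R.equiv g (-R.ρ g) (fun c => (K c).neg_mem (R.mem g c))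
  have e : g - (0, R.ρ g) = g + (0, -R.ρ g) := by
    rw [sub_eq_add_neg, Prod.neg_mk, neg_zero]
  rw [e, h, add_neg_cancel]

/-- the correction is the only vertical vector of the range subgroups that does so -/
theorem Rho.eq_of_sub_mem_set (R : Rho D K) (g : D × (∀ c, Hc c)) (κ : ∀ c, Hc c)
    (hκ : ∀ c, κ c ∈ K c) (h : g - (0, κ) ∈ R.set) : R.ρ g = κ := by
  have h0 : R.ρ (g - (0, κ)) = 0 := h
  have h1 := R.equiv (g - (0, κ)) κ hκ
  rwa [sub_add_cancel, h0, zero_add] at h1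

/-- the vertical tile `0 × Π K c` -/
theorem exists_vert_tile (D : Type) [AddCommGroup D] (K : ∀ c, AddSubgroup (Hc c)) :
    ∃ FK : Finset (D × (∀ c, Hc c)), ∀ t, t ∈ FK ↔ t.1 = 0 ∧ ∀ c, t.2 c ∈ K c := by
  have hfin : ({t : D × (∀ c, Hc c) | t.1 = 0 ∧ ∀ c, t.2 c ∈ K c}).Finite := by
    refine ((Set.finite_singleton (0 : D)).prod (Set.toFinite (Set.univ : Set (∀ c, Hc c)))).subset
      ?_
    rintro t ⟨h1, -⟩
    exact ⟨h1, Set.mem_univ _⟩
  exact ⟨hfin.toFinset, fun t => by rw [Set.Finite.mem_toFinset]; rfl⟩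

/-- a section tiles with the vertical tile -/
theorem Rho.tiling_vert (R : Rho D K) (FK : Finset (D × (∀ c, Hc c)))
    (hFK : ∀ t, t ∈ FK ↔ t.1 = 0 ∧ ∀ c, t.2 c ∈ K c) : IsTilingBy FK R.set := by
  intro g
  refine ⟨(g - (0, R.ρ g), (0, R.ρ g)), ⟨R.sub_mem_set g, (hFK _).2 ⟨rfl, R.mem g⟩,
    sub_add_cancel _ _⟩, ?_⟩
  rintro ⟨a, ⟨t1, κ⟩⟩ ⟨ha, ht, hsum⟩
  obtain ⟨h1, h2⟩ := (hFK _).1 ht
  simp only at h1 h2 ha hsum
  subst h1
  have hag : a = g - (0, κ) := by rw [← hsum, add_sub_cancel_right]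
  have hκ : R.ρ g = κ := R.eq_of_sub_mem_set g κ h2 (hag ▸ ha)
  rw [hκ, hag]

/-- a complement of the vertical tile is a section -/
theorem exists_rho_of_tiling (FK : Finset (D × (∀ c, Hc c)))
    (hFK : ∀ t, t ∈ FK ↔ t.1 = 0 ∧ ∀ c, t.2 c ∈ K c) (A : Set (D × (∀ c, Hc c)))
    (hA : IsTilingBy FK A) : ∃ R : Rho D K, A = R.set := by
  have hex : ∀ g : D × (∀ c, Hc c), ∃ κ : ∀ c, Hc c, (∀ c, κ c ∈ K c) ∧ g - (0, κ) ∈ A := by
    intro g
    obtain ⟨⟨a, ⟨t1, κ⟩⟩, ⟨ha, ht, hsum⟩, -⟩ := hA g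
    obtain ⟨h1, h2⟩ := (hFK _).1 ht
    simp only at h1 h2 ha hsum
    subst h1
    refine ⟨κ, h2, ?_⟩
    rw [← hsum, add_sub_cancel_right]
    exact ha
  have huniq : ∀ (g : D × (∀ c, Hc c)) (κ κ' : ∀ c, Hc c), (∀ c, κ c ∈ K c) →
      (∀ c, κ' c ∈ K c) → g - (0, κ) ∈ A → g - (0, κ') ∈ A → κ = κ' := by
    intro g κ κ' h1 h2 h3 h4
    have := (hA g).unique (y₁ := (g - (0, κ), (0, κ))) (y₂ := (g - (0, κ'), (0, κ')))
      ⟨h3, (hFK _).2 ⟨rfl, h1⟩, sub_add_cancel _ _⟩ ⟨h4, (hFK _).2 ⟨rfl, h2⟩, sub_add_cancel _ _⟩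
    exact congrArg (fun p => p.2.2) this
  choose ρ hρK hρA using hex
  refine ⟨⟨ρ, hρK, fun g κ hκ => ?_⟩, ?_⟩
  · refine huniq (g + (0, κ)) _ _ (hρK _) (fun c => (K c).add_mem (hρK g c) (hκ c)) (hρA _) ?_
    have e : g + ((0 : D), κ) - (0, ρ g + κ) = g - (0, ρ g) := by
      ext
      · simp
      · simp
    rw [e]
    exact hρA g
  · ext g
    show g ∈ A ↔ ρ g = 0
    constructor
    · intro hg
      refine huniq g _ _ (hρK g) (fun c => (K c).zero_mem) (hρA g) ?_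
      have e : g - ((0 : D), (0 : ∀ c, Hc c)) = g := sub_zero g
      rw [e]
      exact hg
    · intro hg
      have h := hρA g
      have e : g - ((0 : D), (0 : ∀ c, Hc c)) = g := sub_zero g
      rwa [hg, e] at h

/-- adding the tile `0 × Π K c`, every common complement is a section -/
theorem good_out (R₀ : Rho D K) {P : Rho D K → Prop} (h : Good R₀ P) :
    ∃ 𝓕 : Finset (Finset (D × (∀ c, Hc c))), 𝓕.Nonempty ∧ (∀ F ∈ 𝓕, IsTilingBy F R₀.set) ∧
      ∀ A, (∀ F ∈ 𝓕, IsTilingBy F A) → ∃ R : Rho D K, A = R.set ∧ P R := by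
  classical
  obtain ⟨𝓕, h1, h2⟩ := h
  obtain ⟨FK, hFK⟩ := exists_vert_tile D K
  refine ⟨insert FK 𝓕, insert_nonempty _ _, fun F hF => ?_, fun A hA => ?_⟩
  · rcases mem_insert.1 hF with rfl | h
    · exact R₀.tiling_vert _ hFK
    · exact h1 F h
  · obtain ⟨R, rfl⟩ := exists_rho_of_tiling FK hFK A (hA FK (mem_insert_self _ _))
    exact ⟨R, rfl, h2 R fun F hF => hA F (mem_insert_of_mem hF)⟩

/-- a period of the set is a period of every component -/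
theorem Rho.mem_stab_of_set (R : Rho D K) (τ : D × (∀ c, Hc c))
    (h : ∀ a ∈ R.set, a + τ ∈ R.set) (c : C) : τ ∈ R.stab c := by
  intro g
  have h1 := h _ (R.sub_mem_set g)
  have e : g - (0, R.ρ g) + τ = g + τ - (0, R.ρ g) := by abel
  rw [e] at h1
  rw [R.eq_of_sub_mem_set (g + τ) (R.ρ g) (R.mem g) h1]

end Crest.Agent.R46
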