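import Crest.Agent.R46.PrA

/-! Densities of periodic predicates: changes of coordinates and averaging. -/

set_option autoImplicit false

namespace Crest.Agent.R46

open Finset Crest.CombinatoricsR.Tiling Crest.Agent.R34

namespace PrAux

theorem ex_equiv {Ω Ω' : Type} [Fintype Ω] [Fintype Ω'] (e : Ω ≃ Ω') (f : Ω' → ℝ) :
    ex (fun ω => f (e ω)) = ex f := by
  unfold ex
  rw [Equiv.sum_comp e f, Fintype.card_congr e]

theorem pr_equiv {Ω Ω' : Type} [Fintype Ω] [Fintype Ω'] (e : Ω ≃ Ω') (E : Ω' → Prop) :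
    pr (fun ω => E (e ω)) = pr E := by
  classical
  rw [pr_eq_ex, pr_eq_ex, ex_equiv e fun ω => if E ω then (1 : ℝ) else 0]

theorem ex_prod2 {Ω Ω' : Type} [Fintype Ω] [Fintype Ω'] (f : Ω × Ω' → ℝ) :
    ex f = ex (fun a => ex (fun b => f (a, b))) := by
  unfold ex
  rw [Fintype.sum_prod_type, Fintype.card_prod, ← sum_div, div_div, Nat.cast_mul, mul_comm]

theorem dens1_mul (a b : ℕ) (P : ℤ → Prop) :
    dens1 (a * b) P = ex (fun x : Fin a => dens1 b fun y => P (y + b * ((x : ℕ) : ℤ))) := by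
  classical
  unfold dens1
  rw [← pr_equiv finProdFinEquiv, pr_eq_ex, ex_prod2]
  simp only [pr_eq_ex, finProdFinEquiv_apply_val, Nat.cast_add, Nat.cast_mul]

theorem dens2_eq_zmod (N : ℕ) [NeZero N] (P : ℤ × ℤ → Prop) :
    dens2 N P = pr (fun x : ZMod N × ZMod N => P ((x.1.val : ℤ), (x.2.val : ℤ))) := by
  obtain ⟨n, rfl⟩ := Nat.exists_eq_succ_of_ne_zero (NeZero.ne N)
  rfl

theorem per2_congr {N : ℕ} {P : ℤ × ℤ → Prop} (hP : Per2 N P) {x y : ℤ × ℤ}
    (h1 : (x.1 : ZMod N) = y.1) (h2 : (x.2 : ZMod N) = y.2) : P x ↔ P y := by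
  obtain ⟨a, ha⟩ := (ZMod.intCast_eq_intCast_iff_dvd_sub _ _ _).1 h1
  obtain ⟨b, hb⟩ := (ZMod.intCast_eq_intCast_iff_dvd_sub _ _ _).1 h2
  rw [← hP.smul x (a, b)]
  refine Iff.of_eq (congrArg P (Prod.ext ?_ ?_))
  · simp [← ha]
  · simp [← hb]

theorem box {Ω T : Type} [Fintype Ω] [Nonempty Ω] [Fintype T] [Nonempty T] (E : Ω → T → Prop)
    {c ε : ℝ} (h1 : ∀ t, pr (fun ω => E ω t) = c) (h2 : ∀ ω, pr (E ω) ≤ ε) : c ≤ ε := by
  classical
  rw [← ex_const (Ω := T) c, ← ex_const (Ω := Ω) ε]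
  refine le_trans (le_of_eq ?_) (ex_mono h2)
  rw [show (fun _ : T => c) = fun t => pr fun ω => E ω t from funext fun t => (h1 t).symm]
  simp only [pr_eq_ex]
  exact ex_comm _

end PrAux

open PrAux

/-- a unimodular change of coordinates -/
theorem dens2_basis {N : ℕ} {P : ℤ × ℤ → Prop} (hP : Per2 N P) (v u : ℤ × ℤ)
    (h : lam v u = 1) : dens2 N (fun x => P (x.1 • v + x.2 • u)) = dens2 N P := by
  rcases Nat.eq_zero_or_pos N with rfl | hN
  · exact pr_congr fun x => x.1.elim0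
  have : NeZero N := ⟨hN.ne'⟩
  have h' : (v.1 : ZMod N) * u.2 - v.2 * u.1 = 1 := by
    exact_mod_cast congrArg (Int.cast : ℤ → ZMod N) h
  let e : ZMod N × ZMod N ≃ ZMod N × ZMod N :=
    { toFun := fun x => (x.1 * v.1 + x.2 * u.1, x.1 * v.2 + x.2 * u.2)
      invFun := fun x => (x.1 * u.2 - x.2 * u.1, v.1 * x.2 - v.2 * x.1)
      left_inv := fun x => Prod.ext (by linear_combination x.1 * h') (by linear_combination x.2 * h')
      right_inv := fun x =>
        Prod.ext (by linear_combination x.1 * h') (by linear_combination x.2 * h') }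
  rw [dens2_eq_zmod, dens2_eq_zmod,
    ← pr_equiv e fun x : ZMod N × ZMod N => P ((x.1.val : ℤ), (x.2.val : ℤ))]
  exact pr_congr fun x => per2_congr hP (by simp [e]) (by simp [e])

/-- a primitive linear form pushes the density on `ℤ²` to the density on `ℤ` -/
theorem dens2_lam {N : ℕ} (hN : 0 < N) {P : ℤ → Prop} (hP : Per1 N P) (v u : ℤ × ℤ)
    (h : lam v u = 1) : dens2 N (fun x => P (lam v x)) = dens1 N P := by
  have : Nonempty (Fin N) := ⟨⟨0, hN⟩⟩
  have hQ : Per2 N fun x => P (lam v x) := per2_of_smul fun x y => by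
    rw [← hP.mul (lam v x) (lam v y)]
    refine Iff.of_eq (congrArg P ?_)
    simp only [lam, Prod.fst_add, Prod.snd_add, Prod.smul_fst, Prod.smul_snd, smul_eq_mul]
    ring
  rw [← dens2_basis hQ v u h, dens2_eq_ex, ← ex_const (Ω := Fin N) (dens1 N P)]
  congr 1
  funext s
  congr 1
  funext t
  congr 1
  simp only [lam, Prod.fst_add, Prod.snd_add, Prod.smul_fst, Prod.smul_snd, smul_eq_mul] at h ⊢
  linear_combination t * h

/-- averaging over translates -/
theorem dens1_box {N : ℕ} (hN : 0 < N) {P : ℤ → Prop} (hP : Per1 N P) {T : Type} [Fintype T]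
    [Nonempty T] (w : T → ℤ) {ε : ℝ} (h : ∀ m, pr (fun t => P (m + w t)) ≤ ε) :
    dens1 N P ≤ ε := by
  have : Nonempty (Fin N) := ⟨⟨0, hN⟩⟩
  refine box (fun (m : Fin N) t => P (((m : ℕ) : ℤ) + w t)) (fun t => ?_) fun m => h _
  rw [← dens1_shift hP (w t)]
  exact pr_congr fun m => by rw [add_comm]

/-- averaging over translates -/
theorem dens2_box {N : ℕ} (hN : 0 < N) {P : ℤ × ℤ → Prop} (hP : Per2 N P) {T : Type} [Fintype T]
    [Nonempty T] (w : T → ℤ × ℤ) {ε : ℝ} (h : ∀ x, pr (fun t => P (x + w t)) ≤ ε) :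
    dens2 N P ≤ ε := by
  have : Nonempty (Fin N) := ⟨⟨0, hN⟩⟩
  refine box (fun (x : Fin N × Fin N) t => P ((((x.1 : ℕ) : ℤ), ((x.2 : ℕ) : ℤ)) + w t))
    (fun t => ?_) fun m => h _
  rw [← dens2_shift hP (w t)]
  exact pr_congr fun m => by rw [add_comm]

/-- splitting off the last digit in base `r` -/
theorem dens1_digit {N r : ℕ} (hr : 0 < r) {P : ℤ → Prop} (hP : Per1 N P) (s : ℤ) :
    ex (fun b : Fin r => dens1 N (fun m => P (s + ((b : ℕ) : ℤ) + r * m))) = dens1 N P := by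
  classical
  have : Nonempty (Fin r) := ⟨⟨0, hr⟩⟩
  have h1 := dens1_mul N r fun m => P (s + m)
  rw [mul_comm, dens1_mul] at h1
  simp only [← add_assoc, hP.mul, dens1_shift hP, ex_const] at h1
  rw [h1]
  unfold dens1
  simp only [pr_eq_ex]
  exact ex_comm _

end Crest.Agent.R46
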