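import Crest.Agent.R46.SemDigit
import Crest.Agent.R46.Pr

/-! Digits, holes and their density. -/

set_option autoImplicit false
set_option linter.unusedSectionVars false

namespace Crest.Agent.R46

open Finset Crest.CombinatoricsR.Tiling Crest.Agent.R34

theorem outSem_pr_le {Ω : Type} [Fintype Ω] {E : Ω → Prop} (h : ∀ t t', E t → E t' → t = t') :
    pr E ≤ 1 / (Fintype.card Ω : ℝ) := by
  classical
  rw [pr_eq_card]
  refine div_le_div_of_nonneg_right ?_ (Nat.cast_nonneg _)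
  exact_mod_cast card_le_one.2 fun a ha b hb => h a b (mem_filter.1 ha).2 (mem_filter.1 hb).2

theorem outSem_const {q : ℕ} [NeZero q] {B : Type} {g : ZMod q → B} (h : ∀ w, g (w + 1) = g w)
    (w : ZMod q) : g w = g 0 := by
  have key : ∀ m : ℕ, g (m : ZMod q) = g 0 := fun m => by
    induction m with
    | zero => rw [Nat.cast_zero]
    | succ m ih => rw [Nat.cast_succ, h, ih]
  rw [← key w.val, ZMod.natCast_zmod_val]

theorem outSem_per {N : ℕ} {B : Type} {g : ℤ → B} (h : ∀ m, g (m + N) = g m) (m k : ℤ) :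
    g (m + N * k) = g m :=
  (Per1.mul (N := N) (P := fun a => g a = g m) (fun a => by simp only [h]) m k).2 rfl

namespace Setup

variable {F A : Type} (S : Setup F A) [Fintype F] [Fintype A] [DecidableEq F] [DecidableEq A]

theorem out_of_sem {N : ℕ} (hN : 0 < N) (M : S.Sem N) (r P₀ : ℕ) (hr : r.Prime) (hP0 : 0 < P₀)
    (hp : ∀ c, r < S.p c ∧ P₀ ≤ S.p c) :
    ∃ (f : F → ℤ → A) (hole : F → ℤ × ℤ → Prop), S.Out N r P₀ f hole := by
  classical
  obtain ⟨f, hfN, hf⟩ := S.sem_digit M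
  have hlamv : ∀ n (x : ℤ × ℤ) (t : ℤ), lam (S.v n) (x + t • S.v n) = lam (S.v n) x :=
    fun n x t => by rw [lam_add, lam_smul, lam_self, mul_zero, add_zero]
  have hsel := fun n x w => S.sem_sel M n (f n (lam (S.v n) x)) x
    (fun t => by have := hf n (x + t • S.v n); rwa [hlamv] at this) w
  let H : F → A → ℤ × ℤ → Prop := fun n e x => ∀ l w, M.β n e l x (w + 1) = M.β n e l x w
  let bad : F → ℤ × ℤ → Prop := fun n x => ∃ l : ℕ, ∀ w, InL (S.q n) l (M.d n x w)
  refine ⟨f, fun n x => H n (f n (lam (S.v n) x)) x, hfN, fun J τ x hJ hτ => ?_,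
    fun n j x₀ hcop => ?_, fun n m₀ => ?_⟩
  · by_contra hc
    have hex : ∀ n, ∃ (l : Fin S.Λ) (w : ZMod (S.q n)),
        n ∈ J → M.β n (τ n) l x (w + 1) ≠ M.β n (τ n) l x w := fun n => by
      by_cases hn : n ∈ J
      · have h1 : ¬ H n (τ n) x := fun h => hc ⟨n, hn, by rw [hτ n hn]; exact h⟩
        simp only [H, not_forall] at h1
        obtain ⟨l, w, h1⟩ := h1
        exact ⟨l, w, fun _ => h1⟩
      · exact ⟨⟨0, (Nat.zero_le _).trans_lt (S.q_lt n)⟩, 0, fun h => absurd h hn⟩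
    choose l w hlw using hex
    obtain ⟨n, hn, h⟩ := M.s4 J τ l hJ x w
    exact hlw n hn h
  · have hq := S.q_prime n
    have : NeZero (S.q n) := ⟨hq.ne_zero⟩
    have hshift : ∀ x y : ℤ × ℤ, x₀ + ((r : ℤ) ^ j) • (x + (N : ℤ) • y) =
        x₀ + ((r : ℤ) ^ j) • x + (N : ℤ) • (((r : ℤ) ^ j) • y) := fun x y => by
      rw [smul_add, smul_comm ((r : ℤ) ^ j) (N : ℤ) y, add_assoc]
    have hbadN : ∀ x y : ℤ × ℤ, bad n (x + (N : ℤ) • y) ↔ bad n x := fun x y => M.bad_N n x y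
    have hholeN : ∀ x y : ℤ × ℤ, H n (f n (lam (S.v n) (x + (N : ℤ) • y))) (x + (N : ℤ) • y) ↔
        H n (f n (lam (S.v n) x)) x := fun x y => by
      rw [lam_add, lam_smul, outSem_per (hfN n)]
      simp only [H, M.β_N]
    have h1 : dens2 N (fun x => bad n (x₀ + ((r : ℤ) ^ j) • x)) ≤ 2 / (S.q n : ℝ) := by
      refine dens2_box hN (per2_of_smul fun x y => by rw [hshift, hbadN])
        (T := Fin (S.q n) × Fin (S.q n))
        (fun t => (4 * ((t.1 : ℕ) : ℤ)) • S.v n + (4 * ((t.2 : ℕ) : ℤ)) • S.u n) fun x => ?_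
      have hc : ((4 * (r : ℤ) ^ j : ℤ) : ZMod (S.q n)) ≠ 0 := by
        rw [Ne, ZMod.intCast_zmod_eq_zero_iff_dvd]
        intro hd
        have h2 : IsCoprime ((r : ℤ) ^ j) (S.q n : ℤ) := by
          have := Nat.isCoprime_iff_coprime.2 hcop
          rwa [Nat.cast_pow] at this
        have h3 := ((S.cop_four_q n).mul_left h2).isUnit_of_dvd' hd dvd_rfl
        have h4 := S.q_two n
        rcases Int.isUnit_iff.1 h3 with h | h <;> omega
      refine le_trans (le_of_eq (pr_congr fun t => ?_))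
        (M.bad n (x₀ + ((r : ℤ) ^ j) • x) (4 * (r : ℤ) ^ j) (dvd_mul_right _ _) hc)
      have e : x₀ + ((r : ℤ) ^ j) •
          (x + ((4 * ((t.1 : ℕ) : ℤ)) • S.v n + (4 * ((t.2 : ℕ) : ℤ)) • S.u n)) =
          x₀ + ((r : ℤ) ^ j) • x + (4 * (r : ℤ) ^ j * ((t.1 : ℕ) : ℤ)) • S.v n +
            (4 * (r : ℤ) ^ j * ((t.2 : ℕ) : ℤ)) • S.u n := by
        module
      rw [e]
    have h2 : dens2 N (fun x => ¬ bad n (x₀ + ((r : ℤ) ^ j) • x) ∧
        H n (f n (lam (S.v n) (x₀ + ((r : ℤ) ^ j) • x))) (x₀ + ((r : ℤ) ^ j) • x)) ≤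
        1 / (P₀ : ℝ) := by
      have : Nonempty (Fin P₀) := ⟨⟨0, hP0⟩⟩
      refine dens2_box hN (per2_of_smul fun x y => by rw [hshift, hbadN, hholeN])
        (T := Fin P₀) (fun t => (4 * (S.q n : ℤ) ^ 2 * ((t : ℕ) : ℤ)) • S.v n) fun x => ?_
      set y := x₀ + ((r : ℤ) ^ j) • x with hy
      have e : ∀ t : Fin P₀, x₀ + ((r : ℤ) ^ j) •
          (x + (4 * (S.q n : ℤ) ^ 2 * ((t : ℕ) : ℤ)) • S.v n) =
          y + (4 * (S.q n : ℤ) ^ 2 * (r : ℤ) ^ j * ((t : ℕ) : ℤ)) • S.v n := fun t => by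
        rw [hy]; module
      simp only [e, hlamv]
      refine (outSem_pr_le fun t t' ht ht' => ?_).trans (by rw [Fintype.card_fin])
      obtain ⟨l, -, -, hl⟩ := hsel n y 0
      have hnb : ¬ bad n y := fun hb => ht.1 (by
        obtain ⟨L, hL⟩ := hb
        refine ⟨L, fun w => ?_⟩
        rw [mul_assoc, mul_smul, M.d_per]
        exact hL w)
      obtain ⟨w, hw⟩ : ∃ w, ¬ InL (S.q n) l (M.d n y w) := by
        by_contra hc
        push Not at hc
        exact hnb ⟨l, hc⟩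
      have key : ∀ s : Fin P₀, H n (f n (lam (S.v n) y))
          (y + (4 * (S.q n : ℤ) ^ 2 * (r : ℤ) ^ j * ((s : ℕ) : ℤ)) • S.v n) →
          M.β n _ l y w = M.β n _ l y 0 +
            ((4 * (S.q n : ℤ) ^ 2 * (r : ℤ) ^ j * ((s : ℕ) : ℤ) : ℤ) :
              ZMod (S.p (.be n (f n (lam (S.v n) y)) l))) := fun s hs => by
        have hd : 4 * (S.q n : ℤ) ^ 2 ∣ 4 * (S.q n : ℤ) ^ 2 * (r : ℤ) ^ j * ((s : ℕ) : ℤ) :=
          (dvd_mul_right _ _).mul_right _
        rw [← hl _ hd, ← S.sem_flat M n _ l y w hw _ hd]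
        exact outSem_const (hs l) w
      have h3 := add_left_cancel ((key t ht.2).symm.trans (key t' ht'.2))
      rw [ZMod.intCast_eq_intCast_iff_dvd_sub, ← mul_sub] at h3
      set c : S.C := .be n (f n (lam (S.v n) y)) l with hc
      have hcop1 : IsCoprime (4 * (S.q n : ℤ) ^ 2) (S.p c : ℤ) :=
        S.cop_fourq2_md n c (by simp [hc]) (by simp [hc])
      have hcop2 : IsCoprime (r : ℤ) (S.p c : ℤ) :=
        Nat.isCoprime_iff_coprime.2 ((Nat.coprime_primes hr (S.p_prime c)).2 (hp c).1.ne)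
      have h4 : (S.p c : ℤ) ∣ ((t' : ℕ) : ℤ) - ((t : ℕ) : ℤ) :=
        (hcop1.mul_left hcop2.pow_left).symm.dvd_of_dvd_mul_left h3
      have h5 := (hp c).2
      have h6 := Int.eq_zero_of_abs_lt_dvd h4 (by
        have := t.2
        have := t'.2
        rw [abs_lt]; constructor <;> omega)
      exact Fin.ext (by omega)
    refine le_trans (dens2_mono fun x hx => ?_) ((dens2_or_le N _ _).trans (add_le_add h1 h2))
    by_cases hb : bad n (x₀ + ((r : ℤ) ^ j) • x)
    · exact Or.inl hb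
    · exact Or.inr ⟨hb, hx⟩
  · obtain ⟨t, w, ς, hς, hd1, hs⟩ := M.sweep n (m₀ • S.u n)
    refine ⟨(M.d n (m₀ • S.u n + t • S.v n) w).1, (M.d n (m₀ • S.u n + t • S.v n) w).2, ς, hd1, hς,
      fun s => ?_⟩
    obtain ⟨l, hal, hin, -⟩ := hsel n (m₀ • S.u n + t • S.v n + (4 * s) • S.u n) w
    have hlam : lam (S.v n) (m₀ • S.u n + t • S.v n + (4 * s) • S.u n) = m₀ + 4 * s := by
      rw [lam_add, hlamv, lam_smul, lam_smul, S.det, mul_one, mul_one]
    rw [hlam] at hal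
    rw [hs s] at hin
    unfold InL at hin
    split_ifs at hin with hl
    · simp only [Prod.snd_add, Prod.fst_add, add_zero] at hin
      rw [hin, mul_div_cancel_right₀ _ hd1]
      exact hal hl
    · simp only [Prod.fst_add, add_zero] at hin
      exact absurd hin hd1

end Setup

end Crest.Agent.R46
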