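import Crest.Agent.R46.QTrans

/-! The difference vector of a site and its partner. -/

set_option autoImplicit false
set_option linter.unusedSectionVars false

namespace Crest.Agent.R46

open Finset Crest.CombinatoricsR.Tiling Crest.Agent.R34

namespace QAnaAux

theorem iter_const {α : Type} (P : ℤ × ℤ → α) (l : ℤ × ℤ) (hP : ∀ x, P (x + l) = P x) (s : ℤ)
    (x : ℤ × ℤ) : P (x + s • l) = P x := by
  induction s using Int.induction_on with
  | zero => simp
  | succ i ih => rw [add_smul, one_smul, ← add_assoc, hP, ih]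
  | pred i ih => rw [← ih, ← hP (x + (-(i : ℤ) - 1) • l)]; congr 1; rw [sub_smul, one_smul]; abel

theorem iter {G : Type} [AddCommGroup G] (f P : ℤ × ℤ → G) (l : ℤ × ℤ)
    (hP : ∀ x, P (x + l) = P x) (h : ∀ x, f (x + l) = f x + P x) (s : ℤ) (x : ℤ × ℤ) :
    f (x + s • l) = f x + s • P x := by
  induction s using Int.induction_on with
  | zero => simp
  | succ i ih =>
    rw [add_smul, one_smul, ← add_assoc, h, ih, iter_const P l hP, add_smul, one_smul, add_assoc]
  | pred i ih =>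
    have h1 := h (x + (-(i : ℤ) - 1) • l)
    have h2 : x + (-(i : ℤ) - 1) • l + l = x + (-(i : ℤ)) • l := by
      rw [sub_smul, one_smul]; abel
    rw [h2, ih, iter_const P l hP] at h1
    rw [sub_smul _ _ (P x), one_smul, ← add_sub_assoc, h1, add_sub_cancel_right]

theorem pr_le_of_inj {q : ℕ} (hq : 0 < q) (E : Fin q × Fin q → Prop) (φ : Fin q × Fin q → Fin q)
    (h : ∀ t t', E t → E t' → φ t = φ t' → t = t') : pr E ≤ 1 / (q : ℝ) := by
  classical
  rw [pr_eq_card]
  have h1 : (univ.filter E).card ≤ q := by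
    have := card_le_card_of_injOn (s := univ.filter E) (t := (univ : Finset (Fin q))) φ
      (fun _ _ => mem_coe.2 (mem_univ _))
      (fun t ht t' ht' => h t t' (mem_filter.1 ht).2 (mem_filter.1 ht').2)
    simpa using this
  have h2 : (0 : ℝ) < q := by exact_mod_cast hq
  have h3 : ((univ.filter E).card : ℝ) ≤ q := by exact_mod_cast h1
  rw [Fintype.card_prod, Fintype.card_fin, div_le_div_iff₀ (by positivity) h2]
  push_cast
  nlinarith

variable {q : ℕ} [hq : Fact q.Prime]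

/-- the last digit -/
def dig (q : ℕ) : ZMod (q ^ 3) →+* ZMod q := ZMod.castHom (dvd_pow_self q three_ne_zero) (ZMod q)

/-- the last two digits -/
def red (q : ℕ) : ZMod (q ^ 3) →+* ZMod (q ^ 2) :=
  ZMod.castHom (pow_dvd_pow q (by norm_num)) (ZMod (q ^ 2))

theorem dig_apply (y : ZMod (q ^ 3)) : dig q y = (ZMod.cast y : ZMod q) := rfl

theorem mem_iff_dig (y : ZMod (q ^ 3)) :
    y ∈ AddSubgroup.zmultiples ((q : ℕ) : ZMod (q ^ 3)) ↔ dig q y = 0 := by
  constructor
  · rintro ⟨k, rfl⟩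
    simp
  · intro h
    obtain ⟨a, rfl⟩ := ZMod.intCast_surjective y
    rw [map_intCast, ZMod.intCast_zmod_eq_zero_iff_dvd] at h
    obtain ⟨k, rfl⟩ := h
    exact ⟨k, by simp [mul_comm]⟩

theorem red_q2 : red q (((q : ℕ) : ZMod (q ^ 3)) ^ 2) = 0 := by
  rw [map_pow, map_natCast, ← Nat.cast_pow, ZMod.natCast_self]

theorem red_of_mem {y : ZMod (q ^ 3)}
    (h : y ∈ AddSubgroup.zmultiples (((q : ℕ) : ZMod (q ^ 3)) ^ 2)) : red q y = 0 := by
  obtain ⟨k, rfl⟩ := h
  simp only [map_zsmul, red_q2, smul_zero]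

theorem val_mul_congr {j : ℕ} (a : ZMod q) (b : ℤ) (h : a = (b : ZMod q)) :
    ((a.val : ℕ) : ZMod (q ^ (j + 1))) * (q : ZMod (q ^ (j + 1))) ^ j =
      (b : ZMod (q ^ (j + 1))) * (q : ZMod (q ^ (j + 1))) ^ j := by
  have h1 : (((a.val : ℕ) : ℤ) : ZMod q) = (b : ZMod q) := by simp [h]
  rw [ZMod.intCast_eq_intCast_iff_dvd_sub] at h1
  obtain ⟨k, hk⟩ := h1
  have h2 : b = (a.val : ℤ) + q * k := by linarith
  have h3 : ((q : ZMod (q ^ (j + 1))) ^ (j + 1)) = 0 := by
    rw [← Nat.cast_pow, ZMod.natCast_self]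
  rw [h2]
  push_cast
  linear_combination (-(k : ZMod (q ^ (j + 1)))) * h3

/-- `a ↦ a q^j` -/
def up (q j : ℕ) [Fact q.Prime] : ZMod q →+ ZMod (q ^ (j + 1)) where
  toFun a := ((a.val : ℕ) : ZMod (q ^ (j + 1))) * (q : ZMod (q ^ (j + 1))) ^ j
  map_zero' := by simp
  map_add' a b := by
    rw [val_mul_congr (a + b) ((a.val : ℤ) + (b.val : ℤ)) (by simp)]
    push_cast
    ring

theorem up_apply (j : ℕ) (a : ZMod q) :
    up q j a = ((a.val : ℕ) : ZMod (q ^ (j + 1))) * (q : ZMod (q ^ (j + 1))) ^ j := rfl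

theorem up_one (j : ℕ) : up q j 1 = (q : ZMod (q ^ (j + 1))) ^ j := by
  rw [up_apply, val_mul_congr 1 1 (by simp)]; simp

theorem up_inj (j : ℕ) : Function.Injective (up q j) := by
  rw [injective_iff_map_eq_zero]
  intro a ha
  rw [up_apply, ← Nat.cast_pow, ← Nat.cast_mul, ZMod.natCast_eq_zero_iff, pow_succ'] at ha
  have := Nat.dvd_of_mul_dvd_mul_right (pow_pos hq.out.pos j) ha
  rw [← ZMod.natCast_zmod_val a, ZMod.natCast_eq_zero_iff]
  exact this

/-- the sign of a type -/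
def sg (q : ℕ) (b : Bool) : ZMod (q ^ 3) := if b then -1 else 1

variable {R : ℤ × ℤ → ZMod (q ^ 3) → ZMod (q ^ 3)} {typ : ℤ × ℤ → Bool} {m l : ℤ × ℤ}

/-- the zero of `R x` with last digit `w` -/
def Gam (R : ℤ × ℤ → ZMod (q ^ 3) → ZMod (q ^ 3)) (x : ℤ × ℤ) (w : ZMod q) : ZMod (q ^ 3) :=
  (w.val : ZMod (q ^ 3)) - R x (w.val : ZMod (q ^ 3))

theorem dig_Gam (h : QHyp q R typ m l) (x : ℤ × ℤ) (w : ZMod q) : dig q (Gam R x w) = w := by
  unfold Gam
  rw [map_sub, (mem_iff_dig _).1 (h.mem _ _)]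
  simp

theorem R_eq (h : QHyp q R typ m l) (x : ℤ × ℤ) (y : ZMod (q ^ 3)) :
    R x y = y - Gam R x (dig q y) := by
  have h1 := h.equiv x ((dig q y).val : ZMod (q ^ 3)) (y - ((dig q y).val : ZMod (q ^ 3)))
    ((mem_iff_dig _).2 (by simp))
  rw [add_sub_cancel] at h1
  rw [h1, Gam]; ring

theorem red_iter (h : QHyp q R typ m l) (x : ℤ × ℤ) (y : ZMod (q ^ 3)) (k : ℤ) :
    red q (R (x + k • m) (y + (k : ZMod (q ^ 3)) * sg q (typ x))) = red q (R x y) := by
  have key : ∀ x y, red q (R (x + m) (y + sg q (typ x))) = red q (R x y) := fun x y => by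
    have := red_of_mem (h.q1 x y)
    rwa [map_sub, sub_eq_zero] at this
  induction k using Int.induction_on with
  | zero => simp
  | succ i ih =>
    have := key (x + (i : ℤ) • m) (y + (((i : ℕ) : ℤ) : ZMod (q ^ 3)) * sg q (typ x))
    rw [iter_const typ m h.typ_m] at this
    rw [← ih, ← this]
    congr 2
    · rw [add_smul, one_smul, add_assoc]
    · push_cast; ring
  | pred i ih =>
    have := key (x + (-(i : ℤ) - 1) • m) (y + ((-(i : ℤ) - 1 : ℤ) : ZMod (q ^ 3)) * sg q (typ x))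
    rw [iter_const typ m h.typ_m] at this
    rw [← this, ← ih]
    congr 2
    · rw [sub_smul, one_smul]; abel
    · push_cast; ring

theorem red_shift (h : QHyp q R typ m l) (x : ℤ × ℤ) (y : ZMod (q ^ 3)) (κ : ZMod q) :
    red q (R (x - ((κ.val : ℤ) * q) • m) y) = red q (R x y) + red q (sg q (typ x)) * up q 1 κ := by
  have h1 := red_iter h x y (-((κ.val : ℤ) * q))
  rw [h.equiv _ _ _ ((mem_iff_dig _).2 (by simp)), map_add, neg_smul, ← sub_eq_add_neg] at h1
  rw [← h1, up_apply]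
  simp only [map_mul, map_intCast]
  push_cast
  ring

theorem Gam_m (h : QHyp q R typ m l) (x : ℤ × ℤ) (w : ZMod q) :
    red q (Gam R (x + m) (w + dig q (sg q (typ x)))) =
      red q (Gam R x w) + red q (sg q (typ x)) := by
  have h1 := red_iter h x (Gam R x w) 1
  rw [R_eq h, R_eq h x, one_smul, Int.cast_one, one_mul, map_add (dig q), dig_Gam h, sub_self,
    map_zero, map_sub, map_add, sub_eq_zero] at h1
  exact h1.symm

theorem sum_Gam_m (h : QHyp q R typ m l) (x : ℤ × ℤ) :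
    ∑ w, red q (Gam R (x + m) w) = ∑ w, red q (Gam R x w) + q * red q (sg q (typ x)) := by
  rw [← Equiv.sum_comp (Equiv.addRight (dig q (sg q (typ x))))]
  simp only [Equiv.coe_addRight, Gam_m h, sum_add_distrib, sum_const, card_univ, ZMod.card,
    nsmul_eq_mul]

theorem Gam_l (h : QHyp q R typ m l) (x : ℤ × ℤ) (w : ZMod q) :
    Gam R (x + l) w = Gam R x w + if typ x then ((q : ℕ) : ZMod (q ^ 3)) ^ 2 else 0 := by
  have h1 := h.q2 x (Gam R x w)
  have h2 : dig q (if typ x then ((q : ℕ) : ZMod (q ^ 3)) ^ 2 else 0) = 0 := by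
    split_ifs <;> simp
  rw [R_eq h, R_eq h x, map_add, h2, add_zero, dig_Gam h, sub_self, sub_eq_zero] at h1
  exact h1.symm

end QAnaAux

open QAnaAux in
/-- the difference vectors `d x w` of a site `x` and its partner `σ x` -/
theorem q_ana {q : ℕ} [Fact q.Prime] (hq2 : 2 < q) {R : ℤ × ℤ → ZMod (q ^ 3) → ZMod (q ^ 3)}
    {typ : ℤ × ℤ → Bool} {m l : ℤ × ℤ} (h : QHyp q R typ m l) (σ : ℤ × ℤ → ℤ × ℤ)
    (σ_m : ∀ x, σ (x + m) = σ x + m) (σ_l : ∀ x, σ (x + l) = σ x + l)
    (typ_σ : ∀ x, typ (σ x) = !typ x) :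
    ∃ d : ℤ × ℤ → ZMod q → ZMod q × ZMod q,
      (∀ x y (κ : ZMod q × ZMod q), R x y = 0 → R (σ x - ((κ.1.val : ℤ) * q) • m)
        (y - (κ.2.val : ZMod (q ^ 3)) * (q : ZMod (q ^ 3)) ^ 2) = 0 →
        κ = d x (ZMod.cast y : ZMod q)) ∧
      (∀ τ : ℤ × ℤ, (∀ x y, R (x + τ) y = R x y) → (∀ x, σ (x + τ) = σ x + τ) →
        ∀ x w, d (x + τ) w = d x w) ∧
      (∀ x (c : ℤ), (c : ZMod q) ≠ 0 →
        pr (fun t : Fin q × Fin q => ∃ L : ℕ, ∀ w, InL q L
          (d (x + (c * ((t.1 : ℕ) : ℤ)) • m + (c * ((t.2 : ℕ) : ℤ)) • l) w)) ≤ 2 / (q : ℝ)) ∧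
      ∀ x, ∃ (t : ℤ) (w ς : ZMod q), (ς = 1 ∨ ς = -1) ∧ (d (x + t • m) w).1 ≠ 0 ∧
        ∀ s : ℤ, d (x + t • m + s • l) w = d (x + t • m) w + (0, ς * (s : ZMod q)) := by
  have hq : q.Prime := Fact.out
  choose d hd hu using fun x w => q_trans hq h (σ x) (Gam R x w)
  simp only at hd hu
  have two_ne : (2 : ZMod q) ≠ 0 := by
    intro h2
    have : ((2 : ℕ) : ZMod q) = 0 := by exact_mod_cast h2
    rw [ZMod.natCast_eq_zero_iff] at this
    exact absurd (Nat.le_of_dvd two_pos this) (by omega)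
  -- the step `l`
  let ς : ℤ × ℤ → ZMod q := fun x => if typ x then 1 else -1
  have hς : ∀ x, ς x = 1 ∨ ς x = -1 := fun x => by
    simp only [ς]; split_ifs <;> simp
  have dl : ∀ x w, d (x + l) w = d x w + (0, ς x) := fun x w => by
    symm
    apply hu
    have h1 := h.q2 (σ x - (((d x w).1.val : ℤ) * q) • m)
      (Gam R x w - ((d x w).2.val : ZMod (q ^ 3)) * (q : ZMod (q ^ 3)) ^ 2)
    rw [hd, sub_eq_add_neg (σ x), ← neg_smul, iter_const typ m h.typ_m, typ_σ] at h1
    rw [← h1, σ_l, Gam_l h]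
    congr 1
    · simp only [Prod.fst_add, add_zero, neg_smul]; abel
    · have e1 := (up q 2).map_add (d x w).2 (ς x)
      have e2 := up_one (q := q) 2
      have e3 : up q 2 (-1) = -(q : ZMod (q ^ 3)) ^ 2 := by rw [map_neg, e2]
      rw [up_apply, up_apply 2 (d x w).2] at e1
      simp only [Prod.snd_add]
      refine Eq.trans (congrArg (fun z => _ - z) e1) ?_
      simp only [ς]
      cases typ x
      · simp only [Bool.false_eq_true, if_false, Bool.not_false, if_true, e3]; ring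
      · simp only [Bool.false_eq_true, if_false, Bool.not_true, if_true, e2]; ring
  have dls : ∀ x w (s : ℤ), d (x + s • l) w = d x w + (0, ς x * (s : ZMod q)) := fun x w s => by
    rw [iter (fun x => d x w) (fun x => ((0 : ZMod q), ς x)) l
      (fun x => by simp only [ς, h.typ_l]) (fun x => dl x w) s x]
    simp [mul_comm]
  -- the step `m`
  have d1 : ∀ x w, red q (sg q (typ (σ x))) * up q 1 (d x w).1 =
      red q (Gam R (σ x) w) - red q (Gam R x w) := fun x w => by
    have h1 := congrArg (red q) (hd x w)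
    rw [sub_eq_add_neg (Gam R x w), h.equiv _ _ _ ((mem_iff_dig _).2 (by simp)), map_add,
      red_shift h, R_eq h, dig_Gam h, map_neg, map_mul, red_q2, map_sub, map_zero] at h1
    linear_combination h1
  have sgsq : ∀ b, red q (sg q b) * red q (sg q b) = 1 := fun b => by
    cases b <;> simp [sg]
  have sgnot : ∀ b, red q (sg q (!b)) = -red q (sg q b) := fun b => by
    cases b <;> simp [sg]
  let D : ℤ × ℤ → ZMod q := fun x => ∑ w, (d x w).1
  have hD : ∀ x, red q (sg q (typ (σ x))) * up q 1 (D x) =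
      ∑ w, red q (Gam R (σ x) w) - ∑ w, red q (Gam R x w) := fun x => by
    simp only [D, map_sum, mul_sum, d1, sum_sub_distrib]
  have Dm : ∀ x, D (x + m) = D x + 2 := fun x => by
    apply up_inj 1
    have h1 := hD (x + m)
    have h2 := hD x
    rw [σ_m, sum_Gam_m h, sum_Gam_m h, h.typ_m] at h1
    have h3 : up q 1 2 = 2 * q := by
      rw [← one_add_one_eq_two, map_add, up_one]; ring
    have h4 := sgsq (typ (σ x))
    have h5 := sgnot (typ x)
    rw [← typ_σ] at h5
    rw [map_add, h3]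
    linear_combination (red q (sg q (typ (σ x)))) * (h1 - h2) -
      (up q 1 (D (x + m)) - up q 1 (D x) - 2 * q) * h4 -
      (q * red q (sg q (typ (σ x)))) * h5
  have Dms : ∀ x (s : ℤ), D (x + s • m) = D x + 2 * (s : ZMod q) := fun x s => by
    rw [iter D (fun _ => 2) m (fun _ => rfl) Dm s x]
    simp [mul_comm]
  have exw : ∀ x, D x ≠ 0 → ∃ w, (d x w).1 ≠ 0 := fun x hx => by
    by_contra hc
    push Not at hc
    exact hx (sum_eq_zero fun w _ => hc w)
  have finj : ∀ a b : Fin q, (((a : ℕ) : ℤ) : ZMod q) = (((b : ℕ) : ℤ) : ZMod q) → a = b :=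
    fun a b hab => by
      have h1 : ((a : ℕ) : ZMod q) = ((b : ℕ) : ZMod q) := by exact_mod_cast hab
      have h2 := congrArg ZMod.val h1
      rw [ZMod.val_cast_of_lt a.2, ZMod.val_cast_of_lt b.2] at h2
      exact Fin.ext h2
  refine ⟨d, fun x y κ hy hκ => ?_, fun τ hτ hσ x w => ?_, fun x c hc => ?_, fun x => ?_⟩
  · apply hu
    rw [R_eq h, sub_eq_zero] at hy
    rw [← dig_apply, ← hy]
    exact hκ
  · symm
    apply hu
    have h1 : Gam R (x + τ) w = Gam R x w := by simp only [Gam, hτ]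
    rw [h1, hσ, add_sub_right_comm, hτ]
    exact hd x w
  · refine (pr_mono (E' := fun t => D (x + (c * ((t.1 : ℕ) : ℤ)) • m) = 0 ∨
      (D (x + (c * ((t.1 : ℕ) : ℤ)) • m) ≠ 0 ∧ ∃ L : ℕ, ∀ w, InL q L
        (d (x + (c * ((t.1 : ℕ) : ℤ)) • m + (c * ((t.2 : ℕ) : ℤ)) • l) w))) fun t ht => ?_).trans ?_
    · by_cases h0 : D (x + (c * ((t.1 : ℕ) : ℤ)) • m) = 0
      · exact Or.inl h0
      · exact Or.inr ⟨h0, ht⟩
    refine (pr_or_le _ _).trans ?_
    rw [show (2 : ℝ) / q = 1 / q + 1 / q by ring]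
    refine add_le_add (pr_le_of_inj hq.pos _ Prod.snd fun t t' ht ht' e => ?_)
      (pr_le_of_inj hq.pos _ Prod.fst fun t t' ht ht' e => ?_)
    · refine Prod.ext (finj _ _ ?_) e
      rw [Dms] at ht ht'
      have h1 := ht.trans ht'.symm
      rw [add_right_inj, Int.cast_mul, Int.cast_mul] at h1
      exact mul_left_cancel₀ hc (mul_left_cancel₀ two_ne h1)
    · refine Prod.ext e (finj _ _ ?_)
      obtain ⟨h0, L, hL⟩ := ht
      obtain ⟨-, L', hL'⟩ := ht'
      rw [← e] at hL'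
      set z := x + (c * ((t.1 : ℕ) : ℤ)) • m
      obtain ⟨w₀, hw₀⟩ := exw z h0
      simp only [dls, InL, Prod.fst_add, Prod.snd_add, add_zero] at hL hL'
      have l1 : L < q := by
        by_contra hc'
        have := hL w₀
        rw [if_neg hc'] at this
        exact hw₀ this
      have l2 : L' < q := by
        by_contra hc'
        have := hL' w₀
        rw [if_neg hc'] at this
        exact hw₀ this
      simp only [if_pos l1, if_pos l2] at hL hL'
      have e1 : ∀ w, ς z * ((c * ((t.2 : ℕ) : ℤ) : ℤ) : ZMod q) -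
          ς z * ((c * ((t'.2 : ℕ) : ℤ) : ℤ) : ZMod q) = ((L : ZMod q) - L') * (d z w).1 :=
        fun w => by linear_combination hL w - hL' w
      have e2 : ((L : ZMod q) - L') * D z = 0 := by
        simp only [D, mul_sum, ← e1, sum_const, card_univ, ZMod.card, nsmul_eq_mul,
          ZMod.natCast_self, zero_mul]
      have e3 := e1 w₀
      rw [(mul_eq_zero.1 e2).resolve_right h0, zero_mul, sub_eq_zero] at e3
      have hς0 : ς z ≠ 0 := by
        rcases hς z with h1 | h1 <;> rw [h1] <;> simp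
      have e4 := mul_left_cancel₀ hς0 e3
      rw [Int.cast_mul, Int.cast_mul] at e4
      exact mul_left_cancel₀ hc e4
  · have : ∃ t : ℤ, D (x + t • m) ≠ 0 := by
      by_cases h0 : D x = 0
      · exact ⟨1, by rw [Dms, h0]; simpa using two_ne⟩
      · exact ⟨0, by simpa using h0⟩
    obtain ⟨t, ht⟩ := this
    obtain ⟨w, hw⟩ := exw _ ht
    exact ⟨t, w, ς _, hς _, hw, fun s => dls _ w s⟩

end Crest.Agent.R46
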