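import Crest.Agent.R46.PiFlat
import Crest.Agent.R46.QAna

/-! The semantic content of a periodic solution of the constraints. -/

set_option autoImplicit false
set_option linter.unusedSectionVars false

namespace Crest.Agent.R46

open Finset Crest.CombinatoricsR.Tiling Crest.Agent.R34

namespace SemConAux

theorem cast_eq_zero {q : ℕ} [NeZero q] {k : ZMod (q ^ 3)}
    (hk : k ∈ AddSubgroup.zmultiples ((q : ℕ) : ZMod (q ^ 3))) :
    ZMod.castHom (dvd_pow_self q three_ne_zero) (ZMod q) k = 0 := by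
  obtain ⟨j, rfl⟩ := AddSubgroup.mem_zmultiples_iff.1 hk
  rw [map_zsmul, map_natCast, ZMod.natCast_self, smul_zero]

theorem cast_sub {q : ℕ} [NeZero q] (w : ZMod q) {k : ZMod (q ^ 3)}
    (hk : k ∈ AddSubgroup.zmultiples ((q : ℕ) : ZMod (q ^ 3))) :
    (ZMod.cast (((w.val : ℕ) : ZMod (q ^ 3)) + -k) : ZMod q) = w := by
  rw [← ZMod.castHom_apply (h := dvd_pow_self q three_ne_zero), map_add, map_neg, cast_eq_zero hk,
    map_natCast, ZMod.natCast_zmod_val, neg_zero, add_zero]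

theorem succ_mem {q : ℕ} [NeZero q] (w : ZMod q) :
    ((w.val : ℕ) : ZMod (q ^ 3)) + 1 - (((w + 1).val : ℕ) : ZMod (q ^ 3)) ∈
      AddSubgroup.zmultiples ((q : ℕ) : ZMod (q ^ 3)) := by
  have h : (q : ℤ) ∣ ((w.val : ℕ) : ℤ) + 1 - (((w + 1).val : ℕ) : ℤ) := by
    rw [← ZMod.intCast_zmod_eq_zero_iff_dvd]
    push_cast
    rw [ZMod.natCast_zmod_val, ZMod.natCast_zmod_val, sub_self]
  obtain ⟨j, hj⟩ := h
  refine AddSubgroup.mem_zmultiples_iff.2 ⟨j, ?_⟩
  have := congrArg (fun z : ℤ => (z : ZMod (q ^ 3))) hj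
  simp only [Int.cast_sub, Int.cast_add, Int.cast_natCast, Int.cast_one, Int.cast_mul] at this
  rw [this, zsmul_eq_mul, mul_comm]

end SemConAux

namespace Setup

variable {F A : Type} (S : Setup F A) [Fintype F] [Fintype A] [DecidableEq F] [DecidableEq A]

theorem mk_add_dv (x τ : ℤ × ℤ) (y : ∀ c, S.Hc c) :
    ((x + τ, y) : S.G) = (x, y) + S.dv τ := by
  simp [dv]

theorem rho_shift (R : S.R) (c : S.C) {τ : ℤ × ℤ} (hτ : S.dv τ ∈ R.stab c) (x : ℤ × ℤ)
    (y : ∀ c, S.Hc c) : R.ρ (x + τ, y) c = R.ρ (x, y) c := by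
  rw [mk_add_dv]; exact hτ _

theorem partner_add {R : S.R} {typ sg : ℤ → Bool} (hM : S.Mark R typ sg) (x τ : ℤ × ℤ)
    (hτ : 4 ∣ τ.1) : S.partner sg (x + τ) = S.partner sg x + τ := by
  unfold partner
  rw [hM.sg_per (x + τ).1 x.1 (by simpa using hτ)]
  abel

theorem typ_partner {R : S.R} {typ sg : ℤ → Bool} (hM : S.Mark R typ sg) (x : ℤ × ℤ) :
    typ (S.partner sg x).1 = !typ x.1 := by
  rw [← hM.flip]
  refine hM.typ_per _ _ ?_
  unfold partner
  have := S.four_dvd_E_two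
  simp only [Prod.fst_sub]
  split_ifs
  · rw [show x.1 - 3 * S.E .two - (x.1 - 3) = -3 * (S.E .two - 1) by ring]
    exact this.mul_left _
  · rw [show x.1 - 1 * S.E .two - (x.1 - 1) = -1 * (S.E .two - 1) by ring]
    exact this.mul_left _

/-- a literal of slope one -/
theorem lit_tp (R : S.R) (c : S.C) (hc : ∀ n, c ≠ .qq n) (n : F) (x : ℤ × ℤ) (y : ∀ c, S.Hc c) :
    R.Lit c (S.tp c n) (x, y) ↔ R.ρ (x + S.E c • S.v n, y) c + 1 = R.ρ (x, y) c := by
  unfold Rho.Lit tp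
  rw [← add_assoc, S.rho_fib R c (by rw [S.K_eq_top c hc]; trivial), mk_add_dv]

/-- a literal of slope zero -/
theorem lit_tm (R : S.R) (c : S.C) (n : F) (x : ℤ × ℤ) (y : ∀ c, S.Hc c) :
    R.Lit c (S.tm c n) (x, y) ↔ R.ρ (x + S.E c • S.v n, y) c = R.ρ (x, y) c := by
  unfold Rho.Lit tm
  rw [mk_add_dv]

open SemConAux in
theorem sem_of_con (R : S.R) (h : S.Con R) (N : ℕ)
    (hN : ∀ c (x : ℤ × ℤ), S.dv ((N : ℤ) • x) ∈ R.stab c) : Nonempty (S.Sem N) := by
  have h1 : S.Con1 R := h.toCon2.toCon1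
  obtain ⟨typ, sg, hM⟩ := S.marker R h1
  have hQ := fun n => S.qhyp_of_con2 R h.toCon2 hM n
  have h4E : ∀ n (x : ℤ × ℤ), 4 ∣ (S.E (.qq n) • x).1 := fun n x => by
    simp only [Prod.smul_fst, smul_eq_mul]
    exact (S.four_dvd_E _ (by simp)).mul_right _
  choose d hd1 hd2 hd3 hd4 using fun n => q_ana (S.q_two n) (hQ n) (S.partner sg)
    (fun x => S.partner_add hM x _ (h4E n _)) (fun x => S.partner_add hM x _ (h4E n _))
    (fun x => S.typ_partner hM x)
  have hN4 : (4 : ℤ) ∣ N := hM.four N (by simpa using hN .two (1, 0))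
  have dinv : ∀ n (τ : ℤ × ℤ), S.dv τ ∈ R.stab (.qq n) → 4 ∣ τ.1 → ∀ x w,
      d n (x + τ) w = d n x w := fun n τ hτ h4 =>
    hd2 n τ (fun x y => S.rho_shift R _ hτ x _) (fun x => S.partner_add hM x τ h4)
  have dper : ∀ n x w (y : ℤ × ℤ), d n (x + (4 * (S.q n : ℤ) ^ 2) • y) w = d n x w :=
    fun n x w y => dinv n _ (h1.dv_qq n (by simp) (by simp))
      (by simp only [Prod.smul_fst, smul_eq_mul, mul_assoc]; exact dvd_mul_right _ _) x w
  have dE : ∀ n x w (k : ℤ) (y : ℤ × ℤ), 4 ∣ k →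
      d n (x + k • S.E (.qq n) • y) w = d n (x + k • y) w := fun n x w k y hk => by
    obtain ⟨j, hj⟩ := S.fourq2_dvd_mul_E_qq n hk
    rw [← dper n (x + k • y) w (j • y), smul_smul, smul_smul, ← hj, sub_smul]
    congr 1
    abel
  refine ⟨{
    d := d
    β := fun n e l x w =>
      -R.ρ (x, Pi.single (M := S.Hc) (.qq n) ((w.val : ℕ) : ZMod (S.q n ^ 3))) (.be n e l)
    δ := fun n e x => -R.ρ (x, 0) (.de n e)
    s1 := ?_, s2 := ?_, s3 := ?_, s4 := ?_, β_per := ?_, δ_per := ?_, d_per := dper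
    β_N := ?_, δ_N := ?_, bad_N := ?_, bad := ?_, sweep := ?_ }⟩
  · -- s1
    intro n e l x w hl
    have hmem := (hQ n).mem x ((w.val : ℕ) : ZMod (S.q n ^ 3))
    set y : ZMod (S.q n ^ 3) := ((w.val : ℕ) : ZMod (S.q n ^ 3)) +
      -S.Rq R n x ((w.val : ℕ) : ZMod (S.q n ^ 3)) with hy
    have hy0 : S.Rq R n x y = 0 := by
      rw [hy, (hQ n).equiv x _ _ (neg_mem hmem), add_neg_cancel]
    have hyw : (ZMod.cast y : ZMod (S.q n)) = w := cast_sub w hmem
    obtain ⟨κ, hκ, -⟩ := q_trans (S.q_prime n) (hQ n) (S.partner sg x) y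
    have hκd : κ = d n x w := by rw [← hyw]; exact hd1 n x y κ hy0 hκ
    obtain ⟨z, hz2, hzq⟩ : ∃ z : ∀ c, S.Hc c, R.ρ (x, z) .two = 0 ∧ z (.qq n) = y := by
      refine ⟨Pi.single (M := S.Hc) (.qq n) y + Pi.single (M := S.Hc) .two
        (-R.ρ (x, Pi.single (M := S.Hc) (.qq n) y) .two), ?_, by simp⟩
      have := S.rho_fib R .two (y := -R.ρ (x, Pi.single (M := S.Hc) (.qq n) y) .two) trivial
        (x, Pi.single (M := S.Hc) (.qq n) y)
      rw [add_neg_cancel] at this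
      rw [← this]
      simp [fib]
    have hflat := S.pi_flat R h hM n l (x, z) hz2
      (by rw [S.rho_qq R n (h1.q_dom n)]; simp only [hzq]; exact hy0) κ
      (by simp only [hzq]; exact hκ) (hκd ▸ hl)
    rcases h.c1 n e l (x, z) with hc | hc
    · rw [lit_tm] at hc
      have hK : z (.qq n) - ((w.val : ℕ) : ZMod (S.q n ^ 3)) ∈ S.K (.qq n) := by
        rw [hzq, hy, add_sub_cancel_left]; exact neg_mem hmem
      rw [S.rho_one R _ (by simp) n (h.be_dom n e l) _ _ hK,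
        S.rho_one R _ (by simp) n (h.be_dom n e l) (x, z) _ hK] at hc
      exact congrArg Neg.neg (add_right_cancel hc)
    · rw [S.lit_tp R _ (by simp), (S.lit_tm R _ n x z).1 hflat] at hc
      have : (1 : ZMod (S.p (.pi n l))) = 0 := add_eq_left.1 hc
      exact absurd this one_ne_zero
  · -- s2
    intro n e x w
    rcases h.c2 n e (x, Pi.single (M := S.Hc) (.qq n) ((w.val : ℕ) : ZMod (S.q n ^ 3))) with
      hc | ⟨l, hl, hc⟩
    · left
      rw [lit_tm, S.rho_eq_zero_add R _ (by simp) (h.de_dom n e),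
        S.rho_eq_zero_add R _ (by simp) (h.de_dom n e) (x, _)] at hc
      exact congrArg Neg.neg (add_right_cancel hc)
    · right
      refine ⟨l, hl, ?_⟩
      rw [S.lit_tp R _ (by simp)] at hc
      rw [← hc]
      abel
  · -- s3
    intro n x
    obtain ⟨e, hc⟩ := h.c3 n (x, 0)
    refine ⟨e, ?_⟩
    rw [S.lit_tp R _ (by simp)] at hc
    rw [← hc]
    abel
  · -- s4
    intro J τ l hF x w
    obtain ⟨z, hz⟩ : ∃ z : ∀ c, S.Hc c, ∀ n, z (.qq n) = (((w n).val : ℕ) : ZMod (S.q n ^ 3)) :=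
      ⟨fun c => match c with
        | .qq n => (((w n).val : ℕ) : ZMod (S.q n ^ 3))
        | _ => 0, fun _ => rfl⟩
    obtain ⟨n, hn, hc⟩ := h.c4 J τ l hF (x, z)
    refine ⟨n, hn, ?_⟩
    unfold Rho.Lit at hc
    rw [S.rho_one R _ (by simp) n (h.be_dom n _ _) _ (((w n + 1).val : ℕ) : ZMod (S.q n ^ 3))
        (by simp only [dom, fib, Prod.snd_add, Pi.add_apply, Pi.single_eq_same, hz]
            exact succ_mem (w n)),
      S.rho_one R _ (by simp) n (h.be_dom n _ _) (x, z) (((w n).val : ℕ) : ZMod (S.q n ^ 3))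
        (by simp [hz])] at hc
    simp only [dom, fib, Prod.mk_add_mk, add_zero, Pi.add_apply] at hc
    rw [Pi.single_eq_of_ne (by simp), add_zero] at hc
    exact congrArg Neg.neg (add_right_cancel hc)
  · -- β_per
    intro n e l x w k hk
    rw [S.rho_shift R _ (S.dv_smul_mem_of_dvd _ (h.be_v n e l) hk)]
  · -- δ_per
    intro n e x k hk
    rw [S.rho_shift R _ (S.dv_smul_mem_of_dvd _ (h.de_v n e) hk)]
  · intro n e l x w y
    rw [S.rho_shift R _ (hN _ y)]
  · intro n e x y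
    rw [S.rho_shift R _ (hN _ y)]
  · intro n x y
    simp only [dinv n _ (hN _ y) (by simpa using hN4.mul_right _)]
  · intro n x c hc hc0
    have := hd3 n x c hc0
    simp only [dE n _ _ _ _ (hc.mul_right _)] at this
    convert this using 6 with t L w
    rw [add_right_comm x (_ • S.v n), add_right_comm x (_ • _ • S.v n),
      dE n _ _ _ _ (hc.mul_right _)]
  · intro n x
    obtain ⟨t, w, ς, hς, h0, hs⟩ := hd4 n x
    refine ⟨t * S.E (.qq n), w, ς, hς, by rwa [mul_smul], fun s => ?_⟩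
    rw [mul_smul, ← hs, dE n _ _ _ _ (dvd_mul_right 4 s)]

end Setup

end Crest.Agent.R46
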