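import Crest.Agent.R46.QTrans

/-! The two intended `q`-states. -/

set_option autoImplicit false
set_option linter.unusedSectionVars false

namespace Crest.Agent.R46

open Finset Crest.CombinatoricsR.Tiling Crest.Agent.R34

/-- the properties of one intended state -/
structure XYOne (q : ℕ) (b : Bool) (R : ℤ → ℤ → ZMod (q ^ 3) → ZMod (q ^ 3)) : Prop where
  mem : ∀ μ l y, R μ l y ∈ AddSubgroup.zmultiples ((q : ℕ) : ZMod (q ^ 3))
  equiv : ∀ μ l y, ∀ k ∈ AddSubgroup.zmultiples ((q : ℕ) : ZMod (q ^ 3)),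
    R μ l (y + k) = R μ l y + k
  congr : ∀ μ μ' l l' y, (q : ℤ) ^ 2 ∣ μ - μ' → (q : ℤ) ∣ l - l' → R μ l y = R μ' l' y
  skew : ∀ μ l y, R (μ + 1) l (y + if b then -1 else 1) - R μ l y ∈
    AddSubgroup.zmultiples (((q : ℕ) : ZMod (q ^ 3)) ^ 2)
  vert : ∀ μ l y, R μ (l + 1) (y + if b then ((q : ℕ) : ZMod (q ^ 3)) ^ 2 else 0) = R μ l y

section Aux

variable {q : ℕ} [Fact q.Prime]

theorem xy_val_int (n : ℤ) :
    (((n : ZMod q).val : ℕ) : ZMod (q ^ 3)) = (n : ZMod (q ^ 3)) - q * ((n / q : ℤ) : ZMod (q ^ 3)) := by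
  have h1 : (((n : ZMod q).val : ℕ) : ℤ) = n - q * (n / q) := by
    rw [ZMod.val_intCast, Int.emod_def]
  have h2 := congrArg (fun z : ℤ => (z : ZMod (q ^ 3))) h1
  simpa using h2

theorem xy_cube : ((q : ℕ) : ZMod (q ^ 3)) ^ 3 = 0 := by
  rw [← Nat.cast_pow, ZMod.natCast_self]

theorem xy_T_int (n : ℤ) :
    (((n : ZMod q).val : ℕ) : ZMod (q ^ 3)) * (q : ZMod (q ^ 3)) ^ 2 =
      (n : ZMod (q ^ 3)) * (q : ZMod (q ^ 3)) ^ 2 := by
  rw [xy_val_int]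
  linear_combination (-((n / q : ℤ) : ZMod (q ^ 3))) * xy_cube (q := q)

theorem xy_T_add (a b : ZMod q) :
    (((a + b).val : ℕ) : ZMod (q ^ 3)) * (q : ZMod (q ^ 3)) ^ 2 =
      ((a.val : ℕ) : ZMod (q ^ 3)) * (q : ZMod (q ^ 3)) ^ 2 +
        ((b.val : ℕ) : ZMod (q ^ 3)) * (q : ZMod (q ^ 3)) ^ 2 := by
  obtain ⟨a, rfl⟩ := ZMod.intCast_surjective a
  obtain ⟨b, rfl⟩ := ZMod.intCast_surjective b
  rw [← Int.cast_add, xy_T_int, xy_T_int, xy_T_int]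
  push_cast
  ring

theorem xy_T_sub_int (a : ZMod q) (c : ℤ) :
    (((a - c).val : ℕ) : ZMod (q ^ 3)) * (q : ZMod (q ^ 3)) ^ 2 =
      ((a.val : ℕ) : ZMod (q ^ 3)) * (q : ZMod (q ^ 3)) ^ 2 -
        (c : ZMod (q ^ 3)) * (q : ZMod (q ^ 3)) ^ 2 := by
  obtain ⟨a, rfl⟩ := ZMod.intCast_surjective a
  rw [← Int.cast_sub, xy_T_int, xy_T_int]
  push_cast
  ring

theorem xy_mem_mul (c k : ZMod (q ^ 3)) : k * c ∈ AddSubgroup.zmultiples c := by
  obtain ⟨k, rfl⟩ := ZMod.intCast_surjective k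
  exact ⟨k, by simp⟩

theorem XYOne.exists_kap {b : Bool} {R : ℤ → ℤ → ZMod (q ^ 3) → ZMod (q ^ 3)}
    (h : XYOne q b R) : ∃ kap : ℤ → ℤ → ZMod (q ^ 3) → ZMod q × ZMod q,
      (∀ μ l y (κ : ZMod q × ZMod q), R (μ - (κ.1.val : ℤ) * q) l
        (y - (κ.2.val : ZMod (q ^ 3)) * (q : ZMod (q ^ 3)) ^ 2) = 0 ↔ κ = kap μ l y) ∧
      ∀ μ l l' y (a c : ℤ), (q : ℤ) ∣ l - l' →
        kap (μ - a * q) l' (y - (c : ZMod (q ^ 3)) * (q : ZMod (q ^ 3)) ^ 2) =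
          kap μ l y - ((a : ZMod q), (c : ZMod q)) := by
  have hQ : QHyp q (fun x y => R x.1 x.2 y) (fun _ => b) (1, 0) (0, 1) :=
    { mem := fun x y => h.mem _ _ _
      equiv := fun x y k hk => h.equiv _ _ _ k hk
      q1 := fun x y => by simpa using h.skew x.1 x.2 y
      q2 := fun x y => by simpa using h.vert x.1 x.2 y
      typ_m := fun _ => rfl
      typ_l := fun _ => rfl }
  have hex : ∀ μ l y, ∃! κ : ZMod q × ZMod q, R (μ - (κ.1.val : ℤ) * q) l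
      (y - (κ.2.val : ZMod (q ^ 3)) * (q : ZMod (q ^ 3)) ^ 2) = 0 := by
    intro μ l y
    have := q_trans (Fact.out : q.Prime) hQ (μ, l) y
    simpa only [Prod.smul_mk, smul_eq_mul, mul_one, mul_zero, Prod.mk_sub_mk, sub_zero] using this
  choose kap hk hu using hex
  have hiff : ∀ μ l y (κ : ZMod q × ZMod q), R (μ - (κ.1.val : ℤ) * q) l
      (y - (κ.2.val : ZMod (q ^ 3)) * (q : ZMod (q ^ 3)) ^ 2) = 0 ↔ κ = kap μ l y :=
    fun μ l y κ => ⟨hu μ l y κ, fun e => e ▸ hk μ l y⟩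
  refine ⟨kap, hiff, fun μ l l' y a c hl => ((hiff _ _ _ _).1 ?_).symm⟩
  rw [← hk μ l y]
  change R (μ - a * q - (((kap μ l y).1 - a).val : ℤ) * q) l'
    (y - (c : ZMod (q ^ 3)) * (q : ZMod (q ^ 3)) ^ 2 -
      ((((kap μ l y).2 - c).val : ℕ) : ZMod (q ^ 3)) * (q : ZMod (q ^ 3)) ^ 2) = _
  rw [xy_T_sub_int]
  have e1 : y - (c : ZMod (q ^ 3)) * (q : ZMod (q ^ 3)) ^ 2 -
      ((((kap μ l y).2.val : ℕ) : ZMod (q ^ 3)) * (q : ZMod (q ^ 3)) ^ 2 -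
        (c : ZMod (q ^ 3)) * (q : ZMod (q ^ 3)) ^ 2) =
      y - (((kap μ l y).2.val : ℕ) : ZMod (q ^ 3)) * (q : ZMod (q ^ 3)) ^ 2 := by ring
  rw [e1]
  refine h.congr _ _ _ _ _ ?_ (dvd_sub_comm.1 hl)
  have h1 : (q : ℤ) ∣ ((kap μ l y).1.val : ℤ) - a - (((kap μ l y).1 - a).val : ℤ) := by
    rw [← ZMod.intCast_zmod_eq_zero_iff_dvd]
    push_cast
    simp
  obtain ⟨j, hj⟩ := h1
  exact ⟨j, by linear_combination (q : ℤ) * hj⟩

/-- reduction modulo `q` -/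
def xyPi (q : ℕ) : ZMod (q ^ 3) →+* ZMod q :=
  ZMod.castHom (dvd_pow_self q (by norm_num)) (ZMod q)

theorem xyPi_q : xyPi q (q : ZMod (q ^ 3)) = 0 := by
  rw [map_natCast, ZMod.natCast_self]

theorem xyPi_mem {k : ZMod (q ^ 3)} (hk : k ∈ AddSubgroup.zmultiples ((q : ℕ) : ZMod (q ^ 3))) :
    xyPi q k = 0 := by
  obtain ⟨j, rfl⟩ := hk
  simp only [map_zsmul, xyPi_q, smul_zero]

theorem xy_sub_res (z : ZMod (q ^ 3)) :
    z - (((xyPi q z).val : ℕ) : ZMod (q ^ 3)) ∈ AddSubgroup.zmultiples ((q : ℕ) : ZMod (q ^ 3)) := by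
  obtain ⟨n, rfl⟩ := ZMod.intCast_surjective z
  rw [map_intCast, xy_val_int, sub_sub_cancel, mul_comm]
  exact xy_mem_mul _ _

/-- the representative of `μ` modulo `q²` -/
def xyMu (q : ℕ) (μ : ℤ) : ZMod (q ^ 3) := ((μ % (q : ℤ) ^ 2 : ℤ) : ZMod (q ^ 3))

theorem xyMu_congr {μ μ' : ℤ} (h : (q : ℤ) ^ 2 ∣ μ - μ') : xyMu q μ = xyMu q μ' := by
  unfold xyMu
  rw [show μ % (q : ℤ) ^ 2 = μ' % (q : ℤ) ^ 2 from (Int.modEq_iff_dvd.2 h).symm]

theorem xyMu_succ (μ : ℤ) :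
    ∃ j : ZMod (q ^ 3), xyMu q (μ + 1) = xyMu q μ + 1 + j * (q : ZMod (q ^ 3)) ^ 2 := by
  refine ⟨((μ / (q : ℤ) ^ 2 - (μ + 1) / (q : ℤ) ^ 2 : ℤ) : ZMod (q ^ 3)), ?_⟩
  unfold xyMu
  rw [Int.emod_def, Int.emod_def]
  push_cast
  ring

/-- the first state -/
def xyX (q : ℕ) (μ _l : ℤ) (y : ZMod (q ^ 3)) : ZMod (q ^ 3) :=
  y - xyMu q μ - (((xyPi q (y - xyMu q μ)).val : ℕ) : ZMod (q ^ 3))

/-- the second state -/
def xyY (q : ℕ) (θ : ℤ → ZMod q → ZMod q) (μ l : ℤ) (y : ZMod (q ^ 3)) : ZMod (q ^ 3) :=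
  y + xyMu q μ - (((xyPi q (y + xyMu q μ)).val : ℕ) : ZMod (q ^ 3)) -
    ((((l : ZMod q) + θ μ (xyPi q y)).val : ℕ) : ZMod (q ^ 3)) * (q : ZMod (q ^ 3)) ^ 2

theorem xyX_one : XYOne q false (xyX q) where
  mem μ l y := xy_sub_res _
  equiv μ l y k hk := by
    unfold xyX
    have : xyPi q (y + k - xyMu q μ) = xyPi q (y - xyMu q μ) := by
      rw [map_sub, map_add, xyPi_mem hk, add_zero, map_sub]
    rw [this]
    ring
  congr μ μ' l l' y hμ _ := by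
    unfold xyX
    rw [xyMu_congr hμ]
  skew μ l y := by
    obtain ⟨j, hj⟩ := xyMu_succ (q := q) μ
    unfold xyX
    have : xyPi q (y + 1 - xyMu q (μ + 1)) = xyPi q (y - xyMu q μ) := by
      rw [hj]
      simp only [map_sub, map_add, map_mul, map_pow, xyPi_q, map_one]
      ring
    simp only [Bool.false_eq_true, if_false]
    rw [this, hj]
    convert xy_mem_mul (((q : ℕ) : ZMod (q ^ 3)) ^ 2) (-j) using 1
    ring
  vert μ l y := by
    simp only [Bool.false_eq_true, if_false, add_zero]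
    rfl

theorem xyY_one (θ : ℤ → ZMod q → ZMod q)
    (hθ : ∀ μ μ', (q : ℤ) ^ 2 ∣ μ - μ' → θ μ = θ μ') : XYOne q true (xyY q θ) where
  mem μ l y := by
    refine sub_mem (xy_sub_res _) ?_
    rw [sq, ← mul_assoc]
    exact xy_mem_mul _ _
  equiv μ l y k hk := by
    unfold xyY
    have h1 : xyPi q (y + k + xyMu q μ) = xyPi q (y + xyMu q μ) := by
      rw [map_add, map_add, xyPi_mem hk, add_zero, map_add]
    have h2 : xyPi q (y + k) = xyPi q y := by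
      rw [map_add, xyPi_mem hk, add_zero]
    rw [h1, h2]
    ring
  congr μ μ' l l' y hμ hl := by
    unfold xyY
    have : (l : ZMod q) = (l' : ZMod q) := by
      rw [← sub_eq_zero, ← Int.cast_sub, ZMod.intCast_zmod_eq_zero_iff_dvd]
      exact hl
    rw [xyMu_congr hμ, hθ μ μ' hμ, this]
  skew μ l y := by
    obtain ⟨j, hj⟩ := xyMu_succ (q := q) μ
    unfold xyY
    have : xyPi q (y + -1 + xyMu q (μ + 1)) = xyPi q (y + xyMu q μ) := by
      rw [hj]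
      simp only [map_add, map_mul, map_pow, xyPi_q, map_one, map_neg]
      ring
    simp only [if_true]
    rw [this, hj]
    convert xy_mem_mul (((q : ℕ) : ZMod (q ^ 3)) ^ 2)
      (j - ((((l : ZMod q) + θ (μ + 1) (xyPi q (y + -1))).val : ℕ) : ZMod (q ^ 3)) +
        ((((l : ZMod q) + θ μ (xyPi q y)).val : ℕ) : ZMod (q ^ 3))) using 1
    ring
  vert μ l y := by
    unfold xyY
    simp only [if_true]
    have h1 : xyPi q (y + (q : ZMod (q ^ 3)) ^ 2 + xyMu q μ) = xyPi q (y + xyMu q μ) := by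
      simp only [map_add, map_pow, xyPi_q]
      ring
    have h2 : xyPi q (y + (q : ZMod (q ^ 3)) ^ 2) = xyPi q y := by
      simp only [map_add, map_pow, xyPi_q]
      ring
    have h3 : (((l + 1 : ℤ) : ZMod q) + θ μ (xyPi q y)) =
        ((l : ZMod q) + θ μ (xyPi q y)) - ((-1 : ℤ) : ZMod q) := by
      push_cast
      ring
    rw [h1, h2, h3, xy_T_sub_int]
    push_cast
    ring

end Aux

theorem exists_XY {q : ℕ} [Fact q.Prime] (hq2 : 2 < q) : Nonempty (XY q) := by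
  obtain ⟨kX, hX, sX⟩ := (xyX_one (q := q)).exists_kap
  let y0 : ℤ → ZMod q → ZMod (q ^ 3) := fun μ w =>
    -xyMu q μ + (((w + xyPi q (xyMu q μ)).val : ℕ) : ZMod (q ^ 3))
  let θ : ℤ → ZMod q → ZMod q := fun μ w => (kX μ 0 (y0 μ w)).1⁻¹ - (kX μ 0 (y0 μ w)).2
  have hθ : ∀ μ μ', (q : ℤ) ^ 2 ∣ μ - μ' → θ μ = θ μ' := by
    intro μ μ' h
    funext w
    have h1 : y0 μ w = y0 μ' w := by
      simp only [y0]
      rw [xyMu_congr h]
    have h2 : kX μ' 0 (y0 μ w) = kX μ 0 (y0 μ w) := by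
      obtain ⟨j, hj⟩ := h
      have h3 := sX μ 0 0 (y0 μ w) (q * j) 0 (by simp)
      have h4 : μ - q * j * q = μ' := by linear_combination hj
      rw [h4] at h3
      simpa [Prod.mk_zero_zero] using h3
    simp only [θ]
    rw [← h1, h2]
  have hY1 := xyY_one θ hθ
  obtain ⟨kY, hY, sY⟩ := hY1.exists_kap
  have hcongr : ∀ μ μ' l l' y y', (q : ℤ) ∣ μ - μ' → (q : ℤ) ∣ l - l' →
      y - y' ∈ AddSubgroup.zmultiples (((q : ℕ) : ZMod (q ^ 3)) ^ 2) →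
      kX μ l y - kY μ l y = kX μ' l' y' - kY μ' l' y' := by
    rintro μ μ' l l' y y' ⟨a, ha⟩ hl ⟨c, hc⟩
    have h1 : μ' = μ - a * q := by linear_combination -ha
    have h2 : y' = y - (c : ZMod (q ^ 3)) * (q : ZMod (q ^ 3)) ^ 2 := by
      simp only [zsmul_eq_mul] at hc
      linear_combination hc
    rw [h1, h2, sX μ l l' y a c hl, sY μ l l' y a c hl]
    ring
  refine ⟨{ Rt := fun b => if b then xyY q θ else xyX q
            dc := fun μ l y => kX μ l y - kY μ l y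
            mem := fun b => by cases b; exacts [xyX_one.mem, hY1.mem]
            equiv := fun b => by cases b; exacts [xyX_one.equiv, hY1.equiv]
            congr := fun b => by cases b; exacts [xyX_one.congr, hY1.congr]
            skew := fun b => by cases b; exacts [xyX_one.skew, hY1.skew]
            vert := fun b => by cases b; exacts [xyX_one.vert, hY1.vert]
            dc_congr := hcongr
            dc_spec := fun μ l y κ κ' h h' => by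
              rw [(hX μ l y κ).1 h, (hY μ l y κ').1 h']
            dc_dir := ?_ }⟩
  intro μ l y
  have hz := (hY μ l y (kY μ l y)).2 rfl
  set μ₁ : ℤ := μ - ((kY μ l y).1.val : ℤ) * q with hμ₁
  set y₁ : ZMod (q ^ 3) := y - ((kY μ l y).2.val : ZMod (q ^ 3)) * (q : ZMod (q ^ 3)) ^ 2 with hy₁
  have e1 : kX μ l y - kY μ l y = kX μ₁ l y₁ - kY μ₁ l y₁ :=
    hcongr _ _ _ _ _ _ ⟨((kY μ l y).1.val : ℤ), by rw [hμ₁]; ring⟩ (by simp) (by
      rw [hy₁, sub_sub_cancel]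
      exact xy_mem_mul _ _)
  have e2 : kY μ₁ l y₁ = 0 := ((hY μ₁ l y₁ 0).1 (by simpa using hz)).symm
  obtain ⟨c, hc⟩ := ZMod.intCast_surjective ((l : ZMod q) + θ μ₁ (xyPi q y₁))
  have e3 : y0 μ₁ (xyPi q y₁) = y₁ - (c : ZMod (q ^ 3)) * (q : ZMod (q ^ 3)) ^ 2 := by
    unfold xyY at hz
    rw [← hc, xy_T_int, map_add] at hz
    simp only [y0]
    linear_combination -hz
  have e5 := sX μ₁ l l y₁ 0 c (by simp)
  have e6 : kX μ₁ l (y0 μ₁ (xyPi q y₁)) = kX μ₁ 0 (y0 μ₁ (xyPi q y₁)) :=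
    (hX μ₁ 0 _ _).1 ((hX μ₁ l _ _).2 rfl)
  rw [zero_mul, sub_zero, ← e3, e6, hc] at e5
  rw [e1, e2, sub_zero]
  by_cases h0 : (kX μ₁ l y₁).1 = 0
  · exact Or.inl h0
  · right
    have f1 : (kX μ₁ 0 (y0 μ₁ (xyPi q y₁))).1 = (kX μ₁ l y₁).1 := by
      rw [e5]
      simp
    have f2 : (kX μ₁ 0 (y0 μ₁ (xyPi q y₁))).2 =
        (kX μ₁ l y₁).2 - ((l : ZMod q) + θ μ₁ (xyPi q y₁)) := by
      rw [e5]
      rfl
    have f3 : θ μ₁ (xyPi q y₁) =
        (kX μ₁ 0 (y0 μ₁ (xyPi q y₁))).1⁻¹ - (kX μ₁ 0 (y0 μ₁ (xyPi q y₁))).2 := rfl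
    rw [f1] at f3
    refine ⟨(kX μ₁ l y₁).1⁻¹, ?_⟩
    have f4 : (kX μ₁ l y₁).2 = (l : ZMod q) + (kX μ₁ l y₁).1⁻¹ := by
      linear_combination f3 - f2
    rw [f4]
    field_simp
    ring

end Crest.Agent.R46
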