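import Crest.Agent.R46.ConEx2
import Crest.Agent.R46.ConEx4
import Crest.Agent.R46.ConEx5
import Crest.Agent.R46.ConGood1
import Crest.Agent.R46.ConGood5
import Crest.Agent.R46.XYEx
import Crest.Agent.R46.SemCon
import Crest.Agent.R46.OutSem

/-! The tiling system of a rule without periodic solutions. -/

set_option autoImplicit false
set_option linter.unusedSectionVars false

namespace Crest.Agent.R46

open Finset Crest.CombinatoricsR.Tiling Crest.Agent.R34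

namespace Setup

variable {F A : Type} (S : Setup F A) [Fintype F] [Fintype A] [DecidableEq F] [DecidableEq A]

theorem good_con (R₀ : S.R) (h : S.Con R₀) : Good R₀ S.Con := by
  refine good_mono (good_and (good_and (S.good_con2 R₀ h.toCon2) (S.good_con3 R₀ h.toCon3))
    (good_and (S.good_con4 R₀ h.toCon2 h.toCon4) (S.good_con5 R₀ h.toCon3 h.toCon5))) ?_
  rintro R ⟨⟨h2, h3⟩, h4, h5⟩
  exact ⟨h2, h3, h4 h2, h5 h3⟩

theorem gadget (f : F → ℤ → A)
    (h0 : ∀ J τ, S.Forb J τ → ∀ x, ∃ n ∈ J, f n (lam (S.v n) x) ≠ τ n)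
    (hAl : ∀ n (m : ℤ) (z : ZMod (S.q n)), S.Al n (f n m) (z ^ 2 + (m : ZMod (S.q n)) * z))
    (r P₀ : ℕ) (hr : r.Prime) (hP0 : 0 < P₀) (hp : ∀ c, r < S.p c ∧ P₀ ≤ S.p c)
    (hno : ∀ N g hole, 0 < N → ¬ S.Out N r P₀ g hole) : AperSys S.G PerG := by
  have X : ∀ n, XY (S.q n) := fun n => (exists_XY (S.q_two n)).some
  have hC : S.Con (S.R0 X f) :=
    ⟨S.con2_R0 X f, S.con3_R0 X f, S.con4_R0 X f, S.con5_R0 X f h0 hAl⟩
  obtain ⟨𝓕, hne, h1, h2⟩ := good_out _ (S.good_con _ hC)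
  refine ⟨𝓕, hne, ⟨_, h1⟩, fun A' hA' hper => ?_⟩
  obtain ⟨R, rfl, hR⟩ := h2 A' hA'
  obtain ⟨N, hN, hper⟩ := hper
  obtain ⟨M⟩ := S.sem_of_con R hR N fun c x =>
    R.mem_stab_of_set _ (fun a ha => hper a ha x) c
  obtain ⟨g, hole, hO⟩ := S.out_of_sem hN M r P₀ hr hP0 hp
  exact hno N g hole hN hO

end Setup

end Crest.Agent.R46
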