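import Crest.Agent.R46.Basic

/-! The marker. -/

set_option autoImplicit false
set_option linter.unusedSectionVars false

namespace Crest.Agent.R46

open Finset Crest.CombinatoricsR.Tiling Crest.Agent.R34

namespace Mk

/-- `0` or `2` -/
def tw (b : Bool) : ZMod 4 := if b then 2 else 0
/-- `0` or `1` -/
def on (b : Bool) : ZMod 4 := if b then 1 else 0

/-- the side of the partner -/
def sgF (G : ZMod 4 → ZMod 4) (k : ZMod 4) : Bool := decide (G k ≠ G (k - 1))

/-- the type -/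
def typF (G : ZMod 4 → ZMod 4) (k : ZMod 4) : Bool :=
  decide (G k - 1 - 2 = G (k - 1) ∨ G k - 1 = G (k - 1 - 2))

def H1 (G : ZMod 4 → ZMod 4) : Prop := ∀ k y : ZMod 4, ∃ i j : Bool, y - tw j = G (k - tw i) ∧
  ∀ i' j' : Bool, y - tw j' = G (k - tw i') → i' = i ∧ j' = j

def H2 (G : ZMod 4 → ZMod 4) : Prop := ∀ k y : ZMod 4, ∃ i j : Bool,
  y - tw j = G (k - (tw i + on j)) ∧
  ∀ i' j' : Bool, y - tw j' = G (k - (tw i' + on j')) → i' = i ∧ j' = j

def Concl (G : ZMod 4 → ZMod 4) : Prop := ∀ k : ZMod 4,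
  (∃ i j : Bool, xor i j = typF G k ∧ G k - (1 + tw j) = G (k - (1 + tw i))) ∧
  G k = G (k - (1 + tw (sgF G k))) ∧ typF G (k - (1 + tw (sgF G k))) = !typF G k ∧
  G (k + 2) ≠ G k

instance (G : ZMod 4 → ZMod 4) : Decidable (H1 G) := by unfold H1; infer_instance
instance (G : ZMod 4 → ZMod 4) : Decidable (H2 G) := by unfold H2; infer_instance
instance (G : ZMod 4 → ZMod 4) : Decidable (Concl G) := by unfold Concl; infer_instance

/-- a function given by its four values -/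
def mk4 (a b c d : ZMod 4) : ZMod 4 → ZMod 4 :=
  fun k => if k = 0 then a else if k = 1 then b else if k = 2 then c else d

theorem fin_aux : ∀ a b c d : ZMod 4, H1 (mk4 a b c d) → H2 (mk4 a b c d) →
    Concl (mk4 a b c d) := by
  decide +kernel

theorem fin_marker (G : ZMod 4 → ZMod 4) (h1 : H1 G) (h2 : H2 G) : Concl G := by
  have : G = mk4 (G 0) (G 1) (G 2) (G 3) := by
    funext k
    fin_cases k <;> rfl
  rw [this] at h1 h2 ⊢
  exact fin_aux _ _ _ _ h1 h2

theorem four_aux : ∀ M : ZMod 4, M = 0 ∨ M = 2 ∨ M + M = 2 := by decide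

end Mk

namespace Setup

variable {F A : Type} (S : Setup F A) [Fintype F] [Fintype A] [DecidableEq F] [DecidableEq A]

/-- the horizontal marker coordinate -/
def mkX : S.G →+ ZMod 4 where
  toFun g := ((g.1.1 : ℤ) : ZMod 4)
  map_zero' := by simp
  map_add' g g' := by simp

/-- the vertical marker coordinate -/
def mkY : S.G →+ ZMod 4 where
  toFun g := g.2 .two
  map_zero' := rfl
  map_add' _ _ := rfl

theorem mkX_a : S.mkX S.a = 1 := S.E_one .two
theorem mkY_a : S.mkY S.a = 0 := rfl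
theorem mkX_t2 : S.mkX S.t2 = 0 := Int.cast_zero
theorem mkY_t2 : S.mkY S.t2 = 1 :=
  Pi.single_eq_same (M := S.Hc) (Cmp.two : S.C) (1 : ZMod 4)

theorem mkX_ev (ij : Bool × Bool) : S.mkX (S.ev ij) = Mk.tw ij.1 := by
  rcases ij with ⟨_ | _, _ | _⟩ <;> simp [ev, Mk.tw, two_mul, mkX_a, mkX_t2, one_add_one_eq_two]

theorem mkY_ev (ij : Bool × Bool) : S.mkY (S.ev ij) = Mk.tw ij.2 := by
  rcases ij with ⟨_ | _, _ | _⟩ <;> simp [ev, Mk.tw, two_mul, mkY_a, mkY_t2, one_add_one_eq_two]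

theorem mkX_m2 (ij : Bool × Bool) : S.mkX (S.m2 ij) = Mk.tw ij.1 + Mk.on ij.2 := by
  rcases ij with ⟨_ | _, _ | _⟩ <;> simp [m2, Mk.tw, Mk.on, two_mul, mkX_a, mkX_t2, one_add_one_eq_two]

theorem mkY_m2 (ij : Bool × Bool) : S.mkY (S.m2 ij) = Mk.tw ij.2 := by
  rcases ij with ⟨_ | _, _ | _⟩ <;> simp [m2, Mk.tw, two_mul, mkY_a, mkY_t2, one_add_one_eq_two]

theorem exists_Gam (R : S.R) (h : S.Con1 R) : ∃ G : ZMod 4 → ZMod 4,
    ∀ g, R.ρ g .two = 0 ↔ S.mkY g = G (S.mkX g) := by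
  refine ⟨fun k => -R.ρ (S.dv ((k.val : ℤ), 0)) .two, fun g => ?_⟩
  have h1 := S.rho_eq_zero_add R .two (fun n => by simp) h.two_dom g
  have h2 : S.dv (g.1 - (((S.mkX g).val : ℤ), 0)) ∈ R.stab .two := by
    refine h.dv_two ?_
    have : ((g.1.1 - ((S.mkX g).val : ℤ) : ℤ) : ZMod 4) = 0 := by
      push_cast
      rw [ZMod.natCast_zmod_val]
      exact sub_self _
    exact (ZMod.intCast_zmod_eq_zero_iff_dvd _ 4).1 this
  have h3 := h2 (S.dv (((S.mkX g).val : ℤ), 0))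
  rw [← dv_add, add_sub_cancel] at h3
  rw [h1]
  beta_reduce
  rw [← h3]
  exact add_eq_zero_iff_eq_neg'

theorem zero_two (R : S.R) (g : S.G) : R.Zero {.two} g ↔ R.ρ g .two = 0 := by
  simp [Rho.Zero]

/-- the two marker equations give every site a type and a partner of the opposite type -/
theorem marker (R : S.R) (h : S.Con1 R) : ∃ typ sg : ℤ → Bool, S.Mark R typ sg := by
  obtain ⟨G, hG⟩ := S.exists_Gam R h
  have hs : ∀ k y : ZMod 4, ∃ g : S.G, S.mkX g = k ∧ S.mkY g = y := fun k y =>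
    ⟨(k.val : ℤ) • S.a + (y.val : ℤ) • S.t2, by
      rw [map_add, map_zsmul, map_zsmul, mkX_a, mkX_t2]; simp, by
      rw [map_add, map_zsmul, map_zsmul, mkY_a, mkY_t2]; simp⟩
  have h1 : Mk.H1 G := by
    intro k y
    obtain ⟨g, rfl, rfl⟩ := hs k y
    obtain ⟨ij, e1, e2⟩ := h.m1 g
    simp only [zero_two, hG, map_sub, mkX_ev, mkY_ev] at e1 e2
    exact ⟨ij.1, ij.2, e1, fun i' j' e => Prod.ext_iff.1 (e2 (i', j') e)⟩
  have h2 : Mk.H2 G := by
    intro k y
    obtain ⟨g, rfl, rfl⟩ := hs k y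
    obtain ⟨ij, e1, e2⟩ := h.m2 g
    simp only [zero_two, hG, map_sub, mkX_m2, mkY_m2] at e1 e2
    exact ⟨ij.1, ij.2, e1, fun i' j' e => Prod.ext_iff.1 (e2 (i', j') e)⟩
  have hc := Mk.fin_marker G h1 h2
  have hper : ∀ k k' : ℤ, 4 ∣ k - k' → (k : ZMod 4) = (k' : ZMod 4) := fun k k' hk => by
    rw [← sub_eq_zero, ← Int.cast_sub]
    exact (ZMod.intCast_zmod_eq_zero_iff_dvd _ 4).2 hk
  refine ⟨fun k => Mk.typF G k, fun k => Mk.sgF G k, fun k k' hk => by rw [hper k k' hk],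
    fun k k' hk => by rw [hper k k' hk], fun g hg => ?_, fun g hg => ?_, fun k => ?_,
    fun M hM => ?_⟩
  · obtain ⟨i, j, e1, e2⟩ := (hc (S.mkX g)).1
    refine ⟨(i, j), e1, ?_⟩
    rw [hG] at hg ⊢
    simp only [map_sub, map_add, mkX_ev, mkY_ev, mkX_a, mkY_a, mkX_t2, mkY_t2, zero_add, add_zero,
      hg]
    exact e2
  · rw [hG] at hg ⊢
    simp only [map_sub, map_add, mkX_ev, mkY_ev, mkX_a, mkY_a, zero_add, hg]
    rw [show Mk.tw false = 0 from rfl, sub_zero]
    exact (hc (S.mkX g)).2.1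
  · rw [← (hc k).2.2.1]
    congr 1
    cases Mk.sgF G k
    · simp [Mk.tw]
    · simp only [if_true, Mk.tw]
      push_cast
      norm_num
  · have hM' : ∀ k, G (k + M) = G k := by
      intro k
      obtain ⟨g, rfl, e⟩ := hs k (G k)
      have e1 := hM g
      rw [(hG g).2 e, hG, map_add, map_add] at e1
      have e2 : S.mkY (S.dv (M, 0)) = 0 := rfl
      have e3 : S.mkX (S.dv (M, 0)) = M := rfl
      rw [e2, e3, add_zero, e] at e1
      exact e1.symm
    rcases Mk.four_aux M with e | e | e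
    · exact (ZMod.intCast_zmod_eq_zero_iff_dvd _ 4).1 e
    · exact absurd (e ▸ hM' 0) (hc 0).2.2.2
    · refine absurd ?_ (hc 0).2.2.2
      rw [← e, ← add_assoc, hM', hM']

theorem trans_L0 (R : S.R) (h : S.Con1 R) (x y : S.G) (hx : x ∈ R.stab .two)
    (hy : y ∈ R.stab .two) : R.Trans {.two} (S.L0 x y) := by
  intro g
  refine (existsUnique_congr fun ij => ?_).1 (h.m1 g)
  have h1 : (if xor ij.1 ij.2 then x + y else 0) ∈ R.stab .two := by
    split_ifs
    · exact add_mem hx hy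
    · exact zero_mem _
  rw [zero_two, zero_two, L0, ← sub_add, h1]

theorem trans_L1 (R : S.R) (h : S.Con1 R) (x y : S.G) (hx : x ∈ R.stab .two)
    (hy : y ∈ R.stab .two) : R.Trans {.two} (S.L1 x y) := by
  intro g
  refine (existsUnique_congr fun ij => ?_).1 (h.m1 (g - (S.a + S.t2)))
  have h1 : (if xor ij.1 ij.2 then y else x) ∈ R.stab .two := by
    split_ifs
    · exact hy
    · exact hx
  rw [zero_two, zero_two, L1, ← sub_add, h1, sub_sub]

end Setup

end Crest.Agent.R46
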