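import Crest.Agent.R46.Defs

/-! Rigid families exist. -/

set_option autoImplicit false
set_option linter.unusedSectionVars false

namespace Crest.Agent.R46

open Finset Crest.CombinatoricsR.Tiling Crest.Agent.R34

namespace PartAux

section
variable {ι α κ : Type} [Fintype ι] [DecidableEq ι] [Fintype α] [Nonempty α] [Fintype κ]

theorem ex_prod_inj (a : κ → ι) (ha : Function.Injective a) (g : κ → α → ℝ) :
    ex (fun ω : ι → α => ∏ k, g k (ω (a k))) = ∏ k, ex (g k) := by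
  classical
  let g' : ι → α → ℝ := fun i => if h : ∃ k, a k = i then g h.choose else fun _ => 1
  have hg : ∀ k, g' (a k) = g k := fun k => by
    have h : ∃ k', a k' = a k := ⟨k, rfl⟩
    simp only [g', dif_pos h]
    rw [ha h.choose_spec]
  have := ex_prod (univ.image a) g'
  simp only [prod_image (fun x _ y _ h => ha h), hg] at this
  exact this

theorem ex_ind (s : α) (c : ℝ) [DecidableEq α] :
    ex (fun x : α => 1 - if x = s then c else 0) = 1 - c / Fintype.card α := by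
  rw [ex_sub, ex_const]
  simp [ex]

/-- disjoint pairs of coordinates -/
theorem pr_pairs (a b : κ → ι) (ha : Function.Injective a) (hb : Function.Injective b)
    (hab : ∀ k k', a k ≠ b k') (s t : κ → α) :
    pr (fun ω : ι → α => ∀ k, ¬ (ω (a k) = s k ∧ ω (b k) = t k)) =
      (1 - 1 / (Fintype.card α : ℝ) / Fintype.card α) ^ Fintype.card κ := by
  classical
  have h1 : ∀ ω : ι → α, (if ∀ k, ¬ (ω (a k) = s k ∧ ω (b k) = t k) then (1 : ℝ) else 0) =
      ∏ k, (1 - if ω (a k) = s k then (if ω (b k) = t k then (1 : ℝ) else 0) else 0) := by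
    intro ω
    split_ifs with h
    · refine (prod_eq_one fun k _ => ?_).symm
      have := h k
      split_ifs with h1 h2
      · exact absurd ⟨h1, h2⟩ this
      · simp
      · simp
    · push Not at h
      obtain ⟨k, h1, h2⟩ := h
      exact (prod_eq_zero (mem_univ k) (by simp [h1, h2])).symm
  rw [pr_eq_ex]
  simp only [h1]
  rw [ex_resample (univ.image a)]
  have h2 : ∀ ω : ι → α, ex (fun ω' : ι → α => ∏ k,
      (1 - if (univ.image a).piecewise ω' ω (a k) = s k then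
        (if (univ.image a).piecewise ω' ω (b k) = t k then (1 : ℝ) else 0) else 0)) =
      ∏ k, (1 - if ω (b k) = t k then 1 / (Fintype.card α : ℝ) else 0) := by
    intro ω
    have e1 : ∀ (ω' : ι → α) k, (univ.image a).piecewise ω' ω (a k) = ω' (a k) := fun ω' k =>
      piecewise_eq_of_mem _ _ _ (mem_image_of_mem a (mem_univ k))
    have e2 : ∀ (ω' : ι → α) k, (univ.image a).piecewise ω' ω (b k) = ω (b k) := fun ω' k =>
      piecewise_eq_of_notMem _ _ _ (by
        rw [mem_image]; rintro ⟨k', -, h⟩; exact hab k' k h)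
    simp only [e1, e2]
    rw [ex_prod_inj a ha (fun k x => 1 - if x = s k then
      (if ω (b k) = t k then (1 : ℝ) else 0) else 0)]
    refine prod_congr rfl fun k _ => ?_
    rw [ex_ind]
    split_ifs <;> simp
  simp only [h2]
  rw [ex_prod_inj b hb (fun k x => 1 - if x = t k then 1 / (Fintype.card α : ℝ) else 0)]
  simp only [ex_ind, prod_const, card_univ]

end

/-- the point of a residue with a given lift -/
def pt {L : ℕ} (ρ : Fin 3 → Fin L) (ε : Fin 3 → Fin 3) : Fin 3 → ℤ :=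
  fun i => ((ρ i : ℕ) : ℤ) + L * ((ε i : ℕ) : ℤ)

/-- reduction modulo `L` -/
def rd {L : ℕ} (hL : 0 < L) (x : ℤ) : Fin L :=
  ⟨(x % L).toNat, by
    have h1 : 0 ≤ x % L := Int.emod_nonneg _ (by omega)
    have h2 : x % L < L := Int.emod_lt_of_pos _ (by omega)
    omega⟩

theorem rd_val {L : ℕ} (hL : 0 < L) (x : ℤ) : ((rd hL x : ℕ) : ℤ) = x % L :=
  Int.toNat_of_nonneg (Int.emod_nonneg _ (by omega))

theorem eq_of_dvd {L : ℕ} {a b : Fin L} (h : (L : ℤ) ∣ ((a : ℕ) : ℤ) - ((b : ℕ) : ℤ)) : a = b := by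
  have := Int.eq_of_sub_eq_zero (Int.eq_zero_of_abs_lt_dvd h (by
    have := a.2; have := b.2; rw [abs_lt]; constructor <;> omega))
  exact Fin.ext (by exact_mod_cast this)

/-- the positive part, as an element of `Fin 3` -/
def pos3 (c : ℤ) : Fin 3 := if c = 2 then 2 else if c = 1 then 1 else 0

theorem pos3_sub {c : ℤ} (h1 : -2 ≤ c) (h2 : c ≤ 2) :
    ((pos3 c : ℕ) : ℤ) - ((pos3 (-c) : ℕ) : ℤ) = c := by
  interval_cases c <;> rfl

/-- the test points -/
def tst {L : ℕ} (i : Fin 3) (z t : Fin L) : Fin 3 → Fin L := fun j => if j = i then z else t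

theorem tst_inj {L : ℕ} (i : Fin 3) (z : Fin L) : Function.Injective (tst i z) := by
  intro t t' h
  have := congrFun h (i + 1)
  have h1 : i + 1 ≠ i := by fin_cases i <;> decide
  simpa [tst, h1] using this

theorem exists_L (C : ℝ) {η : ℝ} (h0 : 0 ≤ η) (h1 : η < 1) :
    ∃ L : ℕ, 2 ≤ L ∧ C * ((L : ℝ) ^ 3 * η ^ L) < 1 := by
  have h := (tendsto_pow_const_mul_const_pow_of_abs_lt_one 3 (r := η)
    (by rwa [abs_of_nonneg h0])).const_mul C
  rw [mul_zero] at h
  obtain ⟨L, hL⟩ := ((h.eventually (gt_mem_nhds one_pos)).and (Filter.eventually_ge_atTop 2)).exists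
  exact ⟨L, hL.2, hL.1⟩

theorem exists_omega {M : ℕ} (hM : 0 < M) :
    ∃ L : ℕ, ∃ hL : 2 ≤ L, ∃ ω : (Fin 3 → Fin L) → Fin M × (Fin 3 → Fin 3),
      (∀ s, ∃ ρ, ω ρ = s) ∧ ∀ (m m' : Fin M) (h : Fin 3 → ℤ), (∀ i, |h i| ≤ 2 * L) →
        (∃ i, ¬ (L : ℤ) ∣ h i) → ∃ ρ ρ', (ω ρ).1 = m ∧ (ω ρ').1 = m' ∧
          pt ρ (ω ρ).2 - pt ρ' (ω ρ').2 = h := by
  classical
  have : Nonempty (Fin M) := ⟨⟨0, hM⟩⟩
  set n : ℕ := Fintype.card (Fin M × (Fin 3 → Fin 3)) with hn
  have hn0 : (0 : ℝ) < n := by exact_mod_cast Fintype.card_pos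
  have hn1 : (1 : ℝ) ≤ n := by exact_mod_cast Fintype.card_pos
  set η : ℝ := 1 - 1 / (n : ℝ) / n with hη
  have hη0 : 0 ≤ η := by
    have : 1 / (n : ℝ) / n ≤ 1 := by
      rw [div_div, div_le_one (by positivity)]; nlinarith
    linarith
  have hη1 : η < 1 := by
    have : 0 < 1 / (n : ℝ) / n := by positivity
    linarith
  obtain ⟨L, hL, hC⟩ := exists_L (n + (M : ℝ) * M * 125) hη0 hη1
  have hL0 : 0 < L := by omega
  let z0 : Fin L := ⟨0, hL0⟩
  let z1 : Fin L := ⟨1, by omega⟩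
  let box : Finset (Fin 3 → ℤ) := (Fintype.piFinset fun _ => Icc (-(2 * L : ℤ)) (2 * L)).filter
    fun h => ∃ i, ¬ (L : ℤ) ∣ h i
  have hbox : (box.card : ℝ) ≤ 125 * (L : ℝ) ^ 3 := by
    have h1 : box.card ≤ (4 * L + 1) ^ 3 := by
      refine (card_filter_le _ _).trans ?_
      rw [Fintype.card_piFinset]
      simp only [Int.card_Icc, prod_const, card_univ, Fintype.card_fin]
      apply le_of_eq
      congr 1
      omega
    have h2 : (box.card : ℝ) ≤ (4 * L + 1) ^ 3 := by exact_mod_cast h1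
    have h3 : (1 : ℝ) ≤ L := by exact_mod_cast hL0
    calc (box.card : ℝ) ≤ (4 * L + 1) ^ 3 := h2
      _ ≤ (5 * L) ^ 3 := by gcongr; linarith
      _ = 125 * (L : ℝ) ^ 3 := by ring
  let bad1 : Fin M × (Fin 3 → Fin 3) → ((Fin 3 → Fin L) → Fin M × (Fin 3 → Fin 3)) → Prop :=
    fun s ω => ∀ ρ, ω ρ ≠ s
  let bad2 : (Fin M × Fin M) × (Fin 3 → ℤ) →
      ((Fin 3 → Fin L) → Fin M × (Fin 3 → Fin 3)) → Prop :=
    fun u ω => ¬ ∃ ρ ρ', (ω ρ).1 = u.1.1 ∧ (ω ρ').1 = u.1.2 ∧ pt ρ (ω ρ).2 - pt ρ' (ω ρ').2 = u.2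
  have p1 : ∀ s, pr (bad1 s) ≤ η ^ L := fun s => by
    have := pr_pairs (tst 0 z0) (tst 0 z1) (tst_inj _ _) (tst_inj _ _) (fun k k' h => by
      have := congrFun h 0
      simp [tst, z0, z1] at this) (fun _ => s) (fun _ => s)
    rw [Fintype.card_fin] at this
    rw [← this]
    exact pr_mono fun ω hω k hk => hω _ hk.1
  have p2 : ∀ u ∈ (univ : Finset (Fin M × Fin M)) ×ˢ box, pr (bad2 u) ≤ η ^ L := by
    rintro ⟨⟨m, m'⟩, h⟩ hu
    obtain ⟨hu1, i, hi⟩ := mem_filter.1 (mem_product.1 hu).2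
    simp only [Fintype.mem_piFinset, mem_Icc] at hu1 hi
    let a : Fin L → Fin 3 → Fin L := fun t j => rd hL0 (((tst i z0 t j : ℕ) : ℤ) + h j)
    let c : Fin L → Fin 3 → ℤ := fun t j => (((tst i z0 t j : ℕ) : ℤ) + h j) / L
    have ha : Function.Injective a := fun t t' e => tst_inj i z0 (funext fun j => eq_of_dvd (by
      have e1 := congrArg (fun x : Fin L => ((x : ℕ) : ℤ)) (congrFun e j)
      simp only [a, rd_val] at e1
      have := Int.ModEq.dvd (Eq.symm e1)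
      simpa using this))
    have := pr_pairs a (tst i z0) ha (tst_inj _ _) (fun k k' e => by
      have e1 := congrArg (fun x : Fin L => ((x : ℕ) : ℤ)) (congrFun e i)
      simp only [a, rd_val, tst, if_true, z0, Nat.cast_zero, zero_add] at e1
      exact hi (Int.dvd_of_emod_eq_zero e1))
      (fun t => (m, fun j => pos3 (c t j))) (fun t => (m', fun j => pos3 (-c t j)))
    rw [Fintype.card_fin] at this
    rw [← this]
    refine pr_mono fun ω hω k hk => hω ⟨a k, tst i z0 k, by rw [hk.1], by rw [hk.2], ?_⟩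
    funext j
    rw [hk.1, hk.2]
    have hlt := (tst i z0 k j).2
    have hc1 : -2 ≤ c k j := Int.le_ediv_of_mul_le (by omega) (by have := (hu1 j).1; omega)
    have hc2 : c k j < 3 := Int.ediv_lt_of_lt_mul (by omega) (by have := (hu1 j).2; omega)
    have e1 := pos3_sub hc1 (by omega)
    have e2 := Int.emod_add_mul_ediv (((tst i z0 k j : ℕ) : ℤ) + h j) L
    simp only [pt, Pi.sub_apply, a, rd_val]
    simp only [c] at e1
    simp only [c]
    linear_combination e2 + (L : ℤ) * e1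
  have ptot : pr (fun ω => (∃ s, bad1 s ω) ∨
      ∃ u ∈ (univ : Finset (Fin M × Fin M)) ×ˢ box, bad2 u ω) < 1 := by
    refine ((pr_or_le _ _).trans (add_le_add (pr_exists_le_mul _ _ p1)
      (pr_exists_mem_le_mul _ _ _ p2))).trans_lt (lt_of_le_of_lt ?_ hC)
    rw [← hn, card_product, card_univ, Fintype.card_prod, Fintype.card_fin]
    push_cast
    have h3 : (1 : ℝ) ≤ (L : ℝ) ^ 3 := one_le_pow₀ (by exact_mod_cast hL0)
    have h4 : 0 ≤ η ^ L := pow_nonneg hη0 _
    have h5 : (n : ℝ) * η ^ L ≤ n * ((L : ℝ) ^ 3 * η ^ L) := by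
      gcongr; nlinarith
    have h6 : (M : ℝ) * M * box.card * η ^ L ≤ (M : ℝ) * M * (125 * (L : ℝ) ^ 3) * η ^ L := by
      gcongr
    nlinarith
  obtain ⟨ω, hω⟩ := exists_not_of_pr_lt_one ptot
  rw [not_or] at hω
  refine ⟨L, hL, ω, fun s => ?_, fun m m' h h1 h2 => ?_⟩
  · by_contra hc
    exact hω.1 ⟨s, fun ρ e => hc ⟨ρ, e⟩⟩
  · by_contra hc
    refine hω.2 ⟨((m, m'), h), mem_product.2 ⟨mem_univ _, mem_filter.2 ⟨?_, h2⟩⟩, hc⟩
    simp only [Fintype.mem_piFinset, mem_Icc]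
    exact fun i => abs_le.1 (h1 i)

end PartAux

open PartAux in
theorem exists_rigid {M : ℕ} (hM : 0 < M) :
    ∃ (L : ℕ) (E : Fin M → Finset (Fin 3 → ℤ)), RigidFam M L E := by
  classical
  obtain ⟨L, hL, ω, h1, h2⟩ := exists_omega hM
  have hL0 : 0 < L := by omega
  refine ⟨L, fun m => (univ.filter fun ρ => (ω ρ).1 = m).image fun ρ => pt ρ (ω ρ).2,
    hL, ?_, fun x => ?_, fun m ε => ?_, fun m m' h hh hi => ?_⟩
  · intro m e he i
    obtain ⟨ρ, -, rfl⟩ := mem_image.1 he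
    have := (ρ i).2
    have h3 := ((ω ρ).2 i).2
    have h4 : (L : ℤ) * (((ω ρ).2 i : ℕ) : ℤ) ≤ L * 2 := by
      gcongr; omega
    simp only [pt]
    constructor
    · positivity
    · omega
  · let ρ : Fin 3 → Fin L := fun i => rd hL0 (x i)
    refine ⟨((ω ρ).1, pt ρ (ω ρ).2), ⟨mem_image.2 ⟨ρ, by simp, rfl⟩, fun i => ?_⟩, ?_⟩
    · simp only [pt, ρ, rd_val]
      refine ⟨x i / L - (((ω fun i => rd hL0 (x i)).2 i : ℕ) : ℤ), ?_⟩
      linear_combination -Int.emod_add_mul_ediv (x i) L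
    · rintro ⟨m, e⟩ ⟨he, hd⟩
      obtain ⟨ρ', hρ', rfl⟩ := mem_image.1 he
      have : ρ' = ρ := funext fun i => eq_of_dvd (by
        obtain ⟨k, hk⟩ := hd i
        simp only [pt] at hk
        simp only [ρ, rd_val]
        refine ⟨x i / L - k - (((ω ρ').2 i : ℕ) : ℤ), ?_⟩
        linear_combination -Int.emod_add_mul_ediv (x i) L - hk)
      subst this
      exact Prod.ext (mem_filter.1 hρ').2.symm rfl
  · obtain ⟨ρ, hρ⟩ := h1 (m, ε)
    refine ⟨pt ρ ε, mem_image.2 ⟨ρ, by simp [hρ], by rw [hρ]⟩, fun i => ?_⟩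
    have := (ρ i).2
    simp only [pt]
    constructor
    · have : (0 : ℤ) ≤ ((ρ i : ℕ) : ℤ) := by positivity
      linarith
    · have : ((ρ i : ℕ) : ℤ) < L := by exact_mod_cast this
      linarith
  · obtain ⟨ρ, ρ', e1, e2, e3⟩ := h2 m m' h hh hi
    exact ⟨_, mem_image.2 ⟨ρ, by simp [e1], rfl⟩, _, mem_image.2 ⟨ρ', by simp [e2], rfl⟩, e3⟩

end Crest.Agent.R46
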