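import Crest.Agent.R46.QCon

/-! The type links: off the line the type variable has slope zero. -/

set_option autoImplicit false
set_option linter.unusedSectionVars false

namespace Crest.Agent.R46

open Finset Crest.CombinatoricsR.Tiling Crest.Agent.R34

namespace Setup

variable {F A : Type} (S : Setup F A) [Fintype F] [Fintype A] [DecidableEq F] [DecidableEq A]

/-- At a point `g` where the marker and the `q`-component vanish, if the vector `κ` of the partner
is not on the line `l`, the type variable `pi n l` is invariant under `tm` at `g`. -/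
theorem pi_flat (R : S.R) (h : S.Con R) {typ sg : ℤ → Bool} (hM : S.Mark R typ sg) (n : F)
    (l : Fin S.Λ) (g : S.G) (h2 : R.ρ g .two = 0) (hq : R.ρ g (.qq n) = 0)
    (κ : ZMod (S.q n) × ZMod (S.q n))
    (hκ : S.Rq R n (S.partner sg g.1 - ((κ.1.val : ℤ) * S.q n) • (S.E (.qq n) • S.v n))
      (g.2 (.qq n) - (κ.2.val : ZMod (S.q n ^ 3)) * (S.q n : ZMod (S.q n ^ 3)) ^ 2) = 0)
    (hl : ¬ InL (S.q n) l κ) :
    R.ρ (g + S.tm (.pi n l) n) (.pi n l) = R.ρ g (.pi n l) := by
  have hE := S.fourq2_dvd_E n (.pi n l) (by simp) (by simp)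
  have hw2 : S.tm (.pi n l) n ∈ R.stab .two :=
    h.toCon1.dv_two (((dvd_mul_right _ _).trans hE).mul_right _)
  have hwq : S.tm (.pi n l) n ∈ R.stab (.qq n) :=
    h.toCon1.dv_qq n (hE.mul_right _) (hE.mul_right _)
  have hk2 : S.kt n κ ∈ R.stab .two :=
    add_mem (AddSubgroup.zsmul_mem _
      (h.toCon1.dv_two ((S.four_dvd_E (.qq n) (by simp)).mul_right _)) _)
      (AddSubgroup.zsmul_mem _ (h.two_dom n) _)
  obtain ⟨w, hw⟩ : ∃ w, w = S.tm (.pi n l) n := ⟨_, rfl⟩
  obtain ⟨y, hy⟩ : ∃ y, y = g - (S.a + S.ev (sg g.1.1, false)) + -S.kt n κ := ⟨_, rfl⟩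
  have hy2 : R.ρ y .two = 0 := by
    rw [hy, (R.stab .two).neg_mem hk2, hM.par g h2]
  have hyq : R.ρ y (.qq n) = 0 := by
    rw [S.rho_qq R n (h.q_dom n)]
    have e1 : y.1 = S.partner sg g.1 - ((κ.1.val : ℤ) * S.q n) • (S.E (.qq n) • S.v n) := by
      rw [hy]
      cases hs : sg g.1.1 <;>
        ext <;> simp [a, ev, kt, mq, dom, dv, fib, partner, hs] <;> ring
    have e2 : y.2 (.qq n) =
        g.2 (.qq n) - (κ.2.val : ZMod (S.q n ^ 3)) * (S.q n : ZMod (S.q n ^ 3)) ^ 2 := by
      have e3 : (S.a + S.ev (sg g.1.1, false)).2 = 0 := by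
        cases hs : sg g.1.1 <;> simp [a, ev, dv]
      have e4 : (S.kt n κ).2 (.qq n) =
          (κ.2.val : ZMod (S.q n ^ 3)) * (S.q n : ZMod (S.q n ^ 3)) ^ 2 := by
        simp only [kt, mq, dom, dv, fib, Prod.snd_add, Prod.smul_snd, smul_zero, zero_add,
          Pi.smul_apply, Pi.single_eq_same]
        rw [zsmul_one]
        push_cast
        rfl
      rw [hy, Prod.snd_add, Prod.snd_sub, e3, sub_zero, Prod.snd_neg, Pi.add_apply, Pi.neg_apply,
        e4, sub_eq_add_neg]
    rw [e1, e2]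
    exact hκ
  have zero_of : ∀ x : S.G, R.ρ x .two = 0 → R.ρ x (.qq n) = 0 →
      R.Zero {.two, .qq n} x := by
    intro x h1 h2 c hc
    rcases mem_insert.1 hc with rfl | hc
    · exact h1
    · rw [mem_singleton.1 hc]; exact h2
  have hev : S.ev (false, false) = 0 := by simp [ev]
  have hkt : S.kt n 0 = 0 := by simp [kt]
  rw [← hw] at hw2 hwq ⊢
  have zg : R.Zero {.two, .qq n} g := zero_of g h2 hq
  have zgw : R.Zero {.two, .qq n} (g + w) :=
    zero_of _ ((hw2 g).trans h2) ((hwq g).trans hq)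
  have zyw : R.Zero {.two, .qq n} (y + w) :=
    zero_of _ ((hw2 y).trans hy2) ((hwq y).trans hyq)
  have a0 : g + w - S.P0 n l 0 ((false, false), 0) = g + w := by
    simp [P0, hev, hkt]
  have a1 : g + w - S.P1 n l 0 ((sg g.1.1, false), κ) = y + w := by
    simp only [P1, P0, if_neg hl, hy]; abel
  have b0 : g + w - S.P0 n l w ((false, false), 0) = g := by
    simp [P0, hev, hkt, inL_zero]
  have b1 : g + w - S.P1 n l w ((sg g.1.1, false), κ) = y + w := by
    simp only [P1, P0, if_neg hl, hy]; abel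
  have l0 := h.plink0 n l (g + w) ((false, false), 0) ((sg g.1.1, false), κ)
  have l1 := h.plink1 n l (g + w) ((false, false), 0) ((sg g.1.1, false), κ)
  rw [← hw] at l1
  rw [a0, a1] at l0
  rw [b0, b1] at l1
  exact (sub_eq_zero.1 (AddSubgroup.mem_bot.1 (l0 zgw zyw))).trans
    (sub_eq_zero.1 (AddSubgroup.mem_bot.1 (l1 zg zyw))).symm

end Setup

end Crest.Agent.R46
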