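import Crest.Agent.R46.Defs

/-! Densities of periodic predicates. -/

set_option autoImplicit false

namespace Crest.Agent.R46

open Finset Crest.CombinatoricsR.Tiling Crest.Agent.R34

theorem dens1_mono {N : ℕ} {P Q : ℤ → Prop} (h : ∀ m, P m → Q m) : dens1 N P ≤ dens1 N Q :=
  pr_mono fun _ => h _

theorem dens2_mono {N : ℕ} {P Q : ℤ × ℤ → Prop} (h : ∀ x, P x → Q x) : dens2 N P ≤ dens2 N Q :=
  pr_mono fun _ => h _

theorem dens1_or_le (N : ℕ) (P Q : ℤ → Prop) :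
    dens1 N (fun m => P m ∨ Q m) ≤ dens1 N P + dens1 N Q :=
  pr_or_le _ _

theorem dens2_or_le (N : ℕ) (P Q : ℤ × ℤ → Prop) :
    dens2 N (fun x => P x ∨ Q x) ≤ dens2 N P + dens2 N Q :=
  pr_or_le _ _

theorem dens2_exists_le (N : ℕ) {β : Type} (s : Finset β) (P : β → ℤ × ℤ → Prop) :
    dens2 N (fun x => ∃ b ∈ s, P b x) ≤ ∑ b ∈ s, dens2 N (P b) :=
  pr_exists_mem_le s fun b (x : Fin N × Fin N) => P b (((x.1 : ℕ) : ℤ), ((x.2 : ℕ) : ℤ))

theorem exists_of_dens1_lt {N : ℕ} (hN : 0 < N) {P : ℤ → Prop} (h : dens1 N P < 1) :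
    ∃ m, ¬ P m := by
  have : Nonempty (Fin N) := ⟨⟨0, hN⟩⟩
  obtain ⟨m, hm⟩ := exists_not_of_pr_lt_one h
  exact ⟨_, hm⟩

theorem exists_of_dens2_lt {N : ℕ} (hN : 0 < N) {P : ℤ × ℤ → Prop} (h : dens2 N P < 1) :
    ∃ x, ¬ P x := by
  have : Nonempty (Fin N) := ⟨⟨0, hN⟩⟩
  obtain ⟨m, hm⟩ := exists_not_of_pr_lt_one h
  exact ⟨_, hm⟩

theorem prA_not {Ω : Type} [Fintype Ω] [Nonempty Ω] (E : Ω → Prop) :
    pr (fun ω => ¬ E ω) = 1 - pr E := by
  classical
  rw [eq_sub_iff_add_eq, pr_eq_ex, pr_eq_ex, ← ex_add]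
  refine Eq.trans (congrArg ex (funext fun ω => ?_)) (ex_const (Ω := Ω) 1)
  by_cases h : E ω <;> simp [h]

theorem dens1_not {N : ℕ} (hN : 0 < N) (P : ℤ → Prop) :
    dens1 N (fun m => ¬ P m) = 1 - dens1 N P := by
  have : Nonempty (Fin N) := ⟨⟨0, hN⟩⟩
  exact prA_not _

theorem dens2_not {N : ℕ} (hN : 0 < N) (P : ℤ × ℤ → Prop) :
    dens2 N (fun x => ¬ P x) = 1 - dens2 N P := by
  have : Nonempty (Fin N) := ⟨⟨0, hN⟩⟩
  exact prA_not _

theorem Per1.mul {N : ℕ} {P : ℤ → Prop} (hP : Per1 N P) (m k : ℤ) : P (m + N * k) ↔ P m := by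
  induction k using Int.induction_on with
  | zero => rw [mul_zero, add_zero]
  | succ k ih => rw [mul_add, mul_one, ← add_assoc, hP, ih]
  | pred k ih =>
    rw [← hP, ← ih]
    exact iff_of_eq (congrArg P (by ring))

theorem Per2.fst {N : ℕ} {P : ℤ × ℤ → Prop} (hP : Per2 N P) (t : ℤ) : Per1 N fun s => P (s, t) :=
  fun s => by simpa using (hP (s, t)).1

theorem Per2.snd {N : ℕ} {P : ℤ × ℤ → Prop} (hP : Per2 N P) (s : ℤ) : Per1 N fun t => P (s, t) :=
  fun t => by simpa using (hP (s, t)).2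

theorem Per2.smul {N : ℕ} {P : ℤ × ℤ → Prop} (hP : Per2 N P) (x y : ℤ × ℤ) :
    P (x + (N : ℤ) • y) ↔ P x :=
  ((hP.fst (x.2 + N * y.2)).mul x.1 y.1).trans ((hP.snd x.1).mul x.2 y.2)

theorem per2_of_smul {N : ℕ} {P : ℤ × ℤ → Prop} (h : ∀ x y, P (x + (N : ℤ) • y) ↔ P x) :
    Per2 N P := fun x =>
  ⟨by simpa using h x (1, 0), by simpa using h x (0, 1)⟩

theorem dens1_eq_range (N : ℕ) (P : ℤ → Prop) [DecidablePred P] :
    dens1 N P = (∑ m ∈ range N, if P m then (1 : ℝ) else 0) / N := by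
  rw [dens1, pr_eq_ex, ex, Fintype.card_fin,
    Fin.sum_univ_eq_sum_range (fun m : ℕ => if P m then (1 : ℝ) else 0)]

theorem dens1_shift_one {N : ℕ} {P : ℤ → Prop} (hP : Per1 N P) :
    dens1 N (fun m => P (1 + m)) = dens1 N P := by
  classical
  rw [dens1_eq_range, dens1_eq_range]
  congr 1
  have h1 := sum_range_succ (fun m : ℕ => if P m then (1 : ℝ) else 0) N
  have h2 := sum_range_succ' (fun m : ℕ => if P m then (1 : ℝ) else 0) N
  have h3 : P (N : ℕ) ↔ P (0 : ℕ) := by simpa using hP 0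
  simp only [h3] at h1
  simp only [Nat.cast_add, Nat.cast_one, add_comm _ (1 : ℤ)] at h2
  exact add_right_cancel (h2.symm.trans h1)

theorem Per1.shift {N : ℕ} {P : ℤ → Prop} (hP : Per1 N P) (s : ℤ) : Per1 N fun m => P (s + m) :=
  fun m => by
    show P (s + (m + N)) ↔ P (s + m)
    rw [← add_assoc, hP]

theorem dens1_shift {N : ℕ} {P : ℤ → Prop} (hP : Per1 N P) (s : ℤ) :
    dens1 N (fun m => P (s + m)) = dens1 N P := by
  induction s using Int.induction_on with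
  | zero => simp only [zero_add]
  | succ k ih =>
    rw [← ih, ← dens1_shift_one (hP.shift k)]
    simp only [add_assoc]
  | pred k ih =>
    rw [← ih, ← dens1_shift_one (hP.shift (-k - 1))]
    simp only [← add_assoc, sub_add_cancel]

/-- Fubini, first coordinate outside -/
theorem dens2_eq_ex (N : ℕ) (P : ℤ × ℤ → Prop) :
    dens2 N P = ex (fun s : Fin N => dens1 N (fun t => P (((s : ℕ) : ℤ), t))) := by
  classical
  simp only [dens1, dens2, pr_eq_ex, ex]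
  rw [Fintype.sum_prod_type, ← sum_div, div_div, Fintype.card_prod, Nat.cast_mul]

/-- Fubini, second coordinate outside -/
theorem dens2_eq_ex' (N : ℕ) (P : ℤ × ℤ → Prop) :
    dens2 N P = ex (fun t : Fin N => dens1 N (fun s => P (s, ((t : ℕ) : ℤ)))) := by
  classical
  simp only [dens1, dens2, pr_eq_ex, ex]
  rw [Fintype.sum_prod_type_right, ← sum_div, div_div, Fintype.card_prod, Nat.cast_mul]

theorem dens2_shift {N : ℕ} {P : ℤ × ℤ → Prop} (hP : Per2 N P) (s : ℤ × ℤ) :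
    dens2 N (fun x => P (s + x)) = dens2 N P := by
  have h1 : dens2 N (fun x => P (s + x)) = dens2 N (fun x => P (s.1 + x.1, x.2)) := by
    rw [dens2_eq_ex, dens2_eq_ex]
    exact congrArg ex (funext fun a => dens1_shift (hP.snd (s.1 + ((a : ℕ) : ℤ))) s.2)
  rw [h1, dens2_eq_ex', dens2_eq_ex']
  exact congrArg ex (funext fun a => dens1_shift (hP.fst ((a : ℕ) : ℤ)) s.1)

end Crest.Agent.R46
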