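import Crest.Agent.R46.Basic

/-! The rank-two transversal of a `q`-component. -/

set_option autoImplicit false
set_option linter.unusedSectionVars false

namespace Crest.Agent.R46

open Finset Crest.CombinatoricsR.Tiling Crest.Agent.R34

namespace QTransAux

variable {q : ℕ} {R : ℤ × ℤ → ZMod (q ^ 3) → ZMod (q ^ 3)} {typ : ℤ × ℤ → Bool} {m l : ℤ × ℤ}

theorem typ_smul (h : QHyp q R typ m l) (x : ℤ × ℤ) (j : ℤ) : typ (x + j • m) = typ x := by
  induction j using Int.induction_on with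
  | zero => rw [zero_smul, add_zero]
  | succ k ih => rw [add_smul, one_smul, ← add_assoc, h.typ_m, ih]
  | pred k ih =>
    rw [← h.typ_m, ← ih, sub_smul, one_smul, add_assoc, sub_add_cancel]

theorem iter (h : QHyp q R typ m l) (x : ℤ × ℤ) (y : ZMod (q ^ 3)) (j : ℤ) :
    R (x + j • m) (y + (j : ZMod (q ^ 3)) * if typ x then -1 else 1) - R x y ∈
      AddSubgroup.zmultiples (((q : ℕ) : ZMod (q ^ 3)) ^ 2) := by
  induction j using Int.induction_on with
  | zero => simp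
  | succ k ih =>
    have h1 := h.q1 (x + (k : ℤ) • m) (y + ((k : ℤ) : ZMod (q ^ 3)) * if typ x then -1 else 1)
    rw [typ_smul h] at h1
    have h2 := add_mem h1 ih
    rw [sub_add_sub_cancel] at h2
    rwa [add_smul, one_smul, ← add_assoc, Int.cast_add, Int.cast_one, add_mul, one_mul, ← add_assoc]
  | pred k ih =>
    have h1 := h.q1 (x + (-(k : ℤ) - 1) • m)
      (y + ((-(k : ℤ) - 1 : ℤ) : ZMod (q ^ 3)) * if typ x then -1 else 1)
    rw [typ_smul h] at h1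
    have e1 : x + (-(k : ℤ) - 1) • m + m = x + (-(k : ℤ)) • m := by
      rw [sub_smul, one_smul, add_assoc, sub_add_cancel]
    have e2 : (y + ((-(k : ℤ) - 1 : ℤ) : ZMod (q ^ 3)) * if typ x then -1 else 1) +
        (if typ x then -1 else 1) = y + ((-(k : ℤ) : ℤ) : ZMod (q ^ 3)) * if typ x then -1 else 1 := by
      rw [Int.cast_sub, Int.cast_one]; ring
    rw [e1, e2] at h1
    have h2 := sub_mem ih h1
    rwa [sub_sub_sub_cancel_left] at h2

theorem zero_iff (hq : q.Prime) (u : ℤ) :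
    (u : ZMod (q ^ 3)) * (q : ZMod (q ^ 3)) = 0 ↔ (q : ℤ) ^ 2 ∣ u := by
  have hq0 : (q : ℤ) ≠ 0 := by exact_mod_cast hq.ne_zero
  rw [← Int.cast_natCast (R := ZMod (q ^ 3)) q, ← Int.cast_mul, ZMod.intCast_zmod_eq_zero_iff_dvd,
    Nat.cast_pow, pow_succ, mul_dvd_mul_iff_right hq0]

end QTransAux

open QTransAux in
/-- for every point there is exactly one `κ` moving it to a zero of `R` -/
theorem q_trans {q : ℕ} (hq : q.Prime) {R : ℤ × ℤ → ZMod (q ^ 3) → ZMod (q ^ 3)}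
    {typ : ℤ × ℤ → Bool} {m l : ℤ × ℤ} (h : QHyp q R typ m l) (x : ℤ × ℤ) (y : ZMod (q ^ 3)) :
    ∃! κ : ZMod q × ZMod q, R (x - ((κ.1.val : ℤ) * q) • m)
      (y - (κ.2.val : ZMod (q ^ 3)) * (q : ZMod (q ^ 3)) ^ 2) = 0 := by
  have : NeZero q := ⟨hq.ne_zero⟩
  have hq0 : (q : ℤ) ≠ 0 := by exact_mod_cast hq.ne_zero
  obtain ⟨s, hs, hs2⟩ : ∃ s : ℤ, ((s : ℤ) : ZMod (q ^ 3)) = (if typ x then -1 else 1) ∧ s * s = 1 := by
    split_ifs
    · exact ⟨-1, by simp, by simp⟩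
    · exact ⟨1, by simp, by simp⟩
  obtain ⟨a, ha⟩ := AddSubgroup.mem_zmultiples_iff.1 (h.mem x y)
  have hb : ∀ k : ℤ, ∃ b : ℤ, ∀ t : ℤ,
      (R (x - (k * q) • m) (y - (t : ZMod (q ^ 3)) * (q : ZMod (q ^ 3)) ^ 2) = 0 ↔
        (q : ℤ) ^ 2 ∣ a + k * s + (b - t) * q) := by
    intro k
    obtain ⟨b, hb⟩ := AddSubgroup.mem_zmultiples_iff.1 (iter h x y (-(k * q)))
    refine ⟨b, fun t => ?_⟩
    rw [← hs, neg_smul, ← sub_eq_add_neg, ← ha, h.equiv _ y _
      (AddSubgroup.mem_zmultiples_iff.2 ⟨-(k * s), by rw [zsmul_eq_mul]; push_cast; ring⟩)] at hb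
    rw [sub_eq_add_neg y, h.equiv _ y _
      (AddSubgroup.mem_zmultiples_iff.2 ⟨-(t * q), by rw [zsmul_eq_mul]; push_cast; ring⟩),
      ← zero_iff hq]
    rw [zsmul_eq_mul, zsmul_eq_mul] at hb
    refine iff_of_eq (congrArg (· = 0) ?_)
    push_cast at hb ⊢
    linear_combination -hb
  choose b hb using hb
  have key : ∀ κ : ZMod q × ZMod q, (R (x - ((κ.1.val : ℤ) * q) • m)
      (y - (κ.2.val : ZMod (q ^ 3)) * (q : ZMod (q ^ 3)) ^ 2) = 0 ↔
        (q : ℤ) ^ 2 ∣ a + κ.1.val * s + (b κ.1.val - κ.2.val) * q) := fun κ => by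
    have := hb κ.1.val κ.2.val
    rwa [Int.cast_natCast] at this
  have hs3 : (s : ZMod q) * s = 1 := by exact_mod_cast congrArg (Int.cast : ℤ → ZMod q) hs2
  have h1 : ∀ k : ZMod q, (q : ℤ) ∣ a + k.val * s ↔ k = -(a * s) := fun k => by
    rw [← ZMod.intCast_zmod_eq_zero_iff_dvd]
    push_cast
    rw [ZMod.natCast_zmod_val]
    constructor
    · intro e
      linear_combination (s : ZMod q) * e - k * hs3
    · intro e
      linear_combination (s : ZMod q) * e - (a : ZMod q) * hs3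
  obtain ⟨c, hc⟩ := (h1 _).2 rfl
  have h2 : ∀ t : ZMod q, (q : ℤ) ^ 2 ∣ a + (-(a * s) : ZMod q).val * s +
      (b (-(a * s) : ZMod q).val - t.val) * q ↔ t = c + b (-(a * s) : ZMod q).val := fun t => by
    rw [hc, mul_comm _ c, ← add_mul, sq, mul_dvd_mul_iff_right hq0,
      ← ZMod.intCast_zmod_eq_zero_iff_dvd]
    rw [Int.cast_add, Int.cast_sub, Int.cast_natCast, ZMod.natCast_zmod_val, ← add_sub_assoc,
      sub_eq_zero, eq_comm]
  refine ⟨(-(a * s), c + b (-(a * s) : ZMod q).val), (key _).2 ((h2 _).2 rfl), fun κ hκ => ?_⟩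
  have h3 := (key κ).1 hκ
  have h4 : κ.1 = -(a * s) := (h1 _).1
    ((dvd_add_left (dvd_mul_left _ _)).1 ((dvd_pow_self _ two_ne_zero).trans h3))
  rw [h4] at h3
  exact Prod.ext h4 ((h2 _).1 h3)

end Crest.Agent.R46
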