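import Crest.Agent.R46.Marker
import Crest.Agent.R46.QTrans

/-! The marker links give the abstract properties of the `q`-components. -/

set_option autoImplicit false
set_option linter.unusedSectionVars false

namespace Crest.Agent.R46

open Finset Crest.CombinatoricsR.Tiling Crest.Agent.R34

namespace Setup

variable {F A : Type} (S : Setup F A) [Fintype F] [Fintype A] [DecidableEq F] [DecidableEq A]

theorem zero_two_qq (R : S.R) (n : F) (g : S.G) :
    R.Zero {.two, .qq n} g ↔ R.ρ g .two = 0 ∧ R.ρ g (.qq n) = 0 := by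
  simp [Rho.Zero]

theorem L0_ff (x y : S.G) : S.L0 x y (false, false) = 0 := by
  simp [L0, ev]

/-- a marker link forces an invariance that depends on the type of the site -/
theorem link_key (R : S.R) (h : S.Con2 R) {typ sg : ℤ → Bool} (hM : S.Mark R typ sg) (n : F)
    {x y : S.G} (hx : x ∈ R.stab .two) (hy : y ∈ R.stab .two) {K' : AddSubgroup (S.Hc (.qq n))}
    (hL : R.Link {.two} (S.L0 x y) (S.L1 x y) (.qq n) K') (g : S.G) (hg : R.ρ g .two = 0) :
    R.ρ (g + if typ g.1.1 then y else x) (.qq n) - R.ρ g (.qq n) ∈ K' := by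
  obtain ⟨ij, hij, h0⟩ := hM.lnk g hg
  rw [← hij]
  set z : S.G := if xor ij.1 ij.2 then y else x with hz
  have hz2 : z ∈ R.stab .two := by rw [hz]; split_ifs <;> assumption
  have e1 : g - S.L1 x y ij = g - (S.a + S.t2 + S.ev ij) + z := by rw [L1, ← hz]; abel
  have e2 : g + z - S.L1 0 0 ij = g - (S.a + S.t2 + S.ev ij) + z := by
    rw [L1, ite_self]; abel
  have h0' : R.ρ (g - (S.a + S.t2 + S.ev ij) + z) .two = 0 := (hz2 _).trans h0
  have h1 := hL g (false, false) ij (by rw [zero_two, L0_ff, sub_zero]; exact hg)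
    (by rw [zero_two, e1]; exact h0')
  have h2 := h.link0 n (g + z) (false, false) ij
    (by rw [zero_two, L0_ff, sub_zero]; exact (hz2 g).trans hg) (by rw [zero_two, e2]; exact h0')
  rw [L0_ff, sub_zero, e1] at h1
  rw [L0_ff, sub_zero, e2, AddSubgroup.mem_bot, sub_eq_zero] at h2
  rw [h2, ← neg_sub]
  exact neg_mem h1

/-- every pair of coordinates is realised by a zero of the marker -/
theorem exists_zero_two (R : S.R) (n : F) (x : ℤ × ℤ) (y : S.Hc (.qq n)) :
    ∃ g : S.G, R.ρ g .two = 0 ∧ g.1 = x ∧ g.2 (.qq n) = y := by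
  refine ⟨(x, Pi.single (M := S.Hc) (.qq n) y) +
    S.fib .two (-R.ρ (x, Pi.single (M := S.Hc) (.qq n) y) .two), ?_, ?_, ?_⟩
  · rw [S.rho_fib R .two (by trivial), add_neg_cancel]
  · simp [fib]
  · simp [fib]

theorem four_dvd_E_qq (n : F) (v : ℤ × ℤ) : 4 ∣ (S.E (.qq n) • v).1 :=
  (S.four_dvd_E (.qq n) (by simp)).mul_right _

theorem mq_two {R : S.R} (h : S.Con1 R) (n : F) : S.mq n ∈ R.stab .two :=
  h.dv_two (S.four_dvd_E_qq n _)

theorem lq_two {R : S.R} (h : S.Con1 R) (n : F) : S.lq n ∈ R.stab .two :=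
  h.dv_two (S.four_dvd_E_qq n _)

theorem kt_two {R : S.R} (h : S.Con1 R) (n : F) (κ : ZMod (S.q n) × ZMod (S.q n)) :
    S.kt n κ ∈ R.stab .two :=
  add_mem (zsmul_mem (S.mq_two h n) _) (zsmul_mem (h.two_dom n) _)

theorem qhyp_of_con2 (R : S.R) (h : S.Con2 R) {typ sg : ℤ → Bool} (hM : S.Mark R typ sg)
    (n : F) : QHyp (S.q n) (S.Rq R n) (fun x => typ x.1) (S.E (.qq n) • S.v n)
      (S.E (.qq n) • S.u n) where
  mem x y := R.mem _ (.qq n)
  equiv x y k hk := by
    have := S.rho_fib R (.qq n) hk (x, Pi.single (M := S.Hc) (.qq n) y)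
    rw [Rq, Rq, ← this]
    simp [fib, Pi.single_add]
  q1 x y := by
    obtain ⟨g, hg, rfl, rfl⟩ := S.exists_zero_two R n x y
    have := S.link_key R h hM n (add_mem (S.mq_two h.toCon1 n) (h.two_dom n))
      (sub_mem (S.mq_two h.toCon1 n) (h.two_dom n)) (h.link1 n) g hg
    rw [S.rho_qq R n (h.q_dom n), S.rho_qq R n (h.q_dom n)] at this
    convert this using 3
    · rfl
    · split_ifs <;> simp [mq, dv, dom, fib]
    · split_ifs <;> simp [mq, dv, dom, fib]
  q2 x y := by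
    obtain ⟨g, hg, rfl, rfl⟩ := S.exists_zero_two R n x y
    have := S.link_key R h hM n (S.lq_two h.toCon1 n)
      (add_mem (S.lq_two h.toCon1 n) (zsmul_mem (h.two_dom n) _)) (h.link2 n) g hg
    rw [S.rho_qq R n (h.q_dom n), S.rho_qq R n (h.q_dom n), AddSubgroup.mem_bot,
      sub_eq_zero] at this
    convert this using 2
    · split_ifs <;> simp [lq, dv, dom, fib]
    · split_ifs <;> simp [lq, dv, dom, fib]
  typ_m x := hM.typ_per _ _ (by simpa using S.four_dvd_E_qq n (S.v n))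
  typ_l x := hM.typ_per _ _ (by simpa using S.four_dvd_E_qq n (S.u n))

theorem trans_P0 (R : S.R) (h : S.Con2 R) (n : F) (l : ℕ) (w : S.G) (hw2 : w ∈ R.stab .two)
    (hwq : w ∈ R.stab (.qq n)) : R.Trans {.two, .qq n} (S.P0 n l w) := by
  classical
  intro g
  obtain ⟨typ, sg, hM⟩ := S.marker R h.toCon1
  have key : ∀ z : (Bool × Bool) × (ZMod (S.q n) × ZMod (S.q n)),
      R.Zero {.two, .qq n} (g - S.P0 n l w z) ↔ R.Zero {.two} (g - S.ev z.1) ∧
        S.Rq R n ((g - S.ev z.1).1 - ((z.2.1.val : ℤ) * S.q n) • (S.E (.qq n) • S.v n))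
          ((g - S.ev z.1).2 (.qq n) -
            (z.2.2.val : ZMod (S.q n ^ 3)) * (S.q n : ZMod (S.q n ^ 3)) ^ 2) = 0 := fun z => by
    set w' : S.G := if InL (S.q n) l z.2 then w else 0 with hw'
    have a2 : -w' ∈ R.stab .two := neg_mem (by rw [hw']; split_ifs; exacts [hw2, zero_mem _])
    have aq : -w' ∈ R.stab (.qq n) := neg_mem (by rw [hw']; split_ifs; exacts [hwq, zero_mem _])
    have e : g - S.P0 n l w z = g - S.ev z.1 + -S.kt n z.2 + -w' := by
      rw [P0, hw']; abel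
    rw [zero_two_qq, zero_two, e, a2, aq, neg_mem (S.kt_two h.toCon1 n z.2),
      S.rho_qq R n (h.q_dom n)]
    congr! 3
    · simp [kt, mq, dv, dom, fib, sub_eq_add_neg]
    · simp [kt, mq, dv, dom, fib, sub_eq_add_neg, -ZMod.natCast_val]
  obtain ⟨ij, h1, h2⟩ := h.m1 g
  obtain ⟨κ, h3, h4⟩ := q_trans (S.q_prime n) (S.qhyp_of_con2 R h hM n) (g - S.ev ij).1
    ((g - S.ev ij).2 (.qq n))
  refine ⟨(ij, κ), (key _).2 ⟨h1, h3⟩, ?_⟩
  rintro ⟨ij', κ'⟩ hz
  obtain ⟨h5, h6⟩ := (key _).1 hz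
  obtain rfl : ij' = ij := h2 _ h5
  exact Prod.ext rfl (h4 _ h6)

theorem trans_P1 (R : S.R) (h : S.Con2 R) (n : F) (l : ℕ) (w : S.G) (hw2 : w ∈ R.stab .two)
    (hwq : w ∈ R.stab (.qq n)) : R.Trans {.two, .qq n} (S.P1 n l w) := by
  intro g
  simpa only [P1, sub_sub] using S.trans_P0 R h n l w hw2 hwq (g - S.a)

end Setup

end Crest.Agent.R46
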