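import Crest.Agent.R46.Basic

/-! The intended solution as a section. -/

set_option autoImplicit false
set_option linter.unusedSectionVars false

namespace Crest.Agent.R46

open Finset Crest.CombinatoricsR.Tiling Crest.Agent.R34

theorem typ0_congr {k k' : ℤ} (h : 4 ∣ k - k') : typ0 k = typ0 k' := by
  unfold typ0
  have : k % 4 = k' % 4 := by omega
  rw [this]

theorem Gam0_congr {k k' : ℤ} (h : 4 ∣ k - k') : Gam0 k = Gam0 k' := by
  unfold Gam0
  have : k % 4 = k' % 4 := by omega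
  rw [this]

namespace Setup

variable {F A : Type} (S : Setup F A) (X : ∀ n, XY (S.q n)) (f : F → ℤ → A)

/-- the intended `q`-component only sees the site modulo `4 q²` and its own coordinate -/
theorem rq0_congr (n : F) (g g' : S.G) (h1 : 4 * (S.q n : ℤ) ^ 2 ∣ g.1.1 - g'.1.1)
    (h2 : 4 * (S.q n : ℤ) ^ 2 ∣ g.1.2 - g'.1.2) (hy : g.2 (.qq n) = g'.2 (.qq n)) :
    S.rq0 X n g = S.rq0 X n g' := by
  unfold rq0
  have h4 : (4 : ℤ) ∣ g.1.1 - g'.1.1 := (dvd_mul_right _ _).trans h1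
  have hq : (S.q n : ℤ) ^ 2 ∣ 4 * (S.q n : ℤ) ^ 2 := dvd_mul_left _ _
  rw [typ0_congr h4, hy]
  apply (X n).congr
  · rw [← mu_sub]; exact hq.trans (dvd_mu _ h1 h2)
  · rw [← lam_sub]; exact ((dvd_pow_self _ two_ne_zero).trans hq).trans (dvd_lam _ h1 h2)

theorem rq0_equiv (n : F) (g : S.G) (κ : ∀ c, S.Hc c) (hκ : κ (.qq n) ∈ S.K (.qq n)) :
    S.rq0 X n (g + (0, κ)) = S.rq0 X n g + κ (.qq n) := by
  unfold rq0
  simp only [Prod.fst_add, add_zero, Prod.snd_add, Pi.add_apply]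
  exact (X n).equiv _ _ _ _ _ hκ

/-- the intended difference vector only sees the site modulo `4 q²` and the `q`-coordinate
modulo `q` -/
theorem d0_congr (n : F) (g g' : S.G) (h1 : 4 * (S.q n : ℤ) ^ 2 ∣ g.1.1 - g'.1.1)
    (h2 : 4 * (S.q n : ℤ) ^ 2 ∣ g.1.2 - g'.1.2)
    (hy : g.2 (.qq n) - g'.2 (.qq n) ∈ S.K (.qq n)) : S.d0 X n g = S.d0 X n g' := by
  classical
  have hq : (S.q n : ℤ) ∣ 4 * (S.q n : ℤ) ^ 2 :=
    (dvd_pow_self _ two_ne_zero).trans (dvd_mul_left _ _)
  have h3 : S.rq0 X n g = S.rq0 X n g' + (g.2 (.qq n) - g'.2 (.qq n)) := by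
    have := S.rq0_equiv X n g' (Pi.single (M := S.Hc) (.qq n) (g.2 (.qq n) - g'.2 (.qq n)))
      (by simpa using hy)
    rw [Pi.single_eq_same] at this
    rw [← this]
    apply S.rq0_congr
    · simpa using h1
    · simpa using h2
    · simp
  unfold d0
  apply (X n).dc_congr
  · rw [← mu_sub]; exact hq.trans (dvd_mu _ h1 h2)
  · rw [← lam_sub]; exact hq.trans (dvd_lam _ h1 h2)
  · rw [h3]
    have : g.2 (.qq n) - (S.rq0 X n g' + (g.2 (.qq n) - g'.2 (.qq n))) -
        (g'.2 (.qq n) - S.rq0 X n g') = 0 := by ring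
    rw [this]; exact zero_mem _

theorem d0_equiv (n : F) (g : S.G) (κ : ∀ c, S.Hc c) (hκ : κ (.qq n) ∈ S.K (.qq n)) :
    S.d0 X n (g + (0, κ)) = S.d0 X n g := by
  apply S.d0_congr <;> simp [hκ]

theorem inL_lsel (n : F) (d : ZMod (S.q n) × ZMod (S.q n)) : InL (S.q n) (S.lsel n d) d := by
  unfold InL lsel
  by_cases h : d.1 = 0
  · simp [h]
  · rw [if_neg h, if_pos (ZMod.val_lt _), ZMod.natCast_zmod_val, div_mul_cancel₀ _ h]

theorem lsel_lt (n : F) (d : ZMod (S.q n) × ZMod (S.q n)) : S.lsel n d < S.Λ := by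
  unfold lsel
  split_ifs
  · exact S.q_lt n
  · exact (ZMod.val_lt _).trans (S.q_lt n)

/-- the intended solution -/
noncomputable def R0 : S.R where
  ρ := S.rho0 X f
  mem := fun g c => by
    cases c with
    | two => trivial
    | qq n => exact (X n).mem _ _ _ _
    | pi n l => trivial
    | be n e l => trivial
    | de n e => trivial
  equiv := fun g κ hκ => by
    funext c
    cases c with
    | two => simp only [rho0, Prod.fst_add, add_zero, Prod.snd_add, Pi.add_apply]; ring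
    | qq n => exact S.rq0_equiv X n g κ (hκ _)
    | pi n l =>
      have h1 : (g + (0, κ)).1 = g.1 := add_zero _
      have h2 := S.d0_equiv X n g κ (hκ _)
      rw [Pi.add_apply, rho0, rho0, h1, h2, Prod.snd_add, Pi.add_apply]
      ring
    | be n e l =>
      have h1 : (g + (0, κ)).1 = g.1 := add_zero _
      have h2 := S.d0_equiv X n g κ (hκ _)
      rw [Pi.add_apply, rho0, rho0, h1, h2, Prod.snd_add, Pi.add_apply]
      ring
    | de n e =>
      have h1 : (g + (0, κ)).1 = g.1 := add_zero _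
      rw [Pi.add_apply, rho0, rho0, h1, Prod.snd_add, Pi.add_apply]
      ring

theorem R0_two (g : S.G) : (S.R0 X f).ρ g .two = g.2 .two - Gam0 g.1.1 := rfl

theorem R0_qq (n : F) (g : S.G) : (S.R0 X f).ρ g (.qq n) = S.rq0 X n g := rfl

open Classical in
theorem R0_pi (n : F) (l : Fin S.Λ) (g : S.G) : (S.R0 X f).ρ g (.pi n l) = g.2 (.pi n l) -
    if InL (S.q n) l (S.d0 X n g) then ((mu (S.u n) g.1 : ℤ) : ZMod (S.p (.pi n l))) else 0 := rfl

open Classical in
theorem R0_be (n : F) (e : A) (l : Fin S.Λ) (g : S.G) :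
    (S.R0 X f).ρ g (.be n e l) = g.2 (.be n e l) -
      if f n (lam (S.v n) g.1) = e ∧ (l : ℕ) = S.lsel n (S.d0 X n g) then
        ((mu (S.u n) g.1 : ℤ) : ZMod (S.p (.be n e l))) else 0 := rfl

open Classical in
theorem R0_de (n : F) (e : A) (g : S.G) : (S.R0 X f).ρ g (.de n e) = g.2 (.de n e) -
    if f n (lam (S.v n) g.1) = e then ((mu (S.u n) g.1 : ℤ) : ZMod (S.p (.de n e))) else 0 := rfl

end Setup

end Crest.Agent.R46
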