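import Crest.Agent.R46.Align

/-! Rigidity of real tilings by the big tile. -/

set_option autoImplicit false
set_option linter.unusedSectionVars false

namespace Crest.Agent.R46

open Finset Crest.CombinatoricsR.Tiling Crest.Agent.R34

theorem rigid_mem_bigT {M L : ℕ} {F E : Fin M → Finset (Fin 3 → ℤ)} {z : Fin 3 → ℤ} :
    z ∈ bigT L F E ↔ ∃ m, ∃ f ∈ F m, ∃ e ∈ E m, (L : ℤ) • f + e = z := by
  simp only [bigT, mem_biUnion, mem_univ, true_and, mem_image, mem_product, Prod.exists]
  constructor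
  · rintro ⟨m, f, e, ⟨hf, he⟩, rfl⟩
    exact ⟨m, f, hf, e, he, rfl⟩
  · rintro ⟨m, f, hf, e, he, rfl⟩
    exact ⟨m, f, e, ⟨hf, he⟩, rfl⟩

/-- one step: an offset produces the neighbouring offsets, of every type -/
theorem rigid_step {M L : ℕ} {E : Fin M → Finset (Fin 3 → ℤ)} (hE : RigidFam M L E)
    (F : Fin M → Finset (Fin 3 → ℤ)) {B : Set (Fin 3 → ℝ)}
    (h : IsAETilingBy (cubeThickening (bigT L F E)) B) (c : Fin 3 → ℝ) {a f : Fin 3 → ℤ}
    {m₀ : Fin M} (ha : (fun i => c i + (L : ℝ) * ((a i : ℤ) : ℝ)) ∈ B) (hf : f ∈ F m₀)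
    (m : Fin M) (ε : Fin 3 → Fin 3) :
    ∃ a' : Fin 3 → ℤ, (fun i => c i + (L : ℝ) * ((a' i : ℤ) : ℝ)) ∈ B ∧ ∃ f' ∈ F m,
      ∀ i, a' i + f' i = a i + f i + 1 - ((ε i : ℕ) : ℤ) := by
  obtain ⟨e, he, hε⟩ := hE.cube m ε
  set w : Fin 3 → ℤ := fun i => L * (a i + f i + 1 - ((ε i : ℕ) : ℤ)) + e i with hw
  obtain ⟨b', hb', z', hz', hd⟩ := exists_cover h (fun i => c i + (w i : ℝ))
  obtain ⟨m', f', hf', e', he', rfl⟩ := rigid_mem_bigT.1 hz'
  have hL : (0 : ℤ) < L := by have := hE.two_le; omega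
  have hd' : ∀ i, |b' i + ((L : ℝ) * f' i + e' i) - (c i + w i)| < 1 := fun i => by
    have := hd i
    simp only [Pi.add_apply, Pi.smul_apply, smul_eq_mul] at this
    push_cast at this
    exact this
  obtain ⟨k, hk⟩ := aligned hE F h hb' ha hf' hf fun i => by
    have h1 := abs_lt.1 (hd' i)
    have h2 := hE.range m' e' he' i
    have h3 := hε i
    have h4 : -2 * (L : ℤ) + 1 ≤ w i - L * (a i + f i) - e' i := by
      simp only [hw]; nlinarith [h2.2, h3.1]
    have h5 : w i - L * (a i + f i) - e' i ≤ 2 * (L : ℤ) - 1 := by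
      simp only [hw]; nlinarith [h2.1, h3.2]
    have h4' : -2 * (L : ℝ) + 1 ≤ w i - L * (a i + f i) - e' i := by exact_mod_cast h4
    have h5' : (w i : ℝ) - L * (a i + f i) - e' i ≤ 2 * (L : ℝ) - 1 := by exact_mod_cast h5
    rw [abs_le]
    constructor <;> linarith [h1.1, h1.2]
  have hb'' : ∀ i, b' i = c i + (L : ℝ) * ((a i + k i : ℤ) : ℝ) := fun i => by
    have := hk i
    push_cast
    linarith
  have hint : ∀ i, L * (a i + k i) + (L * f' i + e' i) = w i := fun i => by
    have h1 := hd' i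
    rw [hb'' i] at h1
    have h2 : |((L * (a i + k i) + (L * f' i + e' i) - w i : ℤ) : ℝ)| < 1 := by
      convert h1 using 2
      push_cast; ring
    have h3 : |L * (a i + k i) + (L * f' i + e' i) - w i| < 1 := by exact_mod_cast h2
    have := Int.abs_lt_one_iff.1 h3
    omega
  obtain ⟨me, -, hme⟩ := hE.res e
  have e1 : (m, e) = me := hme (m, e) ⟨he, fun i => by simp⟩
  have e2 : (m', e') = me := hme (m', e') ⟨he', fun i =>
    ⟨a i + k i + f' i - (a i + f i + 1 - ((ε i : ℕ) : ℤ)), by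
      have := hint i
      simp only [hw] at this
      linear_combination -this⟩⟩
  obtain ⟨rfl, rfl⟩ := Prod.mk.inj (e2.trans e1.symm)
  refine ⟨fun i => a i + k i, ?_, f', hf', fun i => ?_⟩
  · convert hb' using 1
    exact (funext hb'').symm
  · have := hint i
    simp only [hw] at this
    refine mul_left_cancel₀ hL.ne' ?_
    linear_combination this

theorem real_rigid {M L : ℕ} {E : Fin M → Finset (Fin 3 → ℤ)} (hE : RigidFam M L E)
    (F : Fin M → Finset (Fin 3 → ℤ)) (hF : ∀ m, (F m).Nonempty) {B : Set (Fin 3 → ℝ)}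
    (h : IsAETilingBy (cubeThickening (bigT L F E)) B) :
    ∃ (c : Fin 3 → ℝ) (A : Set (Fin 3 → ℤ)), (∀ m, IsTilingBy (F m) A) ∧
      B = (fun a i => c i + (L : ℝ) * ((a i : ℤ) : ℝ)) '' A := by
  obtain ⟨c, hc, z₀, hz₀, -⟩ := exists_cover h 0
  obtain ⟨m₀, f₀, hf₀, -⟩ := rigid_mem_bigT.1 hz₀
  have hL : (0 : ℝ) < L := by have := hE.two_le; positivity
  set A : Set (Fin 3 → ℤ) := {a | (fun i => c i + (L : ℝ) * ((a i : ℤ) : ℝ)) ∈ B} with hA
  -- all integer vectors are offsets
  have hoff : ∀ (n : ℕ) (o : Fin 3 → ℤ), (∀ i, |o i - f₀ i| ≤ n) →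
      ∀ m, ∃ a ∈ A, ∃ f ∈ F m, ∀ i, a i + f i = o i := by
    intro n
    induction n with
    | zero =>
      intro o ho m
      have h0 : (fun i => c i + (L : ℝ) * (((0 : Fin 3 → ℤ) i : ℤ) : ℝ)) ∈ B := by
        convert hc using 1
        funext i; simp
      obtain ⟨a', ha', f', hf', h'⟩ := rigid_step hE F h c h0 hf₀ m (fun _ => 1)
      refine ⟨a', ha', f', hf', fun i => ?_⟩
      have h1 := h' i
      have h2 := abs_le.1 (ho i)
      simp only [Pi.zero_apply, Fin.val_one, Nat.cast_one, Nat.cast_zero] at h1 h2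
      omega
    | succ n ih =>
      intro o ho m
      set ε : Fin 3 → Fin 3 := fun i => if f₀ i < o i then 0 else if o i < f₀ i then 2 else 1
        with hε
      obtain ⟨a, ha, f, hf, hs⟩ := ih (fun i => o i - 1 + ((ε i : ℕ) : ℤ)) (fun i => by
        have h2 := abs_le.1 (ho i)
        rw [abs_le]
        simp only [hε]
        split_ifs with h1 h3
        · simp only [Fin.val_zero, Nat.cast_zero]; push_cast at h2; omega
        · simp only [Fin.val_two, Nat.cast_ofNat]; push_cast at h2; omega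
        · simp only [Fin.val_one, Nat.cast_one]; omega) m
      obtain ⟨a', ha', f', hf', h'⟩ := rigid_step hE F h c ha hf m ε
      refine ⟨a', ha', f', hf', fun i => ?_⟩
      have h1 := h' i
      have h2 := hs i
      omega
  have hall : ∀ (o : Fin 3 → ℤ) m, ∃ a ∈ A, ∃ f ∈ F m, ∀ i, a i + f i = o i := fun o =>
    hoff (∑ i, (o i - f₀ i).natAbs) o fun i => by
      have : (o i - f₀ i).natAbs ≤ ∑ i, (o i - f₀ i).natAbs :=
        single_le_sum (f := fun i => (o i - f₀ i).natAbs) (fun _ _ => Nat.zero_le _) (mem_univ i)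
      rw [Int.abs_eq_natAbs]
      exact_mod_cast this
  refine ⟨c, A, fun m x => ?_, ?_⟩
  · obtain ⟨a, ha, f, hf, hs⟩ := hall x m
    refine ⟨(a, f), ⟨ha, hf, funext hs⟩, ?_⟩
    rintro ⟨a', f'⟩ ⟨ha', hf', hs'⟩
    obtain ⟨e, he, -⟩ := hE.cube m 0
    have hs'' : ∀ i, a' i + f' i = x i := fun i => congrFun hs' i
    have := eq_of_overlap h ha' ha (rigid_mem_bigT.2 ⟨m, f', hf', e, he, rfl⟩)
      (rigid_mem_bigT.2 ⟨m, f, hf, e, he, rfl⟩) fun i => by
        have h1 : ((a' i : ℤ) : ℝ) + f' i = a i + f i := by exact_mod_cast (hs'' i).trans (hs i).symm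
        simp only [Pi.add_apply, Pi.smul_apply, smul_eq_mul]
        push_cast
        have : c i + (L : ℝ) * a' i + (L * f' i + e i) - (c i + L * a i + (L * f i + e i)) = 0 := by
          linear_combination (L : ℝ) * h1
        rw [this]; simp
    have haa : a' = a := funext fun i => by
      have h1 := congrFun this i
      simp only [add_right_inj] at h1
      exact_mod_cast mul_left_cancel₀ hL.ne' h1
    subst haa
    have hff : f' = f := funext fun i => by
      have h1 := hs i
      have h2 := hs'' i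
      omega
    rw [hff]
  · ext b
    constructor
    · intro hb
      obtain ⟨f, hf⟩ := hF m₀
      obtain ⟨a, ha, f', hf', hs⟩ := hall (fun i => ⌊(b i + L * f i - c i) / L⌋) m₀
      obtain ⟨k, hk⟩ := aligned hE F h hb ha hf hf' fun i => by
        have h1 : ((a i : ℤ) : ℝ) + f' i = (⌊(b i + L * f i - c i) / L⌋ : ℤ) := by
          exact_mod_cast hs i
        have h2 := Int.floor_le ((b i + L * f i - c i) / L)
        have h3 := Int.lt_floor_add_one ((b i + L * f i - c i) / L)
        rw [← h1] at h2 h3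
        rw [le_div_iff₀ hL] at h2
        rw [div_lt_iff₀ hL] at h3
        rw [abs_le]
        constructor <;> nlinarith
      have hb' : (fun i => c i + (L : ℝ) * (((a + k) i : ℤ) : ℝ)) = b := funext fun i => by
        have := hk i
        simp only [Pi.add_apply]
        push_cast
        linarith
      exact ⟨a + k, by rw [hA, Set.mem_ofPred_eq, hb']; exact hb, hb'⟩
    · rintro ⟨a, ha, rfl⟩
      exact ha

end Crest.Agent.R46
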