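import Crest.Agent.R46.Basic

/-! Digits and selected lines. -/

set_option autoImplicit false
set_option linter.unusedSectionVars false

namespace Crest.Agent.R46

open Finset Crest.CombinatoricsR.Tiling Crest.Agent.R34

namespace Setup

variable {F A : Type} (S : Setup F A) [Fintype F] [Fintype A] [DecidableEq F] [DecidableEq A]

/-- Chinese remainder theorem through the idempotents -/
theorem SemDigit_crt {ι : Type} [Fintype ι] (c : ι → S.C) (hc : Function.Injective c)
    (t : ι → ℤ) : ∃ T : ℤ, ∀ i, ((S.md (c i) : ℕ) : ℤ) ∣ T - t i := by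
  classical
  refine ⟨∑ i, S.E (c i) * t i, fun i => ?_⟩
  rw [← add_sum_erase _ _ (mem_univ i),
    show S.E (c i) * t i + ∑ j ∈ univ.erase i, S.E (c j) * t j - t i =
      (S.E (c i) - 1) * t i + ∑ j ∈ univ.erase i, S.E (c j) * t j by ring]
  refine dvd_add ((S.E_sub_one _).mul_right _) (dvd_sum fun j hj => ?_)
  exact (S.E_dvd _ _ fun h => ne_of_mem_erase hj (hc h)).mul_right _

/-- constant increments -/
theorem SemDigit_arith {R : Type} [CommRing R] (g : ℤ → R) (c : R)
    (h : ∀ i, g (i + 1) = g i + c) (i : ℤ) : g i = g 0 + i * c := by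
  induction i using Int.induction_on with
  | zero => simp
  | succ n ih => rw [h, ih]; push_cast; ring
  | pred n ih =>
    have := h (-(n : ℤ) - 1)
    rw [sub_add_cancel, ih] at this
    push_cast at this ⊢
    linear_combination -this

/-- from the increments along `E v` to the increments along `4 q² ℤ v` -/
theorem SemDigit_slope {N : ℕ} (M : S.Sem N) (n : F) (e : A) (l : Fin S.Λ) (x : ℤ × ℤ)
    (w : ZMod (S.q n)) (c : ZMod (S.p (.be n e l)))
    (h : ∀ j : ℤ, M.β n e l (x + (4 * (S.q n : ℤ) ^ 2 * j) • S.v n + S.E (.be n e l) • S.v n) w =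
      M.β n e l (x + (4 * (S.q n : ℤ) ^ 2 * j) • S.v n) w + c)
    (k : ℤ) (hk : 4 * (S.q n : ℤ) ^ 2 ∣ k) :
    M.β n e l (x + k • S.v n) w = M.β n e l x w + k * c := by
  obtain ⟨E', hE'⟩ := S.fourq2_dvd_E n (.be n e l) (by simp) (by simp)
  have h1 := SemDigit_arith (fun i : ℤ => M.β n e l (x + (i * S.E (.be n e l)) • S.v n) w) c
    (fun i => by
      have := h (i * E')
      rw [show 4 * (S.q n : ℤ) ^ 2 * (i * E') = i * S.E (.be n e l) by rw [hE']; ring] at this
      rw [← this, add_mul, one_mul, add_smul, add_assoc]) k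
  simp only [zero_mul, zero_smul, add_zero] at h1
  rw [← h1, ← M.β_per n e l (x + k • S.v n) w (k * (S.E (.be n e l) - 1))
    (mul_dvd_mul hk (S.E_sub_one (.be n e l))), add_assoc, ← add_smul]
  congr 3
  ring

/-- every line carries a digit (Chinese remainder theorem) -/
theorem sem_digit {N : ℕ} (M : S.Sem N) :
    ∃ f : F → ℤ → A, (∀ n m, f n (m + N) = f n m) ∧
      ∀ n x, M.δ n (f n (lam (S.v n) x)) (x + S.E (.de n (f n (lam (S.v n) x))) • S.v n) =
        M.δ n (f n (lam (S.v n) x)) x + 1 := by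
  have hex : ∀ n (m : ℤ), ∃ e, ∀ t : ℤ,
      M.δ n e (m • S.u n + t • S.v n + S.E (.de n e) • S.v n) =
        M.δ n e (m • S.u n + t • S.v n) + 1 := by
    intro n m
    by_contra hno
    push Not at hno
    choose t ht using hno
    obtain ⟨T, hT⟩ := S.SemDigit_crt (fun e => .de n e) (fun e e' h => by simpa using h) t
    obtain ⟨e, he⟩ := M.s3 n (m • S.u n + T • S.v n)
    apply ht e
    rw [← M.δ_per n e (m • S.u n + t e • S.v n + S.E (.de n e) • S.v n) _ (hT e),
      ← M.δ_per n e (m • S.u n + t e • S.v n) _ (hT e)]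
    convert he using 2
    · rw [sub_smul]; abel
    · rw [sub_smul]; congr 1; abel
  choose f hf using hex
  refine ⟨fun n m => f n (m % N), fun n m => by simp only [Int.add_emod_right], fun n x => ?_⟩
  have h1 := hf n (lam (S.v n) x % N) (mu (S.u n) x)
  have h2 : x = (lam (S.v n) x % N) • S.u n + mu (S.u n) x • S.v n +
      (N : ℤ) • ((lam (S.v n) x / N) • S.u n) := by
    conv_lhs => rw [decomp (S.det n) x, ← Int.emod_add_mul_ediv (lam (S.v n) x) N]
    rw [add_smul, mul_smul]
    abel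
  rw [← M.δ_N n _ _ ((lam (S.v n) x / N) • S.u n),
    ← M.δ_N n _ (_ + mu (S.u n) x • S.v n) ((lam (S.v n) x / N) • S.u n), ← h2,
    add_right_comm, ← h2] at h1
  exact h1

/-- on a line with digit `e`, every site and layer has an allowed line through the difference
vector whose literal variable has slope one along `4 q² ℤ v` (Chinese remainder theorem) -/
theorem sem_sel {N : ℕ} (M : S.Sem N) (n : F) (e : A) (x : ℤ × ℤ)
    (h : ∀ t : ℤ, M.δ n e (x + t • S.v n + S.E (.de n e) • S.v n) = M.δ n e (x + t • S.v n) + 1)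
    (w : ZMod (S.q n)) :
    ∃ l : Fin S.Λ, S.AlL n e l ∧ InL (S.q n) l (M.d n x w) ∧
      ∀ k : ℤ, 4 * (S.q n : ℤ) ^ 2 ∣ k →
        M.β n e l (x + k • S.v n) w = M.β n e l x w + (k : ZMod (S.p (.be n e l))) := by
  have hex : ∃ l : Fin S.Λ, S.AlL n e l ∧ ∀ j : ℤ,
      M.β n e l (x + (4 * (S.q n : ℤ) ^ 2 * j) • S.v n + S.E (.be n e l) • S.v n) w =
        M.β n e l (x + (4 * (S.q n : ℤ) ^ 2 * j) • S.v n) w + 1 := by
    by_contra hno
    have hno' : ∀ l : Fin S.Λ, ∃ j : ℤ, S.AlL n e l →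
        M.β n e l (x + (4 * (S.q n : ℤ) ^ 2 * j) • S.v n + S.E (.be n e l) • S.v n) w ≠
          M.β n e l (x + (4 * (S.q n : ℤ) ^ 2 * j) • S.v n) w + 1 := by
      intro l
      by_contra h'
      push Not at h'
      exact hno ⟨l, (h' 0).1, fun j => (h' j).2⟩
    choose j hj using hno'
    obtain ⟨J, hJ⟩ := S.SemDigit_crt (fun l => .be n e l) (fun l l' h => by simpa using h) j
    rcases M.s2 n e (x + (4 * (S.q n : ℤ) ^ 2 * J) • S.v n) w with h1 | ⟨l, hl, h1⟩
    · rw [h, add_eq_left] at h1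
      exact one_ne_zero h1
    · apply hj l hl
      have hd : 4 * (S.q n : ℤ) ^ 2 * S.p (.be n e l) ∣ 4 * (S.q n : ℤ) ^ 2 * (J - j l) :=
        mul_dvd_mul_left _ (hJ l)
      rw [← M.β_per n e l (x + (4 * (S.q n : ℤ) ^ 2 * j l) • S.v n + S.E (.be n e l) • S.v n) w _ hd,
        ← M.β_per n e l (x + (4 * (S.q n : ℤ) ^ 2 * j l) • S.v n) w _ hd]
      convert h1 using 2
      · rw [mul_sub, sub_smul]; abel
      · rw [mul_sub, sub_smul]; congr 1; abel
  obtain ⟨l, hl, hs⟩ := hex
  refine ⟨l, hl, ?_, fun k hk => ?_⟩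
  · by_contra hin
    have h0 := hs 0
    rw [mul_zero, zero_smul, add_zero, M.s1 n e l x w hin, left_eq_add] at h0
    exact one_ne_zero h0
  · rw [S.SemDigit_slope M n e l x w 1 hs k hk, mul_one]

/-- off the line the literal variable is constant along `4 q² ℤ v` -/
theorem sem_flat {N : ℕ} (M : S.Sem N) (n : F) (e : A) (l : Fin S.Λ) (x : ℤ × ℤ)
    (w : ZMod (S.q n)) (h : ¬ InL (S.q n) l (M.d n x w)) (k : ℤ) (hk : 4 * (S.q n : ℤ) ^ 2 ∣ k) :
    M.β n e l (x + k • S.v n) w = M.β n e l x w := by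
  rw [S.SemDigit_slope M n e l x w 0 (fun j => ?_) k hk, mul_zero, add_zero]
  rw [add_zero]
  apply M.s1
  rwa [mul_smul, M.d_per]

end Setup

end Crest.Agent.R46
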