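import Crest.Agent.R46.BLR
import Crest.Agent.R46.Digit

/-! A board obeying the rule almost everywhere is almost affine. -/

set_option autoImplicit false
set_option linter.unusedSectionVars false

namespace Crest.Agent.R46

open Finset Crest.CombinatoricsR.Tiling Crest.Agent.R34

namespace StructAux

theorem exists_pr_le {Ω β : Type} [Fintype Ω] [Nonempty Ω] [Fintype β] [Nonempty β]
    (V : β → Ω → Prop) (hV : ∀ b b' ω, V b ω → V b' ω → b = b') :
    ∃ b, pr (V b) ≤ 1 / (Fintype.card β : ℝ) := by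
  classical
  have hc : (0 : ℝ) < Fintype.card β := by exact_mod_cast Fintype.card_pos
  have h1 : ∑ b, pr (V b) ≤ 1 := by
    simp only [pr_eq_ex]
    rw [← ex_sum]
    refine le_trans (ex_mono fun ω => ?_) (ex_const (Ω := Ω) 1).le
    rw [← sum_filter, sum_const, nsmul_eq_mul, mul_one]
    have : (univ.filter fun b => V b ω).card ≤ 1 :=
      card_le_one.2 fun a ha b hb => hV a b ω (mem_filter.1 ha).2 (mem_filter.1 hb).2
    exact_mod_cast this
  have h2 : ∑ b, pr (V b) ≤ ∑ _b : β, 1 / (Fintype.card β : ℝ) := by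
    rw [sum_const, card_univ, nsmul_eq_mul, mul_one_div_cancel hc.ne']
    exact h1
  obtain ⟨b, -, hb⟩ := exists_le_of_sum_le univ_nonempty h2
  exact ⟨b, hb⟩

theorem tri_unique {r : ℕ} (hr : r.Prime) (h1000 : 1000 < r) {x : ZMod r × ZMod r} (hx : x ≠ 0)
    {k k' : Fin 60} {i i' : Fin 3} (h : lamb r (.tri k i) x = 0) (h' : lamb r (.tri k' i') x = 0) :
    k = k' := by
  have : Fact r.Prime := ⟨hr⟩
  have hd : ((al (.tri k i) * be r (.tri k' i') - al (.tri k' i') * be r (.tri k i) : ℤ) :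
      ZMod r) = 0 := by
    by_contra hne
    apply hx
    unfold lamb at h h'
    push_cast at hne
    ext
    · refine mul_left_cancel₀ hne ?_
      simp only [Prod.fst_zero, mul_zero]
      linear_combination (be r (.tri k' i') : ZMod r) * h - (be r (.tri k i) : ZMod r) * h'
    · refine mul_left_cancel₀ hne ?_
      simp only [Prod.snd_zero, mul_zero]
      linear_combination (al (.tri k i) : ZMod r) * h' - (al (.tri k' i') : ZMod r) * h
  rw [ZMod.intCast_zmod_eq_zero_iff_dvd] at hd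
  have hk := k.isLt
  have hk' := k'.isLt
  have h0 : al (.tri k i) * be r (.tri k' i') - al (.tri k' i') * be r (.tri k i) = 0 := by
    refine Int.eq_zero_of_abs_lt_dvd hd ?_
    rw [abs_lt]
    fin_cases i <;> fin_cases i' <;> simp [al, be] <;> omega
  apply Fin.ext
  fin_cases i <;> fin_cases i' <;> simp [al, be] at h0 <;> omega

theorem lam0 (r : ℕ) (k : Fin 60) (ω : ℤ × ℤ) :
    lam (vv r (.tri k 0)) ω = ω.1 + 2 * (k : ℤ) * ω.2 := by
  rw [lam_vv]; simp [al, be]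

theorem lam1 (r : ℕ) (k : Fin 60) (ω : ℤ × ℤ) :
    lam (vv r (.tri k 1)) ω = ω.1 + (2 * (k : ℤ) + 1) * ω.2 := by
  rw [lam_vv]; simp [al, be]

theorem lam2 (r : ℕ) (k : Fin 60) (ω : ℤ × ℤ) :
    lam (vv r (.tri k 2)) ω = 2 * ω.1 + (4 * (k : ℤ) + 1) * ω.2 := by
  rw [lam_vv]; simp [al, be]

theorem lamb0 (r : ℕ) (k : Fin 60) (x : ZMod r × ZMod r) :
    lamb r (.tri k 0) x = x.1 + 2 * ((k : ℕ) : ZMod r) * x.2 := by
  simp [lamb, al, be]

theorem lamb1 (r : ℕ) (k : Fin 60) (x : ZMod r × ZMod r) :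
    lamb r (.tri k 1) x = x.1 + (2 * ((k : ℕ) : ZMod r) + 1) * x.2 := by
  simp [lamb, al, be]

theorem lamb2 (r : ℕ) (k : Fin 60) (x : ZMod r × ZMod r) :
    lamb r (.tri k 2) x = 2 * x.1 + (4 * ((k : ℕ) : ZMod r) + 1) * x.2 := by
  simp [lamb, al, be]

theorem per_mul {G : Type} {N : ℕ} {f : ℤ → G} (h : ∀ m, f (m + N) = f m) (m j : ℤ) :
    f (m + N * j) = f m :=
  (Per1.mul (N := N) (P := fun m' => f m' = f m) (fun m' => by simp only [h]) m j).2 rfl

end StructAux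

open StructAux

theorem struct {r : ℕ} (hr : r.Prime) (h1000 : 1000 < r) {N : ℕ} (hN : 0 < N)
    (g : Fam → ℤ → ZMod r) (per : ∀ n m, g n (m + N) = g n m)
    (W : (Fam → ZMod r) → ZMod r × ZMod r → Prop)
    (h : dens2 N (fun ω => ¬ ∃ x, Wit r (tup r g ω) x ∧ W (tup r g ω) x) ≤ 1 / 60) :
    ∃ (B : ZMod r) (c : ZMod r × ZMod r),
      (∀ M : ℤ, (∀ n m, g n (m + M) = g n m) → B * (M : ZMod r) = 0) ∧
      dens2 N (fun ω => ¬ (Wit r (tup r g ω) (aff B c ω) ∧ W (tup r g ω) (aff B c ω))) ≤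
        1 / 6 := by
  classical
  have : Nonempty (Fin N) := ⟨⟨0, hN⟩⟩
  have hch : ∀ ω : ℤ × ℤ, ∃ x : ZMod r × ZMod r,
      (∃ x, Wit r (tup r g ω) x ∧ W (tup r g ω) x) → Wit r (tup r g ω) x ∧ W (tup r g ω) x := by
    intro ω
    by_cases hω : ∃ x, Wit r (tup r g ω) x ∧ W (tup r g ω) x
    · obtain ⟨x, hx⟩ := hω
      exact ⟨x, fun _ => hx⟩
    · exact ⟨0, fun h => absurd h hω⟩
  choose x hx using hch
  let V : Fin 60 → ℤ × ℤ → Prop := fun k ω => x ω ≠ 0 ∧ ∃ i, lamb r (.tri k i) (x ω) = 0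
  obtain ⟨k, hk⟩ : ∃ k, dens2 N (V k) ≤ 1 / 60 := by
    have := exists_pr_le
      (fun k (y : Fin N × Fin N) => V k (((y.1 : ℕ) : ℤ), ((y.2 : ℕ) : ℤ)))
      (fun k k' y ⟨h0, i, hi⟩ ⟨_, i', hi'⟩ => tri_unique hr h1000 h0 hi hi')
    simp only [Fintype.card_fin, Nat.cast_ofNat] at this
    exact this
  -- the sites at which the three digits of the family `k` are read off the witness
  let Bad : ℤ × ℤ → Prop := fun ω => (¬ ∃ x, Wit r (tup r g ω) x ∧ W (tup r g ω) x) ∨ V k ω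
  have hBad : dens2 N Bad ≤ 1 / 30 := (dens2_or_le N _ _).trans (by linarith)
  have hgood : ∀ ω, ¬ Bad ω → (Wit r (tup r g ω) (x ω) ∧ W (tup r g ω) (x ω)) ∧
      ∀ i, g (.tri k i) (lam (vv r (.tri k i)) ω) = lamb r (.tri k i) (x ω) := by
    intro ω hω
    have h1 := hx ω (by_contra fun h => hω (Or.inl h))
    exact ⟨h1, fun i => h1.1.2.1 (.tri k i) (by simp) fun h => hω (Or.inr ⟨h1.1.1, i, h⟩)⟩
  let P : ℤ × ℤ → Prop := fun ω => g (.tri k 0) (lam (vv r (.tri k 0)) ω) +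
    g (.tri k 1) (lam (vv r (.tri k 1)) ω) ≠ g (.tri k 2) (lam (vv r (.tri k 2)) ω)
  have hP : Per2 N P := per2_of_smul fun ω y => by
    simp only [P, lam_add, lam_smul, per_mul (per _)]
  have hP1 : dens2 N P ≤ 1 / 30 := by
    refine le_trans (dens2_mono fun ω hω => ?_) hBad
    by_contra hb
    apply hω
    have h1 := (hgood ω hb).2
    rw [h1, h1, h1, lamb0, lamb1, lamb2]
    ring
  rw [← dens2_basis hP (2 * (k : ℤ) + 1, -1) (-2 * (k : ℤ), 1) (by simp only [lam]; ring)] at hP1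
  have hP2 : dens2 N (fun y => g (.tri k 0) y.1 + g (.tri k 1) y.2 ≠ g (.tri k 2) (y.1 + y.2)) ≤
      1 / 30 := by
    refine le_trans (dens2_mono fun y hy => ?_) hP1
    have e0 : lam (vv r (.tri k 0)) (y.1 • (2 * (k : ℤ) + 1, -1) + y.2 • (-2 * (k : ℤ), 1)) =
        y.1 := by
      rw [lam0]; simp; ring
    have e1 : lam (vv r (.tri k 1)) (y.1 • (2 * (k : ℤ) + 1, -1) + y.2 • (-2 * (k : ℤ), 1)) =
        y.2 := by
      rw [lam1]; simp; ring
    have e2 : lam (vv r (.tri k 2)) (y.1 • (2 * (k : ℤ) + 1, -1) + y.2 • (-2 * (k : ℤ), 1)) =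
        y.1 + y.2 := by
      rw [lam2]; simp; ring
    simp only [P, e0, e1, e2]
    exact hy
  obtain ⟨B, c₁, c₂, hB, h₁, h₂⟩ := blr hN _ _ _ (per _) (per _) (per _) (by norm_num) hP2
  have hNB : (N : ℤ) • B = 0 := hB N (per _)
  have hper : ∀ n c, Per1 N fun m => g n m ≠ m • B + c := fun n c m => by
    simp only [per, add_zsmul, hNB, add_zero]
  rw [← dens2_lam hN (hper _ _) _ _ (lam_vv_uu r (.tri k 0))] at h₁
  rw [← dens2_lam hN (hper _ _) _ _ (lam_vv_uu r (.tri k 1))] at h₂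
  refine ⟨B, (c₁ - 2 * ((k : ℕ) : ZMod r) * (c₂ - c₁), c₂ - c₁), fun M hM => ?_, ?_⟩
  · have := hB M (hM _)
    rwa [zsmul_eq_mul, mul_comm] at this
  · refine le_trans (dens2_mono (Q := fun ω => Bad ω ∨
      (g (.tri k 0) (lam (vv r (.tri k 0)) ω) ≠ lam (vv r (.tri k 0)) ω • B + c₁ ∨
        g (.tri k 1) (lam (vv r (.tri k 1)) ω) ≠ lam (vv r (.tri k 1)) ω • B + c₂))
      fun ω hω => ?_) ?_
    · by_contra hb
      apply hω
      simp only [not_or, not_not] at hb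
      obtain ⟨hb0, e0, e1⟩ := hb
      obtain ⟨hw, h1⟩ := hgood ω hb0
      rw [h1, lamb0, lam0, zsmul_eq_mul] at e0
      rw [h1, lamb1, lam1, zsmul_eq_mul] at e1
      push_cast at e0 e1
      have : aff B (c₁ - 2 * ((k : ℕ) : ZMod r) * (c₂ - c₁), c₂ - c₁) ω = x ω := by
        ext
        · simp only [aff]
          linear_combination -e0 + 2 * ((k : ℕ) : ZMod r) * (e1 - e0)
        · simp only [aff]
          linear_combination e0 - e1
      rwa [this]
    · refine (dens2_or_le N _ _).trans ?_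
      have := dens2_or_le N
        (fun ω => g (.tri k 0) (lam (vv r (.tri k 0)) ω) ≠ lam (vv r (.tri k 0)) ω • B + c₁)
        (fun ω => g (.tri k 1) (lam (vv r (.tri k 1)) ω) ≠ lam (vv r (.tri k 1)) ω • B + c₂)
      linarith

end Crest.Agent.R46
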